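import Vale.Agent.P159.H816.HtB
import Vale.Agent.P159.H859.Gtr
import Vale.Agent.P159.H513.Cor

/-!
P159 / module HT (helper816): FINE part on the torus.

* `edge_le`   : gradient of the bare potential of a source: `|κ grad (M + κ(-Δ))⁻¹ u|² ≤ Γ |u|²`,
                `Γ = 4 (T/τ)² (κ/(τ N²) + 1 + log N)` for `τ ≤ M ≤ T`;
* `dom_int`, `dom_neu` : `log Z(J) - log Z(0) ≤ <J,(M+κ(-Δ))⁻¹ J>/2` as soon as the gradient of the
                bare potential is `≤ cs` everywhere, `κ (b + 12 max(b,1)² cs²) ≤ 1`; integer, neutral;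
* `fine_int`, `fine_neu` : the quadratic Chernoff bound for cell averages,
                mass `MC N l t τ`, source `cobVᵀ e`.
-/

set_option linter.unusedSectionVars false

namespace Vale.Agent.P159.H816

open Finset Matrix MeasureTheory ProbabilityTheory
open Vale.Agent.P159.TM.H104 (EM Ex Cv K3 Lg li nh Gr)
open Vale.Agent.P159.TM.H764 (Gh cN sN dt EE grd Q nrm)
open Vale.Agent.P159.TM.Spec (V)
open Vale.Agent.P159.TM.SpecC (Tor wT)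
open Vale.Agent.P159.H37
open Vale.Agent.P159.H513 (dvT nC nK oK eE2)
open Vale.Agent.P159.H864 hiding qf_smul_mat
open Vale.Agent.P159.H859
open Vale.Agent.P159.H963 (Neu nM nMC MF ntr gw_wT Gnc)

noncomputable section

/-! ### the resolvent with a non scalar mass -/

section res

variable {N : ℕ} [NeZero N]

lemma sq_eq (u : V N → ℝ) : H859.sq u = ∑ x, u x ^ 2 := by
  unfold H859.sq dotProduct
  exact Finset.sum_congr rfl fun x _ => by ring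

lemma dot_le (u v : V N → ℝ) : (u ⬝ᵥ v) ^ 2 ≤ (∑ x, u x ^ 2) * ∑ x, v x ^ 2 := by
  unfold dotProduct
  exact Finset.sum_mul_sq_le_sq_mul_sq _ _ _

/-- norm of a symmetric matrix `0 ≤ B ≤ β` -/
lemma norm_psd_le {B : Matrix (V N) (V N) ℝ} (hB : Bᵀ = B) {β : ℝ}
    (h0 : ∀ u, 0 ≤ qf B u) (h1 : ∀ u, qf B u ≤ β * ∑ x, u x ^ 2) (z : V N → ℝ) :
    ∑ x, (B *ᵥ z) x ^ 2 ≤ β ^ 2 * ∑ x, z x ^ 2 := by
  have h2 : ∑ x, (B *ᵥ z) x ^ 2 = bf B z (B *ᵥ z) := by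
    rw [bf_comm hB, bf_eq]
    unfold dotProduct
    exact Finset.sum_congr rfl fun x _ => by ring
  have h3 := H864.bf_sq_le hB h0 z (B *ᵥ z)
  rw [← h2] at h3
  set s := ∑ x, (B *ᵥ z) x ^ 2 with hs
  set r := ∑ x, z x ^ 2 with hr
  have hs0 : 0 ≤ s := Finset.sum_nonneg fun _ _ => sq_nonneg _
  have hr0 : 0 ≤ r := Finset.sum_nonneg fun _ _ => sq_nonneg _
  have h4 : s ^ 2 ≤ (β * r) * (β * s) :=
    h3.trans (mul_le_mul (h1 z) (h1 _) (h0 _) ((h0 z).trans (h1 z)))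
  rcases hs0.eq_or_lt with h5 | h5
  · rw [← h5]
    positivity
  · have h6 : s * s ≤ (β ^ 2 * r) * s := by nlinarith
    exact le_of_mul_le_mul_right h6 h5

/-- constant of the edge gradients -/
def Gam (N : ℕ) (T τ κ : ℝ) : ℝ := 4 * (T / τ) ^ 2 * (κ / (τ * (N : ℝ) ^ 2) + (1 + Real.log N))

variable {M : Matrix (V N) (V N) ℝ} {τ T κ : ℝ}

lemma coer_add (hκ : 0 ≤ κ) (h1 : ∀ u : V N → ℝ, τ * ∑ x, u x ^ 2 ≤ qf M u) (u : V N → ℝ) :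
    τ * ∑ x, u x ^ 2 ≤ qf (M + κ • lapM) u := by
  rw [qf_add_mat, H864.qf_smul_mat, qf_lapM]
  have := mul_nonneg hκ (grd_nonneg u)
  linarith [h1 u]

lemma res_symm (hM : Mᵀ = M) : ((M + κ • lapM)⁻¹)ᵀ = (M + κ • lapM)⁻¹ := by
  rw [Matrix.transpose_nonsing_inv, transpose_add, transpose_smul, hM, ti_lapM.transpose]

lemma res_sq_le (hM : Mᵀ = M) (hτ : 0 < τ) (hκ : 0 ≤ κ)
    (h1 : ∀ u : V N → ℝ, τ * ∑ x, u x ^ 2 ≤ qf M u) (z : V N → ℝ) :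
    ∑ x, ((M + κ • lapM)⁻¹ *ᵥ z) x ^ 2 ≤ (τ⁻¹) ^ 2 * ∑ x, z x ^ 2 := by
  have hc := coer_add hκ h1
  have hdet := coer_det hτ hc
  set w := (M + κ • lapM)⁻¹ *ᵥ z with hw
  have h2 : (M + κ • lapM) *ᵥ w = z := by
    rw [hw, Matrix.mulVec_mulVec, Matrix.mul_nonsing_inv _ hdet, Matrix.one_mulVec]
  have h3 := hc w
  rw [qf_eq, h2] at h3
  have h4 := dot_le w z
  set s := ∑ x, w x ^ 2 with hs
  have hs0 : 0 ≤ s := Finset.sum_nonneg fun _ _ => sq_nonneg _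
  have hr0 : 0 ≤ ∑ x, z x ^ 2 := Finset.sum_nonneg fun _ _ => sq_nonneg _
  have h5 : (τ * s) ^ 2 ≤ s * ∑ x, z x ^ 2 :=
    (pow_le_pow_left₀ (by positivity) h3 2).trans h4
  rw [inv_pow, inv_mul_eq_div, le_div_iff₀ (by positivity)]
  rcases hs0.eq_or_lt with h6 | h6
  · rw [← h6, zero_mul]
    exact hr0
  · have h7 : s * (s * τ ^ 2) ≤ s * ∑ x, z x ^ 2 := by nlinarith
    exact le_of_mul_le_mul_left h7 h6

/-- `|(M+κ(-Δ))⁻¹ v| ≤ √2 (T/τ) |(τ+κ(-Δ))⁻¹ v|` -/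
lemma res_cmp (hM : Mᵀ = M) (hτ : 0 < τ) (hτT : τ ≤ T) (hκ : 0 ≤ κ)
    (h1 : ∀ u : V N → ℝ, τ * ∑ x, u x ^ 2 ≤ qf M u)
    (h2 : ∀ u : V N → ℝ, qf M u ≤ T * ∑ x, u x ^ 2) (v : V N → ℝ) :
    ∑ x, ((M + κ • lapM)⁻¹ *ᵥ v) x ^ 2 ≤ 2 * (T / τ) ^ 2 * ∑ x, (Rk τ κ *ᵥ v) x ^ 2 := by
  have hc := coer_add hκ h1
  have hdet := coer_det hτ hc
  have hτc : ∀ u : V N → ℝ, τ * ∑ x, u x ^ 2 ≤ qf (τ • (1 : Matrix (V N) (V N) ℝ) + κ • lapM) u :=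
    coer_add hκ fun u => (qf_smul_one τ u).ge
  have hdet' := coer_det hτ hτc
  set B : Matrix (V N) (V N) ℝ := M - τ • (1 : Matrix (V N) (V N) ℝ) with hB
  have hBs : Bᵀ = B := by rw [hB, transpose_sub, transpose_smul, transpose_one, hM]
  have hBq : ∀ u, qf B u = qf M u - τ * ∑ x, u x ^ 2 := fun u => by
    rw [hB, H864.qf_sub_mat, qf_smul_one]
  set y := Rk τ κ *ᵥ v with hy
  have hyv : (τ • (1 : Matrix (V N) (V N) ℝ) + κ • lapM) *ᵥ y = v := by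
    rw [hy]
    unfold Rk
    rw [Matrix.mulVec_mulVec, Matrix.mul_nonsing_inv _ hdet', Matrix.one_mulVec]
  have e1 : (M + κ • lapM)⁻¹ *ᵥ v = y - (M + κ • lapM)⁻¹ *ᵥ (B *ᵥ y) := by
    have h3 : (M + κ • lapM) *ᵥ y - B *ᵥ y = v := by
      rw [← Matrix.sub_mulVec, ← hyv]
      congr 1
      rw [hB]
      abel
    rw [← h3, Matrix.mulVec_sub, Matrix.mulVec_mulVec, Matrix.nonsing_inv_mul _ hdet,
      Matrix.one_mulVec]
  have h3 := res_sq_le hM hτ hκ h1 (B *ᵥ y)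
  have h4 := norm_psd_le hBs (β := T - τ) (fun u => by rw [hBq]; linarith [h1 u])
    (fun u => by rw [hBq]; linarith [h2 u]) y
  have h5 : ∑ x, ((M + κ • lapM)⁻¹ *ᵥ (B *ᵥ y)) x ^ 2 ≤
      ((T - τ) / τ) ^ 2 * ∑ x, y x ^ 2 := by
    refine (h3.trans (mul_le_mul_of_nonneg_left h4 (by positivity))).trans (le_of_eq ?_)
    rw [div_pow]
    field_simp
  rw [e1]
  set y' : V N → ℝ := (M + κ • lapM)⁻¹ *ᵥ (B *ᵥ y) with hy'
  have h6 : ∑ x, (y - y') x ^ 2 ≤ ∑ x, (2 * y x ^ 2 + 2 * y' x ^ 2) := by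
    refine Finset.sum_le_sum fun x _ => ?_
    rw [Pi.sub_apply]
    nlinarith [sq_nonneg (y x + y' x)]
  rw [Finset.sum_add_distrib, ← Finset.mul_sum, ← Finset.mul_sum] at h6
  have hy0 : 0 ≤ ∑ x, y x ^ 2 := Finset.sum_nonneg fun _ _ => sq_nonneg _
  have h7 : 1 + ((T - τ) / τ) ^ 2 ≤ (T / τ) ^ 2 := by
    have e : T / τ = 1 + (T - τ) / τ := by field_simp; ring
    rw [e]
    have : 0 ≤ (T - τ) / τ := div_nonneg (sub_nonneg.2 hτT) hτ.le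
    nlinarith
  have h8 := mul_le_mul_of_nonneg_right h7 hy0
  nlinarith

lemma nrm_e1 : (nrm ((1, 0) : V N) : ℝ) ≤ 1 := by
  have h : nrm ((1, 0) : V N) ≤ 1 := by
    unfold nrm
    rcases Nat.lt_or_ge 1 N with h | h
    · have : Fact (1 < N) := ⟨h⟩
      have h1 : ((1 : ZMod N).valMinAbs).natAbs ≤ 1 := by
        have h2 := ZMod.natAbs_valMinAbs_le (n := N) (1 : ZMod N)
        rw [ZMod.valMinAbs_natAbs_eq_min, ZMod.val_one]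
        exact min_le_left _ _
      simp only [ZMod.valMinAbs_zero, Int.natAbs_zero]
      omega
    · have : N = 1 := le_antisymm h (NeZero.pos N)
      subst this
      decide
  exact_mod_cast h

lemma nrm_e2 : (nrm ((0, 1) : V N) : ℝ) ≤ 1 := by
  have h := nrm_e1 (N := N)
  unfold nrm at h ⊢
  simpa [add_comm, max_comm] using h

/-- **gradient of the bare potential** -/
theorem edge_le (hM : Mᵀ = M) (hτ : 0 < τ) (hτT : τ ≤ T) (hκ : 0 < κ)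
    (h1 : ∀ u : V N → ℝ, τ * ∑ x, u x ^ 2 ≤ qf M u)
    (h2 : ∀ u : V N → ℝ, qf M u ≤ T * ∑ x, u x ^ 2) (u : V N → ℝ) (x : V N) (s : Bool) :
    ge κ ((M + κ • lapM)⁻¹ *ᵥ u) x s ^ 2 ≤ Gam N T τ κ * ∑ y, u y ^ 2 := by
  set H := (M + κ • lapM)⁻¹ with hH
  have key : ∀ d : V N, (nrm d : ℝ) ≤ 1 →
      (κ * ((H *ᵥ u) (x + d) - (H *ᵥ u) x)) ^ 2 ≤ Gam N T τ κ * ∑ y, u y ^ 2 := by
    intro d hd
    set v : V N → ℝ := Pi.single (x + d) 1 - Pi.single x 1 with hv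
    have e1 : (H *ᵥ u) (x + d) - (H *ᵥ u) x = (H *ᵥ v) ⬝ᵥ u := by
      have hHs : Hᵀ = H := by rw [hH]; exact res_symm hM
      have : (H *ᵥ v) ⬝ᵥ u = v ⬝ᵥ (H *ᵥ u) := by
        rw [dotProduct_mulVec, ← mulVec_transpose, hHs]
      rw [this, hv, sub_dotProduct, single_one_dotProduct, single_one_dotProduct]
    have h3 := res_cmp hM hτ hτT hκ.le h1 h2 v
    rw [← hH] at h3
    have h4 := sq_diff_le (n := N) hτ hκ (x + d) x
    rw [sq_eq, ← hv] at h4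
    have h5 : (nrm (x - (x + d)) : ℝ) ≤ 1 := by
      have e : x - (x + d) = -d := by abel
      rw [e]
      have e2 : nrm (-d) = nrm d := by
        unfold nrm
        rw [Prod.fst_neg, Prod.snd_neg, ZMod.natAbs_valMinAbs_neg, ZMod.natAbs_valMinAbs_neg]
      rw [e2]
      exact hd
    have h6 : (nrm (x - (x + d)) : ℝ) ^ 2 ≤ 1 := by
      have := Nat.cast_nonneg (α := ℝ) (nrm (x - (x + d)))
      nlinarith
    have h7 : 0 ≤ gd N τ κ / κ := div_nonneg (gd_nonneg hτ hκ.le) hκ.le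
    have h8 := gd_le (n := N) hτ hκ
    have h9 : κ ^ 2 * ∑ y, (H *ᵥ v) y ^ 2 ≤ Gam N T τ κ := by
      have h10 : ∑ y, (H *ᵥ v) y ^ 2 ≤ 2 * (T / τ) ^ 2 * (2 * (gd N τ κ / κ)) := by
        refine h3.trans (mul_le_mul_of_nonneg_left (h4.trans ?_) (by positivity))
        have := mul_le_mul_of_nonneg_right h6 h7
        linarith
      refine (mul_le_mul_of_nonneg_left h10 (by positivity)).trans ?_
      have h11 : κ * gd N τ κ ≤ κ / (τ * (N : ℝ) ^ 2) + (1 + Real.log N) := by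
        refine (mul_le_mul_of_nonneg_left h8 hκ.le).trans (le_of_eq ?_)
        have hN : (0 : ℝ) < N := by exact_mod_cast NeZero.pos N
        field_simp
      unfold Gam
      have e : κ ^ 2 * (2 * (T / τ) ^ 2 * (2 * (gd N τ κ / κ))) =
          4 * (T / τ) ^ 2 * (κ * gd N τ κ) := by
        field_simp
        ring
      rw [e]
      exact mul_le_mul_of_nonneg_left h11 (by positivity)
    rw [mul_pow, e1]
    have h12 := dot_le (H *ᵥ v) u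
    have hu0 : 0 ≤ ∑ y, u y ^ 2 := Finset.sum_nonneg fun _ _ => sq_nonneg _
    calc κ ^ 2 * ((H *ᵥ v) ⬝ᵥ u) ^ 2 ≤ κ ^ 2 * ((∑ y, (H *ᵥ v) y ^ 2) * ∑ y, u y ^ 2) :=
          mul_le_mul_of_nonneg_left h12 (by positivity)
      _ = (κ ^ 2 * ∑ y, (H *ᵥ v) y ^ 2) * ∑ y, u y ^ 2 := by ring
      _ ≤ _ := mul_le_mul_of_nonneg_right h9 hu0
  cases s
  · have := key (0, 1) nrm_e2
    unfold ge
    simpa using this
  · have := key (1, 0) nrm_e1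
    unfold ge
    simpa using this

lemma Gam_nonneg (hτ : 0 < τ) (hκ : 0 < κ) : 0 ≤ Gam N T τ κ := by
  unfold Gam
  have h1 : 0 ≤ Real.log N := Real.log_natCast_nonneg N
  positivity

end res

/-! ### domination -/

section dom

variable {N : ℕ} [NeZero N] {b κ cs : ℝ}

lemma cosh_le {x : ℝ} (hx : |x| ≤ 1) : Real.cosh x - 1 ≤ x ^ 2 / 2 + x ^ 4 := by
  have h1 := Real.cosh_le_exp_half_sq x
  have h2 : 0 ≤ x ^ 2 / 2 := by positivity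
  have h3 : x ^ 2 / 2 ≤ 1 := by
    have : x ^ 2 ≤ 1 := by
      rw [← sq_abs]
      exact pow_le_one₀ (abs_nonneg _) hx
    linarith
  have h4 := Real.abs_exp_sub_one_sub_id_le (x := x ^ 2 / 2) (by rwa [abs_of_nonneg h2])
  have h5 := le_abs_self (Real.exp (x ^ 2 / 2) - 1 - x ^ 2 / 2)
  have h6 : (x ^ 2 / 2) ^ 2 ≤ x ^ 4 := by nlinarith [sq_nonneg (x ^ 2)]
  linarith

/-- scalar step: the fourth order error is absorbed in `κ` -/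
lemma absorb (hb : 0 ≤ b) (hκ : 0 < κ) (hcs : κ * (b + 12 * max b 1 ^ 2 * cs ^ 2) ≤ 1)
    (w : V N → ℝ) (hc : ∀ x s, |ge κ w x s| ≤ cs) :
    b / 2 * nC (ge κ w) + 3 * max b 1 ^ 2 * ∑ x, (ge κ w x true ^ 2 + ge κ w x false ^ 2) ^ 2 ≤
      κ * grd w / 2 := by
  have h1 : ∀ x, (ge κ w x true ^ 2 + ge κ w x false ^ 2) ^ 2 ≤
      2 * cs ^ 2 * (ge κ w x true ^ 2 + ge κ w x false ^ 2) := by
    intro x
    have h2 : ge κ w x true ^ 2 ≤ cs ^ 2 := sq_le_sq' (abs_le.1 (hc x true)).1 (abs_le.1 (hc x true)).2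
    have h3 : ge κ w x false ^ 2 ≤ cs ^ 2 :=
      sq_le_sq' (abs_le.1 (hc x false)).1 (abs_le.1 (hc x false)).2
    have h4 : 0 ≤ ge κ w x true ^ 2 + ge κ w x false ^ 2 := by positivity
    nlinarith
  have h5 : ∑ x, (ge κ w x true ^ 2 + ge κ w x false ^ 2) ^ 2 ≤ 2 * cs ^ 2 * nC (ge κ w) := by
    unfold nC
    rw [Finset.mul_sum]
    exact Finset.sum_le_sum fun x _ => h1 x
  have h6 := mul_le_mul_of_nonneg_left h5 (show 0 ≤ 3 * max b 1 ^ 2 by positivity)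
  have h7 : nC (ge κ w) = κ ^ 2 * grd w := nC_ge κ w
  have h8 : 0 ≤ grd w := grd_nonneg w
  rw [h7] at h6 ⊢
  have h9 : κ * (b + 12 * max b 1 ^ 2 * cs ^ 2) * (κ * grd w) ≤ 1 * (κ * grd w) :=
    mul_le_mul_of_nonneg_right hcs (mul_nonneg hκ.le h8)
  nlinarith

/-- **domination, integer model** -/
theorem dom_int (hb : 0 ≤ b) {M : Matrix (V N) (V N) ℝ} (hMs : Mᵀ = M) {m0 : ℝ} (hm0 : 0 < m0)
    (hM : ∀ u : V N → ℝ, m0 * ∑ x, u x ^ 2 ≤ qf M u) (hκ : 0 < κ)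
    (hcs : κ * (b + 12 * max b 1 ^ 2 * cs ^ 2) ≤ 1) (hcs1 : cs ≤ 1) (J : V N → ℝ)
    (hc : ∀ x s, |ge κ ((M + κ • lapM)⁻¹ *ᵥ J) x s| ≤ cs) :
    Lg (wM (wT b N) M) J - Lg (wM (wT b N) M) 0 ≤ qf (M + κ • lapM)⁻¹ J / 2 := by
  have hco := coer_add hκ.le hM
  have hdet := coer_det hm0 hco
  have hAu : IsUnit (M + κ • lapM) := (Matrix.isUnit_iff_isUnit_det _).2 hdet
  set w := (M + κ • lapM)⁻¹ *ᵥ J with hw
  have h0 : (M + κ • lapM) *ᵥ w = J := by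
    rw [hw, Matrix.mulVec_mulVec, Matrix.mul_nonsing_inv _ hdet, Matrix.one_mulVec]
  have h1 := H513.e2_bare hb hMs hm0 hM J w (ge κ w) (fun x => by
    rw [dvT_ge, ← h0, Matrix.add_mulVec, Matrix.smul_mulVec, Pi.add_apply, Pi.smul_apply,
      smul_eq_mul])
  have h3 : qf (M + κ • lapM) w = qf (M + κ • lapM)⁻¹ J := qf_of_mul hAu J
  rw [qf_add_mat, H864.qf_smul_mat, qf_lapM] at h3
  have h4 := absorb hb hκ hcs w hc
  have h5 : b * ∑ x, ((Real.cosh (ge κ w x true) - 1) + (Real.cosh (ge κ w x false) - 1)) ≤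
      b / 2 * nC (ge κ w) + 3 * max b 1 ^ 2 *
        ∑ x, (ge κ w x true ^ 2 + ge κ w x false ^ 2) ^ 2 := by
    have h6 : ∀ x, (Real.cosh (ge κ w x true) - 1) + (Real.cosh (ge κ w x false) - 1) ≤
        (ge κ w x true ^ 2 + ge κ w x false ^ 2) / 2 +
          (ge κ w x true ^ 2 + ge κ w x false ^ 2) ^ 2 := by
      intro x
      have h7 := cosh_le ((hc x true).trans hcs1)
      have h8 := cosh_le ((hc x false).trans hcs1)
      nlinarith [mul_nonneg (sq_nonneg (ge κ w x true)) (sq_nonneg (ge κ w x false))]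
    have h7 := mul_le_mul_of_nonneg_left (Finset.sum_le_sum fun x (_ : x ∈ Finset.univ) => h6 x) hb
    refine h7.trans ?_
    rw [Finset.sum_add_distrib, ← Finset.sum_div, mul_add]
    have h8 : 0 ≤ ∑ x, (ge κ w x true ^ 2 + ge κ w x false ^ 2) ^ 2 :=
      Finset.sum_nonneg fun _ _ => sq_nonneg _
    have h9 : b ≤ 3 * max b 1 ^ 2 := by
      have h10 : b ≤ max b 1 := le_max_left _ _
      have h11 : 1 ≤ max b 1 := le_max_right _ _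
      nlinarith
    have h10 := mul_le_mul_of_nonneg_right h9 h8
    unfold nC
    linarith
  linarith

/-- **domination, neutral model** -/
theorem dom_neu (hb : 0 ≤ b) {M : Matrix (V N) (V N) ℝ} {m : ℝ} (hM : MF M m) (x₀ : V N)
    (hκ : 0 < κ) (hcs : κ * (b + 12 * max b 1 ^ 2 * cs ^ 2) ≤ 1) (hcs1 : cs ≤ 1) (J : V N → ℝ)
    (hJ : Neu J) (hc : ∀ x s, |ge κ ((M + κ • lapM)⁻¹ *ᵥ J) x s| ≤ cs) :
    Lg (nM (wT b N) M m x₀) J - Lg (nM (wT b N) M m x₀) 0 ≤ qf (M + κ • lapM)⁻¹ J / 2 := by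
  obtain ⟨m0, hm0, hco⟩ := hM.coer
  set A : Matrix (V N) (V N) ℝ := M + κ • lapM with hA
  have hA0 := coer_add hκ.le hco
  rw [← hA] at hA0
  have hrl : ∀ x : V N, ∑ y, lapM x y = 0 := by
    intro x
    have h1 := H340.lapM_mulVec (fun _ : V N => (1 : ℝ)) x
    simp only [Matrix.mulVec, dotProduct, mul_one] at h1
    rw [h1]
    ring
  have hAM : MF A m := by
    refine ⟨?_, fun x => ?_, m0, hm0, hA0⟩
    · rw [hA, Matrix.transpose_add, Matrix.transpose_smul, hM.symm, ti_lapM.transpose]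
    · simp only [hA, Matrix.add_apply, Matrix.smul_apply, smul_eq_mul, Finset.sum_add_distrib,
        hM.row, ← Finset.mul_sum, hrl, mul_zero, add_zero]
  have hdet : IsUnit A.det := hAM.det
  have hAu : IsUnit A := (Matrix.isUnit_iff_isUnit_det A).2 hdet
  set w : V N → ℝ := A⁻¹ *ᵥ J with hw
  have hwn : Neu w := hAM.neu_inv hJ
  have h0 : A *ᵥ w = J := hAM.mulVec_inv J
  have h3 : qf A w = qf A⁻¹ J := qf_of_mul hAu J
  rw [hA, qf_add_mat, H864.qf_smul_mat, qf_lapM, ← hA] at h3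
  have h4 := absorb hb hκ hcs w hc
  refine le_of_forall_pos_le_add fun ε hε => ?_
  have hC := H513.nC_nonneg (ge κ w)
  have hbC := mul_nonneg hb hC
  have h1 := e2_neu_Lg (n := N) (l := 1) (by simp) hb le_rfl hM x₀ J w (ge κ w)
    (fun x t => (hc x t).trans hcs1) (fun x => by
      rw [H963.ntr_of_neu M m hwn, dvT_ge, ← h0, hA, Matrix.add_mulVec, Matrix.smul_mulVec,
        Pi.add_apply, Pi.smul_apply, smul_eq_mul])
    (η := ε / (b * nC (ge κ w) + 1)) (by positivity)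
  rw [H963.qf_ntr_neu M m hwn] at h1
  unfold eE2 at h1
  simp only [oK_one, Finset.sum_const_zero, mul_zero, add_zero] at h1
  have h5 : ∑ k : Fin N × Fin N, nK N 1 N (ge κ w) k ^ 2 =
      ∑ x, (ge κ w x true ^ 2 + ge κ w x false ^ 2) ^ 2 := by
    rw [H513.sum_st (n := N) (l := 1) (by simp)
      (fun x : Tor N => (ge κ w x true ^ 2 + ge κ w x false ^ 2) ^ 2)]
    refine Finset.sum_congr rfl fun k _ => ?_
    have hs : Fintype.card ↥(H950.blk (0, 0) 1) = 1 := by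
      rw [Fintype.card_coe, H950.card_blk]
      simp
    obtain ⟨p0, hp0⟩ := Fintype.card_eq_one_iff.1 hs
    unfold nK
    rw [Fintype.sum_eq_single p0 fun p hp => absurd (hp0 p) hp,
      Fintype.sum_eq_single p0 fun p hp => absurd (hp0 p) hp]
  rw [h5] at h1
  have hS : stiff 1 b ≤ b := stiff_one_le hb
  have h6 : (1 + ε / (b * nC (ge κ w) + 1)) / 2 * (stiff 1 b * nC (ge κ w)) ≤
      (1 + ε / (b * nC (ge κ w) + 1)) / 2 * (b * nC (ge κ w)) :=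
    mul_le_mul_of_nonneg_left (mul_le_mul_of_nonneg_right hS hC) (by positivity)
  have h7 : ε / (b * nC (ge κ w) + 1) * (b * nC (ge κ w)) ≤ ε := by
    rw [div_mul_eq_mul_div, div_le_iff₀ (by positivity)]
    nlinarith
  linarith

end dom

/-! ### the fine part -/

section fine

variable {N l : ℕ} [NeZero N] [NeZero (N / l)] {b t τ κ cs : ℝ} {K : Type*} [Fintype K]

/-- the bare covariance of the heights -/
abbrev Hb (N l : ℕ) [NeZero N] (t τ κ : ℝ) : Matrix (V N) (V N) ℝ := (MC N l t τ + κ • lapM)⁻¹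

lemma abs_ge_add {κ : ℝ} {w w' : V N → ℝ} (x : V N) (s : Bool) :
    ge κ (w + w') x s = ge κ w x s + ge κ w' x s := by
  unfold ge
  cases s
  · simp
    ring
  · simp
    ring

/-- gradient condition for the sum of two small cell sources -/
lemma edge_add (hl : l ∣ N) (hτ : 0 < τ) (h : τ ≤ t) (hκ : 0 < κ) (hcs : 0 ≤ cs)
    {J u : V N → ℝ} (hJ : 4 * Gam N t τ κ * ∑ x, J x ^ 2 ≤ cs ^ 2)
    (hu : 4 * Gam N t τ κ * ∑ x, u x ^ 2 ≤ cs ^ 2) (x : V N) (s : Bool) :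
    |ge κ (Hb N l t τ κ *ᵥ (J + u)) x s| ≤ cs := by
  have h1 := edge_le (MC_tr N l t τ) hτ h hκ (fun u => qf_MC_ge hl h u) (fun u => qf_MC_le hl h u)
  have hh : ∀ v : V N → ℝ, 4 * Gam N t τ κ * ∑ x, v x ^ 2 ≤ cs ^ 2 →
      |ge κ (Hb N l t τ κ *ᵥ v) x s| ≤ cs / 2 := by
    intro v hv
    have h2 := h1 v x s
    refine abs_le_of_sq_le_sq ?_ (by positivity)
    linarith
  rw [Matrix.mulVec_add, abs_ge_add]
  refine (abs_add_le _ _).trans ?_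
  linarith [hh J hJ, hh u hu]

lemma sum_sq_cobV_tr (hl : l ∣ N) (φ : V (N / l) → ℝ) :
    ∑ x, ((cobV N l)ᵀ *ᵥ φ) x ^ 2 = ∑ c, φ c ^ 2 := H864.sq_cobV_tr hl φ

lemma Hb_psd (hl : l ∣ N) (hτ : 0 < τ) (h : τ ≤ t) (hκ : 0 < κ) (u : V N → ℝ) :
    0 ≤ qf (Hb N l t τ κ) u := by
  have hco := coer_add hκ.le fun u => qf_MC_ge (N := N) hl h u
  refine psd_inv (fun v hv => ?_) u
  refine lt_of_lt_of_le ?_ (hco v)
  have : 0 < ∑ x, v x ^ 2 := by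
    obtain ⟨x, hx⟩ := Function.ne_iff.1 hv
    exact Finset.sum_pos' (fun _ _ => sq_nonneg _) ⟨x, Finset.mem_univ _, by
      have : v x ≠ 0 := hx
      positivity⟩
  positivity

lemma Hb_cell (hl : l ∣ N) (hτ : 0 < τ) (h : τ ≤ t) (hκ : 0 < κ) (u : V (N / l) → ℝ) :
    qf (Hb N l t τ κ) ((cobV N l)ᵀ *ᵥ u) ≤ qf (Rk τ (κ / (l : ℝ) ^ 2)) u :=
  cob_res_le hl (MC_tr N l t τ) hτ (fun u => qf_MC_ge hl h u) hτ hκ.le (fun f => by
    rw [qf_MC' hl]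
    have h1 : 0 ≤ t * ∑ x, (f x - (cellP N l *ᵥ f) x) ^ 2 :=
      mul_nonneg (hτ.le.trans h) (Finset.sum_nonneg fun _ _ => sq_nonneg _)
    linarith) u

lemma mulT (A : Matrix K (V (N / l)) ℝ) (φ : K → ℝ) :
    (A * cobV N l)ᵀ *ᵥ φ = (cobV N l)ᵀ *ᵥ (Aᵀ *ᵥ φ) := by
  rw [transpose_mul, mulVec_mulVec]

lemma tr_cell_le (hl : l ∣ N) (hτ : 0 < τ) (h : τ ≤ t) (hκ : 0 < κ)
    (A : Matrix K (V (N / l)) ℝ) :
    (A * cobV N l * Hb N l t τ κ * (A * cobV N l)ᵀ).trace ≤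
      ∑ k, qf (Rk τ (κ / (l : ℝ) ^ 2)) (A k) := by
  classical
  unfold Matrix.trace
  refine Finset.sum_le_sum fun k _ => ?_
  rw [diag_apply]
  have e1 : (A * cobV N l * Hb N l t τ κ * (A * cobV N l)ᵀ) k k =
      qf (Hb N l t τ κ) ((cobV N l)ᵀ *ᵥ (A k)) := by
    have e2 := qf_congr_mul (A * cobV N l) (Hb N l t τ κ) (Pi.single k 1)
    rw [mulT] at e2
    have e3 : Aᵀ *ᵥ Pi.single k (1 : ℝ) = A k := by
      rw [mulVec_single_one]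
      rfl
    rw [e3] at e2
    rw [← e2, qf_eq, mulVec_single_one, single_one_dotProduct]
    rfl
  rw [e1]
  exact Hb_cell hl hτ h hκ (A k)

/-- the common part of the two models: any weight with the bare domination -/
theorem fine_gen {μ : (V N → ℤ) → ℝ} (hE : EM μ) (hl : l ∣ N) (hτ : 0 < τ) (h : τ ≤ t)
    (hκ : 0 < κ) (hcs0 : 0 ≤ cs) (e : V (N / l) → ℝ) (hR : 0 ≤ Rs μ ((cobV N l)ᵀ *ᵥ e))
    (A : Matrix K (V (N / l)) ℝ) {θ a a0 : ℝ} (hθ : 0 ≤ θ) (ha : 0 ≤ a) (ha0 : 0 ≤ a0)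
    (hd : ∀ φ : K → ℝ, (∀ x s, |ge κ (Hb N l t τ κ *ᵥ
        ((cobV N l)ᵀ *ᵥ e + (A * cobV N l)ᵀ *ᵥ φ)) x s| ≤ cs) →
      Lg μ ((cobV N l)ᵀ *ᵥ e + (A * cobV N l)ᵀ *ᵥ φ) - Lg μ 0 ≤
        qf (Hb N l t τ κ) ((cobV N l)ᵀ *ᵥ e + (A * cobV N l)ᵀ *ᵥ φ) / 2)
    (hA : ∀ φ : K → ℝ, ∑ c, (Aᵀ *ᵥ φ) c ^ 2 ≤ a0 * ∑ k, φ k ^ 2)
    (h1 : ∀ φ : K → ℝ, θ * qf (Rk τ (κ / (l : ℝ) ^ 2)) (Aᵀ *ᵥ φ) ≤ (∑ k, φ k ^ 2) / 2)
    (he : 4 * Gam N t τ κ * ∑ c, e c ^ 2 ≤ cs ^ 2)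
    (hρ : 4 * Gam N t τ κ * (a0 * (2 * θ * (θ * a + 2 * Fintype.card K))) ≤ cs ^ 2) :
    Ex μ ((cobV N l)ᵀ *ᵥ e)
      ({h : V N → ℤ | a ≤ ∑ k, ((A * cobV N l) *ᵥ
        (re h - Hb N l t τ κ *ᵥ ((cobV N l)ᵀ *ᵥ e))) k ^ 2}.indicator fun _ => (1 : ℝ)) ≤
      2 * Real.exp ((qf (Rk τ (κ / (l : ℝ) ^ 2)) e - qf (Gm μ) ((cobV N l)ᵀ *ᵥ e)) / 2 +
        θ * ∑ k, qf (Rk τ (κ / (l : ℝ) ^ 2)) (A k) - θ * a / 2) := by
  set J := (cobV N l)ᵀ *ᵥ e with hJ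
  have hGam := Gam_nonneg (N := N) (T := t) hτ hκ
  have hJ2 : 4 * Gam N t τ κ * ∑ x, J x ^ 2 ≤ cs ^ 2 := by
    rw [hJ, sum_sq_cobV_tr hl]
    exact he
  have hmain := htB_base hE (J := J) hR (H := Hb N l t τ κ) (c := 0)
    (res_symm (MC_tr N l t τ)) (A * cobV N l) (fun φ => Hb_psd hl hτ h hκ _) hθ ha le_rfl
    (fun φ hφ => ?_) (fun φ => ?_)
  · refine hmain.trans ?_
    refine mul_le_mul_of_nonneg_left (Real.exp_le_exp.2 ?_) zero_le_two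
    unfold cB
    rw [H864.qf_sub_mat, zero_add]
    have h3 : qf (Hb N l t τ κ) J ≤ qf (Rk τ (κ / (l : ℝ) ^ 2)) e := Hb_cell hl hτ h hκ e
    have h6 := mul_le_mul_of_nonneg_left (tr_cell_le hl hτ h hκ A) hθ
    linarith
  · rw [zero_add]
    refine hd φ fun x s => edge_add hl hτ h hκ hcs0 hJ2 ?_ x s
    rw [mulT, sum_sq_cobV_tr hl]
    refine le_trans ?_ hρ
    exact mul_le_mul_of_nonneg_left ((hA φ).trans (mul_le_mul_of_nonneg_left hφ ha0))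
      (show 0 ≤ 4 * Gam N t τ κ by positivity)
  · rw [mulT]
    exact le_trans (mul_le_mul_of_nonneg_left (Hb_cell hl hτ h hκ _) hθ) (h1 φ)

/-- **FINE, neutral model** -/
theorem fine_neu (hb : 0 ≤ b) (hl : l ∣ N) (hτ : 0 < τ) (h : τ ≤ t) (hκ : 0 < κ)
    (hcs0 : 0 ≤ cs) (hcs : κ * (b + 12 * max b 1 ^ 2 * cs ^ 2) ≤ 1) (hcs1 : cs ≤ 1) (x₀ : V N)
    {e : V (N / l) → ℝ} (hen : Neu e) {A : Matrix K (V (N / l)) ℝ} (hAn : ∀ k, Neu (A k))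
    {θ a a0 : ℝ} (hθ : 0 ≤ θ) (ha : 0 ≤ a)
    (ha0 : 0 ≤ a0) (hA : ∀ φ : K → ℝ, ∑ c, (Aᵀ *ᵥ φ) c ^ 2 ≤ a0 * ∑ k, φ k ^ 2)
    (h1 : ∀ φ : K → ℝ, θ * qf (Rk τ (κ / (l : ℝ) ^ 2)) (Aᵀ *ᵥ φ) ≤ (∑ k, φ k ^ 2) / 2)
    (he : 4 * Gam N t τ κ * ∑ c, e c ^ 2 ≤ cs ^ 2)
    (hρ : 4 * Gam N t τ κ * (a0 * (2 * θ * (θ * a + 2 * Fintype.card K))) ≤ cs ^ 2) :
    Ex (nMC N l b t τ x₀) ((cobV N l)ᵀ *ᵥ e)
      ({h : V N → ℤ | a ≤ ∑ k, ((A * cobV N l) *ᵥ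
        (re h - Hb N l t τ κ *ᵥ ((cobV N l)ᵀ *ᵥ e))) k ^ 2}.indicator fun _ => (1 : ℝ)) ≤
      2 * Real.exp ((qf (Rk τ (κ / (l : ℝ) ^ 2)) e -
        qf (Gm (nMC N l b t τ x₀)) ((cobV N l)ᵀ *ᵥ e)) / 2 +
        θ * ∑ k, qf (Rk τ (κ / (l : ℝ) ^ 2)) (A k) - θ * a / 2) := by
  have hE := H963.em_nMC (N := N) hb hl hτ h x₀
  refine fine_gen hE hl hτ h hκ hcs0 e (H789.Rs_nonneg hE (H963.ev_nMC hb t τ x₀)
    (H963.pk_nMC hb hl hτ h x₀) _) A hθ ha ha0 (fun φ hφ => ?_) hA h1 he hρ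
  refine dom_neu hb (H963.mf_MC hl hτ h) x₀ hκ hcs hcs1 _ ?_ hφ
  have h2 : Neu (Aᵀ *ᵥ φ) := by
    unfold H963.Neu
    have e1 : ∀ c, (Aᵀ *ᵥ φ) c = ∑ k, A k c * φ k := fun c => rfl
    simp only [e1]
    rw [Finset.sum_comm]
    refine Finset.sum_eq_zero fun k _ => ?_
    rw [← Finset.sum_mul]
    have h3 : ∑ c, A k c = 0 := hAn k
    rw [h3, zero_mul]
  have h4 := H963.neu_cobV_tr hl hen
  have h5 := H963.neu_cobV_tr hl h2
  rw [mulT]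
  unfold H963.Neu at h4 h5 ⊢
  simp only [Pi.add_apply, Finset.sum_add_distrib, h4, h5, add_zero]

/-- **FINE, integer model** -/
theorem fine_int (hb : 0 ≤ b) (hl : l ∣ N) (hτ : 0 < τ) (h : τ ≤ t) (hκ : 0 < κ)
    (hcs0 : 0 ≤ cs) (hcs : κ * (b + 12 * max b 1 ^ 2 * cs ^ 2) ≤ 1) (hcs1 : cs ≤ 1)
    (e : V (N / l) → ℝ) (A : Matrix K (V (N / l)) ℝ) {θ a a0 : ℝ} (hθ : 0 ≤ θ) (ha : 0 ≤ a)
    (ha0 : 0 ≤ a0) (hA : ∀ φ : K → ℝ, ∑ c, (Aᵀ *ᵥ φ) c ^ 2 ≤ a0 * ∑ k, φ k ^ 2)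
    (h1 : ∀ φ : K → ℝ, θ * qf (Rk τ (κ / (l : ℝ) ^ 2)) (Aᵀ *ᵥ φ) ≤ (∑ k, φ k ^ 2) / 2)
    (he : 4 * Gam N t τ κ * ∑ c, e c ^ 2 ≤ cs ^ 2)
    (hρ : 4 * Gam N t τ κ * (a0 * (2 * θ * (θ * a + 2 * Fintype.card K))) ≤ cs ^ 2) :
    Ex (wM (wT b N) (MC N l t τ)) ((cobV N l)ᵀ *ᵥ e)
      ({h : V N → ℤ | a ≤ ∑ k, ((A * cobV N l) *ᵥ
        (re h - Hb N l t τ κ *ᵥ ((cobV N l)ᵀ *ᵥ e))) k ^ 2}.indicator fun _ => (1 : ℝ)) ≤
      2 * Real.exp ((qf (Rk τ (κ / (l : ℝ) ^ 2)) e - qf (Gc l (GM N l b t τ)) e) / 2 +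
        θ * ∑ k, qf (Rk τ (κ / (l : ℝ) ^ 2)) (A k) - θ * a / 2) := by
  have hE := H789.em_wM_wT (N := N) hb hτ fun u => qf_MC_ge (N := N) hl h u
  have hK := H789.pk_wM_wT' (N := N) hb hτ fun u => qf_MC_ge (N := N) hl h u
  have hmain := fine_gen hE hl hτ h hκ hcs0 e (H789.Rs_nonneg hE (H789.ev_wM_wT _) hK _) A hθ ha ha0
    (fun φ hφ => dom_int hb (MC_tr N l t τ) hτ (fun u => qf_MC_ge hl h u) hκ hcs hcs1 _ hφ)
    hA h1 he hρ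
  have h4 : qf (Gm (wM (wT b N) (MC N l t τ))) ((cobV N l)ᵀ *ᵥ e) = qf (Gc l (GM N l b t τ)) e := by
    rw [qf_Gc]
    rfl
  rwa [h4] at hmain

end fine

end

end Vale.Agent.P159.H816
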