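import Vale.Agent.P159.H816.St1
import Vale.Agent.P159.H37.Lq2
import Vale.Agent.P159.H552.Tl7

/-!
P159 / **typical sources at sites: numbers along the flow** (helper816, (E3) of 8263), part 2.

* `SitF` : `ν {y^x1 < RF (Y F)} ≤ exp (-(κ y^(-c3)))` on every torus of the window, `1 ≤ Y ≤ y^(-th/16)`,
  every `c3 < 2 c1`, every `κ`;
* `WtOK`, `Ag` in the same letters; `sit_flow`.
-/

set_option linter.unusedSectionVars false

namespace Vale.Agent.P159.H816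

open Filter Topology MeasureTheory Finset Matrix
open Vale.Agent.P159.H972 (Par lg tn Good)
open Vale.Agent.P159.H801 (Ev SFlow)
open Vale.Agent.P159.H447 (nuS src RF_src)
open Vale.Agent.P159.H963.Core (RF)
open Vale.Agent.P159.TM.Spec (V)
open Vale.Agent.P159.TM.SpecC (wT)
open Vale.Agent.P159.H37.Sf (kf sf_TT sf_eps sf_big sf_ny)
open Vale.Agent.P159.H773 (sd nuF)
open Vale.Agent.P159.H770 (wTD wTD_zero)
open Vale.Agent.P159.H708 (WtOK)
open Vale.Agent.P159.H883 (Wt nuM)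
open Vale.Agent.P159.H552.Sm (Ag Rw)

noncomputable section

/-- typical sources at one torus -/
def SitAt (b t Y ρ p : ℝ) (N : ℕ) [NeZero N] : Prop :=
  (nuS N b t).real {F | ρ < RF N b t (Y • F)} ≤ p

lemma SitAt.cast {b t Y ρ p : ℝ} {N M : ℕ} [NeZero N] [NeZero M] (h : N = M)
    (H : SitAt b t Y ρ p N) : SitAt b t Y ρ p M := by
  subst h
  exact H

lemma SitAt.mono {b t Y ρ p ρ' p' : ℝ} {N : ℕ} [NeZero N] (hb : 0 < b) (ht : 0 < t)
    (H : SitAt b t Y ρ p N) (hρ : ρ ≤ ρ') (hp : p ≤ p') : SitAt b t Y ρ' p' N := by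
  have := H447.prob_nuS (N := N) hb ht
  unfold SitAt at *
  refine (measureReal_mono fun F hF => ?_).trans (H.trans hp)
  exact lt_of_le_of_lt hρ hF

/-- `RF` is `Rw` of the dislocation family at zero -/
lemma Rw_RF {N : ℕ} [NeZero N] (b t : ℝ) (F : V N → ℝ) :
    Rw (wTD N b) (t • (1 : Matrix (V N) (V N) ℝ)) t 0 F = RF N b t F := by
  unfold H552.Sm.Rw
  rw [wTD_zero, RF_src]
  rfl

/-- the complement of `Ag` -/
lemma Ag_compl {N : ℕ} [NeZero N] (b t s r : ℝ) :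
    (Ag (wTD N b) (t • (1 : Matrix (V N) (V N) ℝ)) t 0 s r)ᶜ =
      {F | r < RF N b t ((2 * s) • F)} := by
  ext F
  unfold H552.Sm.Ag
  rw [Set.mem_compl_iff, Set.mem_ofPred_eq, Set.mem_ofPred_eq, not_le, Rw_RF, smul_smul]

/-- the density of the law from typical sources -/
lemma WtOK.of_sit {N : ℕ} [NeZero N] {b t ρ p η : ℝ} (hb : 0 < b) (ht : 0 < t) (hρ1 : ρ ≤ 1)
    (hη : 2 * ρ ≤ η) (H : SitAt b t 1 ρ p N) (hρ0 : 0 ≤ ρ) : WtOK b t η p N := by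
  refine ⟨{F | ρ < RF N b t ((1 : ℝ) • F)}, ?_, fun F hF => ?_, H⟩
  · exact measurableSet_lt measurable_const
      ((H447.cont_RF hb.le ht).measurable.comp (measurable_id.const_smul (1 : ℝ)))
  · rw [Set.mem_ofPred_eq, not_lt, one_smul, RF_src] at hF
    have e : Wt (wT b N) (t • (1 : Matrix (V N) (V N) ℝ)) t 0 F =
        Real.exp (H37.Rs (H963.nwt N b t 0) (src N t F)) := rfl
    rw [e]
    have h1 := Real.exp_le_exp.2 hF
    have h2 := Real.abs_exp_sub_one_le (x := ρ) (by rw [abs_of_nonneg hρ0]; exact hρ1)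
    rw [abs_of_nonneg hρ0] at h2
    have h3 := (abs_le.1 h2).2
    linarith

section flow

variable {P : Par} {b σ c c1 q2 qx : ℝ} {a y ε xs : ℕ → ℝ} {c' r q A : ℝ} {N : ℕ}

/-- `1 / y_n ≤ K n` -/
lemma sf_yn1 (h : SFlow P b σ c c1 q2 qx a y ε xs c' r q A N) :
    ∃ K : ℝ, 0 < K ∧ ∀ᶠ n : ℕ in atTop, 1 / y n ≤ K * n := by
  have h1 := h.t3.ny.eventually (gt_mem_nhds (lt_add_one (Real.sqrt (H264.kap * A))))
  have h0 := Real.sqrt_nonneg (H264.kap * A)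
  refine ⟨Real.sqrt (H264.kap * A) + 1, by linarith, ?_⟩
  filter_upwards [h1, eventually_gt_atTop 0] with n hn hn0
  have hn' : (0 : ℝ) < n := by exact_mod_cast hn0
  rw [inv_mul_lt_iff₀ hn'] at hn
  linarith

/-- the level is large against the cells -/
lemma sf_n2 (h : SFlow P b σ c c1 q2 qx a y ε xs c' r q A N) (hσ0 : 0 ≤ σ) (hc1 : 0 < c1)
    (hc18 : c1 ≤ 1 / 8) : ∀ᶠ n : ℕ in atTop, 2 * ε n ^ (-(2 * c1)) ≤ n := by
  obtain ⟨K, hK, hKn⟩ := sf_yn1 h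
  filter_upwards [hKn, h.fl.ev_pow (b := 1 - 4 * c1) (e := 1 / (2 * K)) (by linarith)
    (by positivity), eventually_ge_atTop N] with n g1 g2 hn
  have hy := h.fl.y0 n
  have hy1 := h.y1 n hn
  have h1 : ε n ^ (-(2 * c1)) ≤ y n ^ (-(4 * c1)) := by
    have h2 := Real.rpow_le_rpow_of_nonpos (Real.rpow_pos_of_pos hy _) (h.lo n hn)
      (by linarith : -(2 * c1) ≤ 0)
    rw [← Real.rpow_mul hy.le] at h2
    refine h2.trans (Real.rpow_le_rpow_of_exponent_ge hy hy1 ?_)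
    nlinarith
  have h2 : y n ^ (1 - 4 * c1) = y n ^ (-(4 * c1)) * y n := by
    rw [← Real.rpow_add_one hy.ne']
    congr 1
    ring
  rw [h2] at g2
  have h3 : y n ^ (-(4 * c1)) ≤ 1 / (2 * K) * (1 / y n) := by
    rw [← mul_one_div, mul_one_div _ (y n)] at *
    rw [le_div_iff₀ hy]
    exact g2
  have h4 : 1 / (2 * K) * (1 / y n) ≤ 1 / (2 * K) * (K * n) :=
    mul_le_mul_of_nonneg_left g1 (by positivity)
  have h5 : 1 / (2 * K) * (K * n) = n / 2 := by field_simp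
  linarith

/-- **typical sources at the sites, the tori of the window** -/
def SitW (P : Par) (b ck : ℝ) (y ε : ℕ → ℝ) (i : ℕ) (c3 κ : ℝ) (n : ℕ) : Prop :=
  ∀ R, 2 ^ (n + kf ck y n) ≤ R → R ≤ 2 ^ (n + P.w (ε n) + kf ck y (n + P.w (ε n))) →
    ∀ Y : ℝ, 1 ≤ Y → Y ≤ y n ^ (-(P.th / 16)) →
      SitAt b (tn n) Y (y n ^ P.x1) (Real.exp (-(κ * y n ^ (-c3)))) (sd i R)

theorem sf_sit (hS : SitP P b c1) (h : SFlow P b σ c c1 q2 qx a y ε xs c' r q A N)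
    (hA : P.Adm) (hb : 0 < b) (hσ0 : 0 ≤ σ) (hσ : σ ≤ 1 / 4) (hc1 : 0 < c1) (hc18 : c1 ≤ 1 / 8)
    {ck : ℝ} (hck : 0 < ck) (hck1 : ck ≤ P.thp) (hck2 : 2 * P.th ≤ ck) {i : ℕ} (hi : 1 ≤ i)
    {c3 : ℝ} (hc3 : c3 < 2 * c1) (κ : ℝ) : ∀ᶠ n in atTop, SitW P b ck y ε i c3 κ n := by
  have hx1 : 0 < P.x1 := by
    have := hA.hx
    have := P.th0
    have := P.thp0
    linarith
  have hth := P.th0
  filter_upwards [sf_TT h hA hσ0 hσ hck hck1 hck2 hi, sf_n2 h hσ0 hc1 hc18,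
    h.fl.ev_pow (b := P.x1 / 4) (e := 1 / 2) (by linarith) (by norm_num),
    sf_big h (p := P.th / 64) (M := 2) (by positivity) two_pos,
    sf_big h (p := 2 * c1 - c3) (M := |κ| + 1) (by linarith) (by positivity),
    eventually_ge_atTop N] with n gT gn g1 g2 g3 hn
  have hy := h.fl.y0 n
  have hy1 := h.y1 n hn
  have hε := sf_eps h hn
  have hes := h.es n hn
  have hup : ε n ≤ y n ^ (5 / 4 : ℝ) :=
    (h.up n hn).trans (Real.rpow_le_rpow_of_exponent_ge hy hy1 (by linarith))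
  intro R h1 h2 Y hY1 hY2
  have e0 : 2 ^ (i + Nat.clog 2 R) = sd i R := by
    unfold H773.sd
    rw [pow_add]
  -- amplitude
  have a1 : 2 * Y ≤ ε n ^ (-(P.th / 16)) := by
    have h3 : y n ^ (-(P.th / 16) + -(P.th / 64)) ≤ ε n ^ (-(P.th / 16)) := by
      have h4 := Real.rpow_le_rpow_of_nonpos hε hup (by linarith : -(P.th / 16) ≤ 0)
      rw [← Real.rpow_mul hy.le] at h4
      refine le_trans (le_of_eq ?_) h4
      congr 1
      ring
    rw [Real.rpow_add hy] at h3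
    have h5 : 0 < y n ^ (-(P.th / 16)) := Real.rpow_pos_of_pos hy _
    nlinarith
  -- level
  have a2 : 2 * ε n ^ P.x1 ≤ y n ^ P.x1 := by
    have h4 := Real.rpow_le_rpow hε.le hup hx1.le
    rw [← Real.rpow_mul hy.le] at h4
    have h5 : y n ^ (5 / 4 * P.x1) = y n ^ P.x1 * y n ^ (P.x1 / 4) := by
      rw [← Real.rpow_add hy]
      congr 1
      ring
    have h6 : 0 < y n ^ P.x1 := Real.rpow_pos_of_pos hy _
    rw [h5] at h4
    nlinarith
  -- probability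
  have a3 : κ * y n ^ (-c3) ≤ ε n ^ (-(7 / 4 * c1)) := by
    have h4 := Real.rpow_le_rpow_of_nonpos hε hup (by linarith : -(7 / 4 * c1) ≤ 0)
    rw [← Real.rpow_mul hy.le] at h4
    have h5 : y n ^ (-(2 * c1)) ≤ y n ^ (5 / 4 * -(7 / 4 * c1)) :=
      Real.rpow_le_rpow_of_exponent_ge hy hy1 (by linarith)
    have h6 : y n ^ (-(2 * c1)) = y n ^ (-(2 * c1 - c3)) * y n ^ (-c3) := by
      rw [← Real.rpow_add hy]
      congr 1
      ring
    have h7 : 0 < y n ^ (-c3) := Real.rpow_pos_of_pos hy _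
    have h8 : κ * y n ^ (-c3) ≤ y n ^ (-(2 * c1 - c3)) * y n ^ (-c3) :=
      mul_le_mul_of_nonneg_right (by linarith [le_abs_self κ]) h7.le
    linarith
  have key : SitAt b (tn n) Y (2 * ε n ^ P.x1) (Real.exp (-(ε n ^ (-(7 / 4 * c1)))))
      (2 ^ (i + Nat.clog 2 R)) :=
    hS n (ε n) hε hes (h.good n hn) gn _ (gT R h1 h2) Y hY1 a1
  exact (key.mono hb (tn_pos n) a2 (Real.exp_le_exp.2 (by linarith))).cast e0

/-- every fixed level and amplitude -/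
theorem SitW.at (hb : 0 < b) {ck c3 κ : ℝ} {i n : ℕ} (H : SitW P b ck y ε i c3 κ n)
    {Y ρ : ℝ} (hY : 1 ≤ Y) (hY2 : Y ≤ y n ^ (-(P.th / 16))) (hρ : y n ^ P.x1 ≤ ρ) {R : ℕ}
    (h1 : 2 ^ (n + kf ck y n) ≤ R)
    (h2 : R ≤ 2 ^ (n + P.w (ε n) + kf ck y (n + P.w (ε n)))) :
    (nuF b (sd i) (tn n) R).real {F | ρ < RF (sd i R) b (tn n) (Y • F)} ≤
      Real.exp (-(κ * y n ^ (-c3))) :=
  (H R h1 h2 Y hY hY2).mono hb (tn_pos n) hρ le_rfl

end flow

/-- the probability against powers of the level: `exp (-(y^(-c3))) ≤ n^(-k)` -/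
lemma sf_expn {P : Par} {b σ c c1 q2 qx : ℝ} {a y ε xs : ℕ → ℝ} {c' r q A : ℝ} {N : ℕ}
    (h : SFlow P b σ c c1 q2 qx a y ε xs c' r q A N) {c3 : ℝ} (hc3 : 0 < c3) (k : ℕ) :
    ∀ᶠ n : ℕ in atTop, Real.exp (-(y n ^ (-c3))) * (n : ℝ) ^ k ≤ 1 := by
  obtain ⟨C, hC, hCn⟩ := sf_ny h
  have h1 := tendsto_rpow_mul_exp_neg_mul_atTop_nhds_zero ((k : ℝ) / c3) 1 one_pos
  have h2 : ∀ᶠ Z : ℝ in atTop, Z ^ ((k : ℝ) / c3) * Real.exp (-1 * Z) ≤ 1 / C ^ k :=
    h1.eventually (ge_mem_nhds (by positivity))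
  have h3 : Tendsto (fun n => y n ^ (-c3)) atTop atTop :=
    tendsto_atTop.2 fun M => by
      filter_upwards [sf_big h hc3 (M := |M| + 1) (by positivity)] with n hn
      linarith [le_abs_self M]
  filter_upwards [hCn, h3.eventually h2] with n g1 g2
  have hy := h.fl.y0 n
  have e1 : (y n ^ (-c3)) ^ ((k : ℝ) / c3) = ((y n) ^ k)⁻¹ := by
    rw [← Real.rpow_mul hy.le, ← Real.rpow_natCast, ← Real.rpow_neg hy.le]
    congr 1
    field_simp
  rw [e1, neg_one_mul] at g2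
  have hyk : 0 < y n ^ k := by positivity
  have hn0 : (0 : ℝ) ≤ n := Nat.cast_nonneg _
  have h4 : (n : ℝ) ^ k ≤ C ^ k * (y n ^ k)⁻¹ := by
    rw [← div_eq_mul_inv, le_div_iff₀ hyk, ← mul_pow]
    exact pow_le_pow_left₀ (by positivity) g1 k
  calc Real.exp (-(y n ^ (-c3))) * (n : ℝ) ^ k
      ≤ Real.exp (-(y n ^ (-c3))) * (C ^ k * (y n ^ k)⁻¹) :=
        mul_le_mul_of_nonneg_left h4 (Real.exp_pos _).le
    _ = C ^ k * ((y n ^ k)⁻¹ * Real.exp (-(y n ^ (-c3)))) := by ring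
    _ ≤ C ^ k * (1 / C ^ k) := mul_le_mul_of_nonneg_left g2 (by positivity)
    _ = 1 := by field_simp

/-- **(E3)**: `WtOK`, `Ag`, `BdR` and typical sources on the window, `Ev` form -/
theorem sit_flow {b b1 b2 pf : ℝ} (hb1 : 0 < b1) (h1 : b1 ≤ b) (hpf : 0 < pf) (Q : ℕ) :
    Ev b1 b2 pf Q fun P c1 => 0 < c1 ∧ c1 ≤ P.th / 100 ∧
      ∀ {σ c q2 qx : ℝ} {a y ε xs : ℕ → ℝ} {c' r q A : ℝ} {N : ℕ},
      SFlow P b σ c c1 q2 qx a y ε xs c' r q A N → 0 ≤ σ → σ ≤ 1 / 4 →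
      ∀ ck : ℝ, 0 < ck → 2 * P.th ≤ ck → ck ≤ P.thp → ∀ i : ℕ, 1 ≤ i → ∀ c3 : ℝ, c3 < 2 * c1 →
      ∀ κ Y ρ η s : ℝ, 0 < ρ → 0 < η → ∀ᶠ n in atTop,
        SitW P b ck y ε i c3 κ n ∧
        ∀ R, 2 ^ (n + kf ck y n) ≤ R → R ≤ 2 ^ (n + P.w (ε n) + kf ck y (n + P.w (ε n))) →
          (nuF b (sd i) (tn n) R).real {F | ρ < RF (sd i R) b (tn n) (Y • F)} ≤
            Real.exp (-(κ * y n ^ (-c3))) ∧
          (nuF b (sd i) (tn n) R).real (Ag (wTD (sd i R) b) (tn n • 1) (tn n) 0 s ρ)ᶜ ≤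
            Real.exp (-(κ * y n ^ (-c3))) ∧
          WtOK b (tn n) η (Real.exp (-(κ * y n ^ (-c3)))) (sd i R) := by
  have hb : 0 < b := hb1.trans_le h1
  refine ((ev_sit (b2 := b2) hb1 h1 hpf Q).and (ev_c1 (b1 := b1) (b2 := b2) (pf := pf) Q
    (show (0 : ℝ) < 1 / 100 by norm_num))).mono fun P c1 hadm hT => ?_
  obtain ⟨hS, hc0, hc1⟩ := hT
  have hth1 : P.th ≤ 1 := by
    have h3 := hadm.hx
    have h4 := hadm.x11
    have h5 := P.thp0
    linarith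
  refine ⟨hc0, by linarith, ?_⟩
  intro σ c q2 qx a y ε xs c' r q A N h hσ0 hσ ck hck hck2 hck1 i hi c3 hc3 κ Y ρ η s hρ hη
  have hx1 : 0 < P.x1 := by
    have := hadm.hx
    have := P.th0
    have := P.thp0
    linarith
  have hth := P.th0
  have hm : 0 < min (min ρ (η / 2)) 1 := by positivity
  filter_upwards [sf_sit hS h hadm hb hσ0 hσ hc0 (by linarith) hck hck1 hck2 hi hc3 κ,
    h.fl.ev_pow hx1 hm,
    sf_big h (p := P.th / 16) (M := |Y| + |2 * s| + 1) (by positivity) (by positivity)]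
    with n g1 g2 g3
  have r1 : y n ^ P.x1 ≤ ρ := g2.trans ((min_le_left _ _).trans (min_le_left _ _))
  have r2 : y n ^ P.x1 ≤ η / 2 := g2.trans ((min_le_left _ _).trans (min_le_right _ _))
  have r3 : y n ^ P.x1 ≤ 1 := g2.trans (min_le_right _ _)
  have r0 : 0 < y n ^ P.x1 := Real.rpow_pos_of_pos (h.fl.y0 n) _
  refine ⟨g1, fun R h2 h3 => ?_⟩
  have ht := tn_pos n
  -- every amplitude
  have key : ∀ Z : ℝ, |Z| ≤ |Y| + |2 * s| →
      (nuF b (sd i) (tn n) R).real {F | ρ < RF (sd i R) b (tn n) (Z • F)} ≤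
        Real.exp (-(κ * y n ^ (-c3))) := by
    intro Z hZ
    have := H447.prob_nuS (N := sd i R) hb ht
    have h4 := g1.at hb (Y := max |Z| 1) (le_max_right _ _)
      (max_le (by linarith) (by linarith [abs_nonneg Y, abs_nonneg (2 * s)])) r1 h2 h3
    refine le_trans (measureReal_mono (μ := nuS (sd i R) b (tn n)) fun F hF => ?_) h4
    have hF' : ρ < RF (sd i R) b (tn n) (Z • F) := hF
    refine lt_of_lt_of_le hF' ?_
    rw [RF_src, RF_src, H447.src_smul, H447.src_smul]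
    have h5 : H37.Rs (H963.nwt (sd i R) b (tn n) 0) (Z • src (sd i R) (tn n) F) =
        H37.Rs (H963.nwt (sd i R) b (tn n) 0) (|Z| • src (sd i R) (tn n) F) := by
      rcases abs_cases Z with ⟨h6, -⟩ | ⟨h6, -⟩
      · rw [h6]
      · rw [h6, neg_smul]
        exact (H789.Rs_neg ((H963.gw_wT hb.le).ev_nM
          (tn n • (1 : Matrix (V (sd i R)) (V (sd i R)) ℝ)) (tn n) 0) _).symm
    rw [h5]
    exact H239.rs_ray hb.le ht _ (abs_nonneg Z) (le_max_left _ _)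
  refine ⟨key Y (by linarith [abs_nonneg (2 * s)]), ?_, ?_⟩
  · rw [Ag_compl]
    exact key (2 * s) (by linarith [abs_nonneg Y])
  · exact WtOK.of_sit hb ht r3 (by linarith) (g1 R h2 h3 1 le_rfl
      (by linarith [abs_nonneg Y, abs_nonneg (2 * s)])) r0.le

end

end Vale.Agent.P159.H816
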