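import Vale.Agent.P159.H816.Ty6
import Vale.Agent.P159.H316.Zb13
import Vale.Agent.P159.H963.Link
import Vale.Agent.P159.H340.Al4

/-!
P159 / **the typical law inputs `TyIn` of the zero background relation** (helper816, for helper316).

* `int_law` : the tilt is integrable in the typical law, from the law of the sources alone;
* `tyIn_lev` : `TyIn N l b t (ρ + 2 δ) (3 δ)` from `P (R (8 J) ≤ ρ) ≥ 1 - δ` at all small priors;
* `tyIn_typ` : the same from `TypE` at all small priors;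
* `TyC P b c1`, `ev_tyC` : at the V cells, every real mass `T ∈ [tn n, 4 tn n]`, every
  `r ∈ TT n e`: `TyIn (2^r) (2^s) b T (e^(x1/2)) (e^(x1/2))`.
-/

open MeasureTheory Finset Matrix Filter Topology
open Vale.Agent.P159.TM.H104 (EM nh li Ex Lg Gr)
open Vale.Agent.P159.H37 (wM ZM qf bf Zn Zq Un Ev gau gau_shift cellP)
open Vale.Agent.P159.H896
open Vale.Agent.P159.TM.Spec (V)
open Vale.Agent.P159.TM.SpecC (Tor wT)
open Vale.Agent.P159.H864 (TI sym MC cl cobV fc)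
open Vale.Agent.P159.H963 (Pn nMC nM ntr gw_wT mf_MC)
open Vale.Agent.P159.H363 (acl lf Rcl Wcl Nf)
open Vale.Agent.P159.H239 (TypE)
open Vale.Agent.P159.H316 (TyIn Rcl_quarter)

set_option linter.unusedSectionVars false

namespace Vale.Agent.P159.H816

noncomputable section

section gen

variable {N l : ℕ} [NeZero N] [NeZero (N / l)] {b t : ℝ}

/-- **the tilt is integrable in the typical law** -/
theorem int_law (hb : 0 ≤ b) (hl : l ∣ N) (ht : 0 < t) (hA : Nf (acl N l b t t))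
    {Gs : Set (V N → ℝ)} (mG : MeasurableSet Gs) {η δ : ℝ} (hδ1 : δ < 1)
    (hη : ∀ F : V (N / l) → ℝ, srcF N l t t F ∈ Gs → Wcl N l b t t F ≤ 1 + η)
    (hη0 : 0 ≤ η)
    (hδ : ∀ᶠ a in 𝓝[>] (0 : ℝ), 1 - δ ≤ H37.Ech (nMC N l b t a 0) 0 (H963.obsN N l (t - a))
      (Gs.indicator fun _ => (1 : ℝ))) :
    Integrable (fun g => Wcl N l b t t (H363.pin (acl N l b t t) *ᵥ g)) (gau (V (N / l))) := by
  set A := acl N l b t t with hAd
  set W := Wcl N l b t t with hW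
  have hWc : Continuous W := H363.continuous_Wcl (b := b) (t := t) hb hl ht le_rfl
  have hW0 : ∀ F, 0 < W F := fun F => lt_of_lt_of_le one_pos (H363.one_le_Wcl hb hl ht le_rfl F)
  have hms := measurable_srcF N l t t
  have hmp : Measurable fun u : V (N / l) → ℝ => H363.pin A *ᵥ u := H363.measurable_mulVec _
  set G : Set (V (N / l) → ℝ) := (srcF N l t t) ⁻¹' Gs with hG
  have mG' : MeasurableSet G := hms mG
  set f : (V (N / l) → ℝ) → ℝ := G.indicator W with hf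
  have mf : Measurable f := hWc.measurable.indicator mG'
  have hf1 : ∀ F, |f F| ≤ 1 + η := by
    intro F
    by_cases hF : F ∈ G
    · rw [hf, Set.indicator_of_mem hF, abs_of_pos (hW0 F)]
      exact hη F hF
    · rw [hf, Set.indicator_of_notMem hF, abs_zero]
      linarith
  have hκ := (tendsto_aof hl ht).eventually hδ
  obtain ⟨κ0, hκ0, hκ⟩ := mem_nhdsGT_iff_exists_Ioo_subset.1 hκ
  have hκ0' : (0 : ℝ) < κ0 := hκ0
  refine (LNK.int_of_dmp (A := A) (W := W) (C := (1 + η) / (1 - δ)) (s0 := κ0⁻¹)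
    (fun F => (hW0 F).le) hWc.measurable (fun s hs0 hs => ?_) fun s hs0 hs => ?_).1
  · have h1 := (LNK.om_typ (b := b) hb hl ht hs hA (fun k => H363.sym_acl_le hb hl ht le_rfl k) 0).1
    refine h1.congr (Filter.Eventually.of_forall fun g => ?_)
    simp only
    rw [LNK.WL_acl hb hl ht]
    rfl
  · have h3 : (0 : ℝ) < s⁻¹ := by positivity
    have h3' : s⁻¹ < κ0 := by
      rw [inv_lt_comm₀ hs hκ0']
      exact hs0
    have h2 : 1 - δ ≤ H37.Ech (nMC N l b t (aof l t s⁻¹) 0) 0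
      (H963.obsN N l (t - aof l t s⁻¹)) (Gs.indicator fun _ => (1 : ℝ)) := hκ ⟨h3, h3'⟩
    obtain ⟨p1, p2⟩ := aof_pos hl ht h3
    rw [Ech_cell hb hl p1 p2 le_rfl hA (measurable_const.indicator mG), kap_aof hl ht h3] at h2
    obtain ⟨c, hc, hdamp⟩ := damp_eq hA h3.le
    have hiW := int_cell hb hl p1 p2 le_rfl hA
    rw [kap_aof hl ht h3] at hiW
    have hpos : 0 < ∫ g, W (pinK A s⁻¹ *ᵥ g) ∂(gau (V (N / l))) := by
      have h5 := integral_mono (μ := gau (V (N / l))) (integrable_const (1 : ℝ)) hiW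
        fun g => H363.one_le_Wcl hb hl ht le_rfl _
      have h6 : (1 : ℝ) ≤ ∫ g, W (pinK A s⁻¹ *ᵥ g) ∂(gau (V (N / l))) := by simpa using h5
      linarith
    rw [le_div_iff₀ hpos] at h2
    have e1 : ∀ g : V (N / l) → ℝ, (Gs.indicator (fun _ => (1 : ℝ)))
        (srcF N l t t (pinK A s⁻¹ *ᵥ g)) * W (pinK A s⁻¹ *ᵥ g) = f (pinK A s⁻¹ *ᵥ g) := by
      intro g
      by_cases hg : srcF N l t t (pinK A s⁻¹ *ᵥ g) ∈ Gs
      · have hg' : pinK A s⁻¹ *ᵥ g ∈ G := hg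
        rw [Set.indicator_of_mem hg, hf, Set.indicator_of_mem hg', one_mul]
      · have hg' : pinK A s⁻¹ *ᵥ g ∉ G := hg
        rw [Set.indicator_of_notMem hg, hf, Set.indicator_of_notMem hg', zero_mul]
    simp only [← hAd, ← hW, e1] at h2
    have e2 : ∀ F : V (N / l) → ℝ, LNK.dmp s F = Real.exp (-(s⁻¹ * (∑ x, F x ^ 2) / 2)) := by
      intro F
      unfold LNK.dmp dotProduct
      congr 4
      exact Finset.sum_congr rfl fun x _ => by ring
    have e3 : ∫ g, W (H363.pin A *ᵥ g) * LNK.dmp s (H363.pin A *ᵥ g) ∂(gau (V (N / l))) =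
        c * ∫ g, W (pinK A s⁻¹ *ᵥ g) ∂(gau (V (N / l))) := by
      rw [← hdamp W hWc.measurable]
      refine integral_congr_ae (Filter.Eventually.of_forall fun g => ?_)
      simp only
      rw [e2, mul_comm]
    have e4 := hdamp f mf
    have h7 : ∫ g, Real.exp (-(s⁻¹ * (∑ x, (H363.pin A *ᵥ g) x ^ 2) / 2)) * f (H363.pin A *ᵥ g)
        ∂(gau (V (N / l))) ≤ 1 + η := by
      have h8 : ∀ g : V (N / l) → ℝ,
          ‖Real.exp (-(s⁻¹ * (∑ x, (H363.pin A *ᵥ g) x ^ 2) / 2)) * f (H363.pin A *ᵥ g)‖ ≤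
            1 + η := by
        intro g
        rw [norm_mul, Real.norm_eq_abs, Real.norm_eq_abs, abs_of_pos (Real.exp_pos _)]
        have h9 : Real.exp (-(s⁻¹ * (∑ x, (H363.pin A *ᵥ g) x ^ 2) / 2)) ≤ 1 := by
          rw [Real.exp_le_one_iff]
          have : 0 ≤ s⁻¹ * ∑ x, (H363.pin A *ᵥ g) x ^ 2 :=
            mul_nonneg h3.le (Finset.sum_nonneg fun _ _ => sq_nonneg _)
          linarith
        calc Real.exp (-(s⁻¹ * (∑ x, (H363.pin A *ᵥ g) x ^ 2) / 2)) * |f (H363.pin A *ᵥ g)|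
            ≤ 1 * (1 + η) := mul_le_mul h9 (hf1 _) (abs_nonneg _) zero_le_one
          _ = _ := one_mul _
      have h9 := norm_integral_le_of_norm_le_const (μ := gau (V (N / l)))
        (Filter.Eventually.of_forall h8)
      rw [Real.norm_eq_abs, probReal_univ, mul_one] at h9
      exact (le_abs_self _).trans h9
    rw [e4] at h7
    rw [e3, le_div_iff₀ (by linarith)]
    have h8 := mul_le_mul_of_nonneg_left h2 hc.le
    linarith

/-- **`TyIn` from a small level at amplitude `8`** -/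
theorem tyIn_lev (hb : 0 ≤ b) (hl : l ∣ N) (ht : 0 < t) (hA : Nf (acl N l b t t)) {ρ δ : ℝ}
    (hρ0 : 0 ≤ ρ) (hρ1 : ρ ≤ 1 / 2) (hδ0 : 0 ≤ δ) (hδ1 : δ ≤ 1 / 2)
    (hδ : ∀ᶠ a in 𝓝[>] (0 : ℝ), 1 - δ ≤ H37.Ech (nMC N l b t a 0) 0 (H963.obsN N l (t - a))
      ({J : V N → ℝ | H37.Rs (nMC N l b t t 0) ((8 : ℝ) • J) ≤ ρ}.indicator fun _ => (1 : ℝ))) :
    TyIn N l b t (ρ + 2 * δ) (3 * δ) := by
  set Gs : Set (V N → ℝ) := {J : V N → ℝ | H37.Rs (nMC N l b t t 0) ((8 : ℝ) • J) ≤ ρ} with hGs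
  have mG : MeasurableSet Gs := by
    refine measurableSet_le ?_ measurable_const
    exact ((H114.continuous_Rs ((gw_wT (N := N) hb).em_nM (mf_MC hl ht le_rfl) 0)).comp
      (continuous_const_smul _)).measurable
  have hsm : ∀ F : V (N / l) → ℝ, ∀ c : ℝ, H37.Rs (nMC N l b t t 0) (c • srcF N l t t F) =
      Rcl N l b t t (c • F) := by
    intro F c
    rw [Rcl_eq, srcF, srcF, H363.lf_smul, mulVec_smul]
  have hg8 : ∀ F : V (N / l) → ℝ, srcF N l t t F ∈ Gs → Rcl N l b t t ((8 : ℝ) • F) ≤ ρ := by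
    intro F hF
    rw [← hsm]
    exact hF
  have hg1 : ∀ F : V (N / l) → ℝ, srcF N l t t F ∈ Gs → Rcl N l b t t F ≤ ρ / 64 := by
    intro F hF
    have h2 := Rcl_quarter (b := b) hb hl ht ((8 : ℝ) • F) 3
    have e : ((1 : ℝ) / 2) ^ 3 • (8 : ℝ) • F = F := by
      rw [smul_smul]
      norm_num
    rw [e] at h2
    have := hg8 F hF
    linarith
  have hη : ∀ F : V (N / l) → ℝ, srcF N l t t F ∈ Gs → Wcl N l b t t F ≤ 1 + ρ / 32 := by
    intro F hF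
    have h3 := hg1 F hF
    unfold Wcl
    refine (Real.exp_le_exp.2 h3).trans ?_
    have h4 := Real.abs_exp_sub_one_le (x := ρ / 64) (by
      rw [abs_of_nonneg (by positivity)]; linarith)
    rw [abs_of_nonneg (by positivity : 0 ≤ ρ / 64)] at h4
    have := (abs_le.1 h4).2
    linarith
  have hi := int_law hb hl ht hA mG (by linarith : δ < 1) hη (by positivity) hδ
  have hbad := typ_bad hb hl ht le_rfl hA hi mG hδ
  have hmp : Measurable fun g : V (N / l) → ℝ => H363.pin (acl N l b t t) *ᵥ g :=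
    H363.measurable_mulVec _
  set Bd : Set (V (N / l) → ℝ) := (srcF N l t t) ⁻¹' Gsᶜ with hBd
  have hB : MeasurableSet Bd := (measurable_srcF N l t t) mG.compl
  have hη' : ∀ g : V (N / l) → ℝ, g ∉ (fun g => H363.pin (acl N l b t t) *ᵥ g) ⁻¹' Bd →
      Wcl N l b t t (H363.pin (acl N l b t t) *ᵥ g) ≤ 1 + ρ / 32 := by
    intro g hg
    refine hη _ ?_
    by_contra hc
    exact hg hc
  have hms := typ_mass (hmp hB) hi (η := ρ / 32) (δ := δ) hη' (by positivity) (by linarith) hbad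
  have hmass : (1 + ρ / 32) / (1 - δ) ≤ 1 + (ρ + 2 * δ) := by
    rw [div_le_iff₀ (by linarith)]
    nlinarith
  have hmass2 : (1 + ρ / 32) / (1 - δ) ≤ 3 := by
    rw [div_le_iff₀ (by linarith)]
    linarith
  refine ⟨hi, hms.1.trans hmass, ?_⟩
  have h5 := hms.2 hδ0
  have h6 : {g : V (N / l) → ℝ | 1 < Rcl N l b t t ((8 : ℝ) • (H363.pin (acl N l b t t) *ᵥ g))} ⊆
      (fun g => H363.pin (acl N l b t t) *ᵥ g) ⁻¹' Bd := by
    intro g hg
    simp only [Set.mem_ofPred_eq] at hg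
    by_contra hc
    have h2 : srcF N l t t (H363.pin (acl N l b t t) *ᵥ g) ∈ Gs := by
      by_contra hc'
      exact hc hc'
    have h3 := hg8 _ h2
    linarith
  have h7 := measureReal_mono (μ := gau (V (N / l))) h6
  have h8 : (gau (V (N / l))).real ((fun g => H363.pin (acl N l b t t) *ᵥ g) ⁻¹' Bd) ≤
      ∫ g in (fun g => H363.pin (acl N l b t t) *ᵥ g) ⁻¹' Bd,
        Wcl N l b t t (H363.pin (acl N l b t t) *ᵥ g) ∂(gau (V (N / l))) := by
    have h9 : ∫ _g in (fun g => H363.pin (acl N l b t t) *ᵥ g) ⁻¹' Bd, (1 : ℝ) ∂(gau (V (N / l))) ≤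
        ∫ g in (fun g => H363.pin (acl N l b t t) *ᵥ g) ⁻¹' Bd,
        Wcl N l b t t (H363.pin (acl N l b t t) *ᵥ g) ∂(gau (V (N / l))) := by
      refine integral_mono (integrable_const _) hi.integrableOn fun g => ?_
      exact H363.one_le_Wcl hb hl ht le_rfl _
    rw [setIntegral_const, smul_eq_mul, mul_one] at h9
    exact h9
  refine h7.trans (h8.trans (h5.trans ?_))
  nlinarith [mul_le_mul_of_nonneg_left hmass2 hδ0]

/-- **`TyIn` from `TypE`** -/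
theorem tyIn_typ (hb : 0 < b) (hl : l ∣ N) (ht : 0 < t) {Y ρ δ : ℝ} (hY : 8 ≤ Y)
    (hρ0 : 0 ≤ ρ) (hρ1 : ρ ≤ 1 / 2) (hδ0 : 0 ≤ δ) (hδ1 : δ ≤ 1 / 2)
    (h : ∀ᶠ a in 𝓝[>] (0 : ℝ), TypE N l b t a Y ρ δ) :
    TyIn N l b t (ρ + 2 * δ) (3 * δ) := by
  refine tyIn_lev hb.le hl ht (H340.nf_acl hb hl ht le_rfl) hρ0 hρ1 hδ0 hδ1 ?_
  filter_upwards [h, self_mem_nhdsWithin, Ioo_mem_nhdsGT ht] with a ha ha0 hat
  have ha0' : 0 < a := ha0
  have hat' : a < t := hat.2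
  have h2 := ha.mono hb.le hl ha0' hat'.le (by norm_num : (0 : ℝ) ≤ 8) hY le_rfl le_rfl
  have hE : EM (H730.wN N l b t a) := H963.em_nMC hb.le hl ha0' hat'.le 0
  have e0 : nMC N l b t t 0 = H963.nwt N b t 0 := by
    unfold H963.nMC H963.nwt
    rw [H864.MC_self]
  rw [e0]
  have mS : MeasurableSet {J : V N → ℝ | H37.Rs (H963.nwt N b t 0) ((8 : ℝ) • J) ≤ ρ} :=
    H239.typ_meas hb.le ht _ _
  unfold TypE at h2
  have h3 := H663.Ech_add' (H239.chi_set hE 0 (H963.obsN N l (t - a)) mS)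
    (H239.chi_set hE 0 (H963.obsN N l (t - a)) mS.compl)
  have e1 : (fun J : V N → ℝ =>
      ({J : V N → ℝ | H37.Rs (H963.nwt N b t 0) ((8 : ℝ) • J) ≤ ρ}.indicator fun _ => (1 : ℝ)) J +
      ({J : V N → ℝ | H37.Rs (H963.nwt N b t 0) ((8 : ℝ) • J) ≤ ρ}ᶜ.indicator
        fun _ => (1 : ℝ)) J) = fun _ => 1 := by
    funext J
    exact congrFun (Set.indicator_self_add_compl _ _) J
  rw [e1, H37.Ech_const hE] at h3
  have e2 : nMC N l b t a 0 = H730.wN N l b t a := rfl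
  rw [e2]
  linarith

end gen

open Vale.Agent.P159.H972 (Par lg tn one_le_logb GP AP RNG FL)
open Vale.Agent.P159.H801 (Ev PS)

/-- the typical law inputs at the V cells, every real mass -/
def TyC (P : Par) (b c1 : ℝ) : Prop :=
  ∀ (n : ℕ) (e τ a : ℝ), 0 < e → e ≤ P.es → GP P b a n e τ → ∀ r, P.TT n e r →
    ∀ s : ℕ, s ≤ P.sE n e → n ≤ 2 * s → ((n : ℝ) - s) ≤ e ^ (-(2 * c1)) →
    ∀ T, tn n ≤ T → T ≤ 4 * tn n → ∀ [NeZero (2 ^ r / 2 ^ s)],
      TyIn (2 ^ r) (2 ^ s) b T (e ^ (P.x1 / 2)) (e ^ (P.x1 / 2))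

/-- small numbers as an `Ev` family -/
lemma ev_es {b1 b2 pf : ℝ} (Q : ℕ) {F : Par → ℝ → Prop}
    (hF : ∀ th x1 : ℝ, 0 < th → 0 < x1 → ∀ᶠ e in 𝓝[>] (0 : ℝ), ∀ P : Par, P.th = th →
      P.x1 = x1 → F P e) :
    Ev b1 b2 pf Q fun P _ => ∀ e, 0 < e → e ≤ P.es → F P e := by
  refine H801.Ev.of ⟨0, fun W _ => ⟨1, one_pos, fun ys _ _ => ⟨0, fun X0 _ => ⟨1, one_pos,
    fun x1 hx1 _ => ⟨1, one_pos, fun thp _ _ => ⟨1, one_pos, fun th hth _ => ⟨0, fun C0 _ =>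
    ⟨1, one_pos, fun c1 hc hc' => ?_⟩⟩⟩⟩⟩⟩⟩⟩
  obtain ⟨E, hE, h⟩ := mem_nhdsGT_iff_exists_Ioc_subset.1 (hF th x1 hth hx1)
  have hE' : (0 : ℝ) < E := hE
  refine ⟨E, hE', fun P hP e he hee => ?_⟩
  exact h ⟨he, hee.trans hP.ees⟩ P hP.eth hP.ex1

/-- **`TyIn` at the V cells** -/
theorem ev_tyC {b b1 b2 pf : ℝ} (hb1 : 0 < b1) (h1 : b1 ≤ b) (hpf : 0 < pf) (Q : ℕ) :
    Ev b1 b2 pf Q fun P c1 => TyC P b c1 := by
  have hb : 0 < b := hb1.trans_le h1
  have hnum : Ev b1 b2 pf Q fun P _ => ∀ e, 0 < e → e ≤ P.es →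
      (8 ≤ e ^ (-(P.th / 16)) ∧ e ^ P.x1 ≤ 1 / 2 ∧ Real.exp (-(e ^ (-(P.th / 16)))) ≤ 1 / 2 ∧
        e ^ P.x1 + 2 * Real.exp (-(e ^ (-(P.th / 16)))) ≤ e ^ (P.x1 / 2) ∧
        3 * Real.exp (-(e ^ (-(P.th / 16)))) ≤ e ^ (P.x1 / 2)) := by
    refine ev_es Q fun th x1 hth hx1 => ?_
    filter_upwards [ev_pos, ev_le (show (0 : ℝ) < 1 / 4 by norm_num),
      ev_ge (show (0 : ℝ) < th / 16 by positivity) 8, ev_ge hx1 2,
      ev_pow (show x1 / 2 < x1 by linarith) 2,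
      ev_exp (show (0 : ℝ) < th / 16 by positivity) (x1 / 2) 4 one_pos] with e he he4 g1 g2 g3 g4
    intro P hPth hPx
    rw [hPth, hPx]
    have px : 0 < e ^ x1 := Real.rpow_pos_of_pos he _
    have px2 : 0 < e ^ (x1 / 2) := Real.rpow_pos_of_pos he _
    have a1 : e ^ x1 ≤ 1 / 2 := by
      rw [Real.rpow_neg he.le] at g2
      have h := inv_anti₀ two_pos g2
      rw [inv_inv] at h
      refine h.trans (by norm_num)
    have a3 : 2 * e ^ x1 ≤ e ^ (x1 / 2) := by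
      have h2 := mul_le_mul_of_nonneg_right g3 (mul_pos px2 px).le
      have h3 : 2 * e ^ (-(x1 / 2)) * (e ^ (x1 / 2) * e ^ x1) = 2 * e ^ x1 := by
        rw [mul_assoc, ← mul_assoc (e ^ (-(x1 / 2))), ← Real.rpow_add he, neg_add_cancel,
          Real.rpow_zero, one_mul]
      have h4 : e ^ (-x1) * (e ^ (x1 / 2) * e ^ x1) = e ^ (x1 / 2) := by
        rw [mul_comm (e ^ (x1 / 2)), ← mul_assoc, ← Real.rpow_add he, neg_add_cancel,
          Real.rpow_zero, one_mul]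
      rwa [h3, h4] at h2
    have a4 : 4 * Real.exp (-(e ^ (-(th / 16)))) ≤ e ^ (x1 / 2) := by
      rw [div_one] at g4
      rw [Real.exp_neg, ← div_eq_mul_inv, div_le_iff₀ (Real.exp_pos _)]
      have h2 := mul_le_mul_of_nonneg_left g4 px2.le
      have h3 : e ^ (x1 / 2) * (4 * e ^ (-(x1 / 2))) = 4 := by
        rw [mul_left_comm, ← Real.rpow_add he, add_neg_cancel, Real.rpow_zero, mul_one]
      rwa [h3] at h2
    have pe := Real.exp_pos (-(e ^ (-(th / 16))))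
    have a5 : e ^ (x1 / 2) ≤ 1 := Real.rpow_le_one he.le (by linarith) (by positivity)
    exact ⟨g1, a1, by linarith, by linarith, by linarith⟩
  refine ((ev_typS (b2 := b2) hb1 h1 hpf Q).and hnum).mono fun P c1 _ hT => ?_
  obtain ⟨hT, hN⟩ := hT
  intro n e τ a he hes hG r hr s hsE hns hnR T h1T h4T _
  obtain ⟨n1, n2, n3, n4, n5⟩ := hN e he hes
  have hsn : s ≤ n := by
    unfold Par.sE at hsE
    omega
  have hdiv : 2 ^ s ∣ 2 ^ r := pow_dvd_pow 2 (hsn.trans ((Nat.le_add_right _ _).trans hr.1))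
  have hT0 : 0 < T := (tn_pos n).trans_le h1T
  have key := tyIn_typ hb hdiv hT0 n1 (Real.rpow_pos_of_pos he _).le n2 (Real.exp_pos _).le n3
    (by
      filter_upwards [Ioo_mem_nhdsGT hT0] with a' ha'
      exact hT n e τ a he hes hG r hr s hsE hns hnR T h1T h4T a' ha'.1 ha'.2)
  exact ⟨key.it, key.nm.trans (by linarith), key.tl.trans n5⟩

/-- `thp` small against `x1`, `th` small against `thp` -/
lemma ev_thp {b1 b2 pf : ℝ} (Q : ℕ) {k : ℝ} (hk : 0 < k) :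
    Ev b1 b2 pf Q fun P _ => 0 < P.thp ∧ P.thp ≤ P.x1 * k ∧ 0 < P.th ∧ P.th ≤ P.thp * k ∧
      0 < P.x1 := by
  refine H801.Ev.of ⟨0, fun W _ => ⟨1, one_pos, fun ys _ _ => ⟨0, fun X0 _ => ⟨1, one_pos,
    fun x1 hx _ => ⟨x1 * k, by positivity, fun thp ht1 ht2 => ⟨thp * k, by positivity,
    fun th hth1 hth2 => ⟨0, fun C0 _ => ⟨1, one_pos, fun c1 _ _ => ⟨1, one_pos,
    fun P hP => ?_⟩⟩⟩⟩⟩⟩⟩⟩⟩
  rw [hP.ethp, hP.ex1, hP.eth]
  exact ⟨ht1, ht2, hth1, hth2, hx⟩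

/-- **`TyIn` at the V cells, `e^(k thp)`** -/
theorem ev_tyK {b b1 b2 pf : ℝ} (hb1 : 0 < b1) (h1 : b1 ≤ b) (hpf : 0 < pf) (Q : ℕ) {k : ℝ}
    (hk : 0 < k) :
    Ev b1 b2 pf Q fun P c1 =>
      ∀ (n : ℕ) (e τ a : ℝ), 0 < e → e ≤ P.es → GP P b a n e τ → ∀ r, P.TT n e r →
        ∀ s : ℕ, s ≤ P.sE n e → n ≤ 2 * s → ((n : ℝ) - s) ≤ e ^ (-(2 * c1)) →
        ∀ T, tn n ≤ T → T ≤ 4 * tn n → ∀ [NeZero (2 ^ r / 2 ^ s)],
          TyIn (2 ^ r) (2 ^ s) b T (e ^ (k * P.thp)) (e ^ (k * P.thp)) := by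
  refine ((ev_tyC (b2 := b2) hb1 h1 hpf Q).and (ev_thp (b1 := b1) (b2 := b2) (pf := pf) Q
    (show 0 < 1 / (2 * k) by positivity))).mono fun P c1 _ h => ?_
  obtain ⟨h, -, hthp, -⟩ := h
  intro n e τ a he hes hG r hr s hsE hns hnR T h1T h4T _
  have he1 : e ≤ 1 := hes.trans (P.es1.trans (by norm_num))
  have key := h n e τ a he hes hG r hr s hsE hns hnR T h1T h4T
  have h2 : e ^ (P.x1 / 2) ≤ e ^ (k * P.thp) := by
    refine Real.rpow_le_rpow_of_exponent_ge he he1 ?_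
    have h3 := mul_le_mul_of_nonneg_left hthp hk.le
    have h4 : k * (P.x1 * (1 / (2 * k))) = P.x1 / 2 := by field_simp
    linarith
  exact ⟨key.it, key.nm.trans (by linarith), key.tl.trans h2⟩

end

end Vale.Agent.P159.H816
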