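import Vale.Agent.P159.H816.Sm2
import Vale.Agent.P159.H37.Lq4

/-!
P159 / **smooth real fields, small sources: the forms consumed** (helper816, for 770, 191, 37, 340), part 3.

* `SmKAt` (helper770's `SmK` at a torus), `SmKAt.hR` (local smooth fields of any length),
  `smK_flow` : every torus of the window and of `2 ^ k`, `k ≤ kE1 + 1`, `Λ = y^(-c1)`,
  `εR = y^(9/8)`;
* `wt_flow` : the size of the weights, all tori, all large `i`;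
* `src_flow` : `ν {1 < R (Y F)} n^3 ≤ 1`.
-/

set_option linter.unusedSectionVars false

namespace Vale.Agent.P159.H816

open Filter Topology MeasureTheory Finset Matrix
open Vale.Agent.P159.H972 (Par lg tn Good FL)
open Vale.Agent.P159.H801 (Ev SFlow)
open Vale.Agent.P159.H963 (nwt ntr)
open Vale.Agent.P159.H963.Core (RF)
open Vale.Agent.P159.H447 (RF_src)
open Vale.Agent.P159.TM.Spec (V)
open Vale.Agent.P159.TM.SpecC (wT)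
open Vale.Agent.P159.H37.Sf (kf sf_TT sf_eps sf_big sf_ny)
open Vale.Agent.P159.H773 (sd nuF sd_pow)
open Vale.Agent.P159.H817 (gr nrm GB Pt sz)
open Vale.Agent.P159.H859.Idl (SmT)
open Vale.Agent.P159.H789 (lvS)
open Vale.Agent.P159.H708 (WtOK)
open Vale.Agent.P159.H883 (nuM)

noncomputable section

/-- **smooth real fields at a torus** (helper770's letters) -/
def SmKAt (N : ℕ) [NeZero N] (b t Λ eR : ℝ) : Prop :=
  ∃ (lc : ℕ) (_ : NeZero (N / lc)) (Y ρ p p' κ : ℝ) (j k' : ℕ),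
    SmT N lc b t Y ρ p p' κ j k' ∧ 112896 * κ * Λ ^ 2 ≤ 4 ^ j ∧
    lvS ρ j k' / 2 + 56448 * t * (lc : ℝ) ^ 2 * Λ ^ 2 ≤ eR

lemma SmKAt.cast {N M : ℕ} [NeZero N] [NeZero M] {b t Λ eR : ℝ} (h : N = M)
    (H : SmKAt N b t Λ eR) : SmKAt M b t Λ eR := by
  subst h
  exact H

lemma SmKAt.mono {N : ℕ} [NeZero N] {b t Λ Λ' eR eR' : ℝ} (ht : 0 ≤ t) (H : SmKAt N b t Λ eR)
    (h0 : 0 ≤ Λ') (hΛ : Λ' ≤ Λ) (he : eR ≤ eR') : SmKAt N b t Λ' eR' := by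
  obtain ⟨lc, hne, Y, ρ, p, p', κ, j, k', h, h1, h2⟩ := H
  have h3 : Λ' ^ 2 ≤ Λ ^ 2 := pow_le_pow_left₀ h0 hΛ 2
  have hκ := h.hκ
  refine ⟨lc, hne, Y, ρ, p, p', κ, j, k', h, ?_, ?_⟩
  · exact (mul_le_mul_of_nonneg_left h3 (by linarith)).trans h1
  · have h4 := mul_le_mul_of_nonneg_left h3 (show 0 ≤ 56448 * t * (lc : ℝ) ^ 2 by positivity)
    linarith

/-- **local smooth fields of any length** -/
theorem SmKAt.hR {N : ℕ} [NeZero N] {b t Λ eR : ℝ} (H : SmKAt N b t Λ eR) (hb : 0 < b)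
    (ht : 0 < t) {l : ℕ} (hl : 1 ≤ l) (F : V N → ℝ) (w : V N) (hF : GB (Λ / l) F)
    (hw : ∀ x, 4 * l ≤ sz (x - w) → F x = 0) : RF N b t F ≤ eR := by
  obtain ⟨lc, hne, Y, ρ, p, p', κ, j, k', h, h1, h2⟩ := H
  exact (h.hR hb ht hl h1 F w hF hw).trans h2

lemma SmAt.smK {b t L G0 w Λ eR : ℝ} {N : ℕ} [NeZero N] (H : SmAt b t L G0 w N)
    (h1 : 338688 * Λ ^ 2 ≤ G0) (h2 : L / 2 + 56448 * w * Λ ^ 2 ≤ eR) : SmKAt N b t Λ eR := by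
  obtain ⟨lc, hne, Y, ρ, p, p', j, k, h, hρ, g1, g2, g3⟩ := H
  refine ⟨lc, hne, Y, ρ, p, p', 3, j, k, h, by linarith, ?_⟩
  have h3 : 56448 * t * (lc : ℝ) ^ 2 * Λ ^ 2 ≤ 56448 * w * Λ ^ 2 := by
    have h4 := mul_le_mul_of_nonneg_right g3 (show 0 ≤ 56448 * Λ ^ 2 by positivity)
    linarith
  linarith

section flow

variable {P : Par} {b σ c c1 q2 qx : ℝ} {a y ε xs : ℕ → ℝ} {c' r q A : ℝ} {N : ℕ}

/-- the cells against powers of `y` -/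
lemma sf_expy (h : SFlow P b σ c c1 q2 qx a y ε xs c' r q A N) {c3 : ℝ} (hc3 : 0 < c3) (p : ℝ)
    {e : ℝ} (he : 0 < e) :
    ∀ᶠ n : ℕ in atTop, Real.exp (-(y n ^ (-c3))) * y n ^ (-p) ≤ e := by
  have h1 := tendsto_rpow_mul_exp_neg_mul_atTop_nhds_zero (p / c3) 1 one_pos
  have h2 : ∀ᶠ Z : ℝ in atTop, Z ^ (p / c3) * Real.exp (-1 * Z) ≤ e :=
    h1.eventually (ge_mem_nhds he)
  have h3 : Tendsto (fun n => y n ^ (-c3)) atTop atTop :=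
    tendsto_atTop.2 fun M => by
      filter_upwards [sf_big h hc3 (M := |M| + 1) (by positivity)] with n hn
      linarith [le_abs_self M]
  filter_upwards [h3.eventually h2] with n g2
  have hy := h.fl.y0 n
  have e1 : (y n ^ (-c3)) ^ (p / c3) = y n ^ (-p) := by
    rw [← Real.rpow_mul hy.le]
    congr 1
    field_simp
  rw [e1, neg_one_mul, mul_comm] at g2
  exact g2

/-- the numbers of `SmK` -/
lemma sf_smK (h : SFlow P b σ c c1 q2 qx a y ε xs c' r q A N) (hσ : σ ≤ 1 / 4) (hc1 : 0 < c1)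
    (hcth : c1 ≤ P.th / 100) :
    ∀ᶠ n in atTop, 338688 * (y n ^ (-c1)) ^ 2 ≤ y n ^ (-(P.th / 8)) ∧
      y n ^ (2 - 3 * σ - 1 / 16) / 2 +
        56448 * Real.exp (-(1 * y n ^ (-c1))) * (y n ^ (-c1)) ^ 2 ≤ y n ^ (9 / 8 : ℝ) := by
  filter_upwards [sf_big h (p := P.th / 8 - 2 * c1) (M := 338688) (by linarith) (by norm_num),
    sf_expy h hc1 (9 / 8 + 2 * c1) (show (0 : ℝ) < 1 / 112896 by norm_num),
    eventually_ge_atTop N] with n g1 g2 hn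
  have hy := h.fl.y0 n
  have hy1 := h.y1 n hn
  have Py : ∀ a : ℝ, 0 < y n ^ a := fun a => Real.rpow_pos_of_pos hy a
  have e2 : (y n ^ (-c1)) ^ 2 = y n ^ (-(2 * c1)) := by
    rw [rpow_pow' hy]
    congr 1
    push_cast
    ring
  rw [e2]
  refine ⟨?_, ?_⟩
  · have h1 : y n ^ (-(P.th / 8)) = y n ^ (-(P.th / 8 - 2 * c1)) * y n ^ (-(2 * c1)) := by
      rw [← Real.rpow_add hy]
      congr 1
      ring
    rw [h1]
    exact mul_le_mul_of_nonneg_right g1 (Py _).le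
  · have h1 : y n ^ (2 - 3 * σ - 1 / 16) ≤ y n ^ (9 / 8 : ℝ) :=
      Real.rpow_le_rpow_of_exponent_ge hy hy1 (by linarith)
    have h2 : y n ^ (-(2 * c1)) = y n ^ (-(9 / 8 + 2 * c1)) * y n ^ (9 / 8 : ℝ) := by
      rw [← Real.rpow_add hy]
      congr 1
      ring
    rw [one_mul, h2]
    have h3 := mul_le_mul_of_nonneg_right g2 (Py (9 / 8 : ℝ)).le
    linarith

end flow

/-- **`SmK` ALONG THE FLOW**: `kE1 P ck y ε n = n + P.w (ε n) + kf ck y (n + P.w (ε n))` -/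
theorem smK_flow {b b1 b2 pf : ℝ} (hb1 : 0 < b1) (h1 : b1 ≤ b) (hpf : 0 < pf) (Q : ℕ) :
    Ev b1 b2 pf Q fun P c1 => 0 < c1 ∧ c1 ≤ P.th / 100 ∧
      ∀ {σ c q2 qx : ℝ} {a y ε xs : ℕ → ℝ} {c' r q A : ℝ} {N : ℕ},
      SFlow P b σ c c1 q2 qx a y ε xs c' r q A N → 0 ≤ σ → σ ≤ 1 / 4 →
      ∀ ck : ℝ, 0 < ck → 2 * P.th ≤ ck → ck ≤ P.thp → ∀ i : ℕ, 1 ≤ i → ∀ᶠ n in atTop,
        (∀ R, 2 ^ (n + kf ck y n) ≤ R → R ≤ 2 ^ (n + P.w (ε n) + kf ck y (n + P.w (ε n))) →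
          SmKAt (sd i R) b (tn n) (y n ^ (-c1)) (y n ^ (9 / 8 : ℝ))) ∧
        ∀ k, n + kf ck y n ≤ k → k ≤ n + P.w (ε n) + kf ck y (n + P.w (ε n)) + 1 →
          SmKAt (sd i (2 ^ k)) b (tn n) (y n ^ (-c1)) (y n ^ (9 / 8 : ℝ)) := by
  refine (smT_flow (b2 := b2) hb1 h1 hpf Q (δ := 1 / 16) (by norm_num) (by norm_num)).mono
    fun P c1 hadm hT => ?_
  obtain ⟨hc0, hc1, hF⟩ := hT
  refine ⟨hc0, hc1, ?_⟩
  intro σ c q2 qx a y ε xs c' r q A N h hσ0 hσ ck hck hck2 hck1 i hi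
  filter_upwards [hF h hσ0 hσ ck hck hck2 hck1 i hi c1 hc0.le (by linarith) 1,
    hF h hσ0 hσ ck hck hck2 hck1 (i + 1) (by omega) c1 hc0.le (by linarith) 1,
    sf_smK h hσ hc0 hc1, H37.Sf.sf_win h hσ hck hck1 0] with n g1 g2 g3 g4
  have H1 : ∀ R, 2 ^ (n + kf ck y n) ≤ R →
      R ≤ 2 ^ (n + P.w (ε n) + kf ck y (n + P.w (ε n))) →
      SmKAt (sd i R) b (tn n) (y n ^ (-c1)) (y n ^ (9 / 8 : ℝ)) := fun R h1 h2 =>
    (g1 R h1 h2).smK g3.1 g3.2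
  refine ⟨H1, fun k h1 h2 => ?_⟩
  rcases Nat.lt_or_ge (n + P.w (ε n) + kf ck y (n + P.w (ε n))) k with h3 | h3
  · have h4 : k = n + P.w (ε n) + kf ck y (n + P.w (ε n)) + 1 := by omega
    subst h4
    have h6 := (g2 (2 ^ (n + P.w (ε n) + kf ck y (n + P.w (ε n))))
      (Nat.pow_le_pow_right two_pos g4.2.2.1) le_rfl).smK g3.1 g3.2
    refine h6.cast ?_
    rw [sd_pow, sd_pow]
    congr 1
    ring
  · exact H1 _ (Nat.pow_le_pow_right two_pos h1) (Nat.pow_le_pow_right two_pos h3)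

/-- **SIZES OF THE WEIGHTS**: `WtFam` of helper37 -/
theorem wt_flow {b b1 b2 pf : ℝ} (hb1 : 0 < b1) (h1 : b1 ≤ b) (hpf : 0 < pf) (Q : ℕ) :
    Ev b1 b2 pf Q fun P c1 => 0 < c1 ∧ c1 ≤ P.th / 100 ∧
      ∀ {σ c q2 qx : ℝ} {a y ε xs : ℕ → ℝ} {c' r q A : ℝ} {N : ℕ},
      SFlow P b σ c c1 q2 qx a y ε xs c' r q A N → 0 ≤ σ → σ ≤ 1 / 4 →
      ∀ ck : ℝ, 0 < ck → 2 * P.th ≤ ck → ck ≤ P.thp → ∀ c3 : ℝ, c3 < 2 * c1 →
      H37.Sf.WtFam P b ck c3 y ε := by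
  refine (sit_flow (b2 := b2) hb1 h1 hpf Q).mono fun P c1 hadm hT => ?_
  obtain ⟨hc0, hc1, hF⟩ := hT
  refine ⟨hc0, hc1, ?_⟩
  intro σ c q2 qx a y ε xs c' r q A N h hσ0 hσ ck hck hck2 hck1 c3 hc3
  refine ⟨1, fun i hi => ?_⟩
  filter_upwards [hF h hσ0 hσ ck hck hck2 hck1 i hi c3 hc3 4 1 1 (1 / 4000) 1 one_pos
    (by norm_num)] with n g R h2 h3
  exact (g.2 R h2 h3).2.2

/-- **SMALL SOURCES**: `ν {1 < R (Y F)} n^3 ≤ 1`, any fixed amplitude -/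
theorem src_flow {b b1 b2 pf : ℝ} (hb1 : 0 < b1) (h1 : b1 ≤ b) (hpf : 0 < pf) (Q : ℕ) :
    Ev b1 b2 pf Q fun P c1 => 0 < c1 ∧ c1 ≤ P.th / 100 ∧
      ∀ {σ c q2 qx : ℝ} {a y ε xs : ℕ → ℝ} {c' r q A : ℝ} {N : ℕ},
      SFlow P b σ c c1 q2 qx a y ε xs c' r q A N → 0 ≤ σ → σ ≤ 1 / 4 →
      ∀ ck : ℝ, 0 < ck → 2 * P.th ≤ ck → ck ≤ P.thp → ∀ i : ℕ, 1 ≤ i → ∀ (Y : ℝ) (m : ℕ),
      ∀ᶠ n in atTop, ∀ R, 2 ^ (n + kf ck y n) ≤ R →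
        R ≤ 2 ^ (n + P.w (ε n) + kf ck y (n + P.w (ε n))) →
        (nuM (wT b (sd i R)) (tn n • (1 : Matrix (V (sd i R)) (V (sd i R)) ℝ)) 0).real
            {F | 1 < H37.Rs (nwt (sd i R) b (tn n) 0)
              (ntr (tn n • (1 : Matrix (V (sd i R)) (V (sd i R)) ℝ)) (tn n) *ᵥ (Y • F))} *
          (n : ℝ) ^ m ≤ 1 := by
  refine (sit_flow (b2 := b2) hb1 h1 hpf Q).mono fun P c1 hadm hT => ?_
  obtain ⟨hc0, hc1, hF⟩ := hT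
  refine ⟨hc0, hc1, ?_⟩
  intro σ c q2 qx a y ε xs c' r q A N h hσ0 hσ ck hck hck2 hck1 i hi Y m
  filter_upwards [hF h hσ0 hσ ck hck hck2 hck1 i hi c1 (by linarith) 1 Y 1 1 1 one_pos one_pos,
    sf_expn h hc0 m] with n g g2 R h2 h3
  have h4 := (g.2 R h2 h3).1
  have e1 : {F : V (sd i R) → ℝ | 1 < RF (sd i R) b (tn n) (Y • F)} =
      {F | 1 < H37.Rs (nwt (sd i R) b (tn n) 0)
        (ntr (tn n • (1 : Matrix (V (sd i R)) (V (sd i R)) ℝ)) (tn n) *ᵥ (Y • F))} := by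
    ext F
    rw [Set.mem_ofPred_eq, Set.mem_ofPred_eq, RF_src]
    rfl
  rw [e1, one_mul] at h4
  refine (mul_le_mul_of_nonneg_right h4 (by positivity)).trans g2

end

end Vale.Agent.P159.H816
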