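import Vale.Agent.P159.H816.Sm1
import Vale.Agent.P159.H816.St2

/-!
P159 / **smooth real fields along the flow** (helper816, for 770, 686, 859), part 2.

* `SmF` : on every torus of the window, helper859's `SmT` at the finest V cells `2 ^ sF`, with
  `y^(-th/8) ≤ 4^j`, `lvS ≤ y^(2 - 3σ - δ)`, `t lc² ≤ exp (-(κ y^(-c3)))`;
* `SmF.rf` : `RF (z F) ≤ 2 y^(2 - 3σ - δ)` if `nrm (gr F) ≤ G`, `96 z² G ≤ y^(-th/8)`;
* `smT_flow` (`Ev` form).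
-/

set_option linter.unusedSectionVars false

namespace Vale.Agent.P159.H816

open Filter Topology MeasureTheory Finset Matrix
open Vale.Agent.P159.H972 (Par lg tn Good FL)
open Vale.Agent.P159.H801 (Ev SFlow)
open Vale.Agent.P159.H963.Core (RF)
open Vale.Agent.P159.TM.Spec (V)
open Vale.Agent.P159.H37.Sf (kf sf_TT sf_eps sf_big sf_ny)
open Vale.Agent.P159.H773 (sd nuF)
open Vale.Agent.P159.H817 (gr nrm)
open Vale.Agent.P159.H859.Idl (SmT)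
open Vale.Agent.P159.H789 (lvS)

noncomputable section

/-- `SmT` with its numbers at one torus: level `L`, energy `G0`, cell number `w` -/
def SmAt (b t L G0 w : ℝ) (N : ℕ) [NeZero N] : Prop :=
  ∃ (lc : ℕ) (_ : NeZero (N / lc)) (Y ρ p p' : ℝ) (j k : ℕ), SmT N lc b t Y ρ p p' 3 j k ∧
    0 ≤ ρ ∧ G0 ≤ 4 ^ j ∧ lvS ρ j k ≤ L ∧ t * (lc : ℝ) ^ 2 ≤ w

lemma SmAt.cast {b t L G0 w : ℝ} {N M : ℕ} [NeZero N] [NeZero M] (h : N = M)
    (H : SmAt b t L G0 w N) : SmAt b t L G0 w M := by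
  subst h
  exact H

/-- **energy form** -/
theorem SmAt.rf {b t L G0 w : ℝ} {N : ℕ} [NeZero N] (H : SmAt b t L G0 w N) (hb : 0 < b)
    (ht : 0 < t) {F : V N → ℝ} {G z : ℝ} (hG : nrm (gr F) ≤ G) (hz : 96 * z ^ 2 * G ≤ G0) :
    RF N b t (z • F) ≤ L / 2 + 16 * z ^ 2 * w * G := by
  obtain ⟨lc, hne, Y, ρ, p, p', j, k, h, hρ, h1, h2, h3⟩ := H
  have hG0 : 0 ≤ G := (Finset.sum_nonneg fun e _ => sq_nonneg _).trans hG
  have h4 := h.rf hb ht hG (z := z) (by linarith)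
  have h5 : 16 * z ^ 2 * t * (lc : ℝ) ^ 2 * G ≤ 16 * z ^ 2 * w * G := by
    have h6 := mul_le_mul_of_nonneg_left h3 (show 0 ≤ 16 * z ^ 2 * G by positivity)
    linarith
  linarith

lemma two_lg {y x : ℝ} (hy : 0 < y) (hy1 : y ≤ 1) (hx : 0 ≤ x) : (2 : ℝ) ^ lg x y ≤ 2 * y ^ (-x) := by
  have hl : 0 ≤ Real.logb 2 (1 / y) :=
    Real.logb_nonneg one_lt_two (by rw [le_div_iff₀ hy]; linarith)
  have h3 : (lg x y : ℝ) ≤ x * Real.logb 2 (1 / y) + 1 :=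
    (Nat.ceil_lt_add_one (mul_nonneg hx hl)).le
  have h4 : (2 : ℝ) ^ (x * Real.logb 2 (1 / y)) = y ^ (-x) := by
    rw [mul_comm, Real.rpow_mul two_pos.le, Real.rpow_logb two_pos (by norm_num) (by positivity),
      one_div, Real.inv_rpow hy.le, Real.rpow_neg hy.le]
  have h5 : (2 : ℝ) ^ lg x y ≤ 2 ^ (x * Real.logb 2 (1 / y) + 1) := by
    rw [← Real.rpow_natCast]
    exact Real.rpow_le_rpow_of_exponent_le one_le_two h3
  rw [Real.rpow_add two_pos, h4, Real.rpow_one] at h5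
  linarith

/-- the level -/
lemma lvl_num {y e σ δ δ' th : ℝ} {j k : ℕ} (hy : 0 < y) (hy1 : y ≤ 1) (he : 0 < e)
    (hup : e ≤ y ^ (2 - 3 * σ)) (hσ0 : 0 ≤ σ) (hσ : σ ≤ 1 / 4) (hδ' : 0 < δ') (hδ'1 : δ' ≤ 1 / 2)
    (hk : (1 / 2 : ℝ) ^ k ≤ δ') (hj2 : (2 : ℝ) ^ j ≤ 2 * y ^ (-(th / 16)))
    (g2 : y ^ (δ - (4 * δ' + th / 4)) ≤ 1 / (576 * 16)) :
    lvS (e ^ (1 - δ')) j k ≤ y ^ (2 - 3 * σ - δ) := by
  have Py : ∀ a : ℝ, 0 < y ^ a := fun a => Real.rpow_pos_of_pos hy a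
  have hk0 : 0 ≤ (1 / 2 : ℝ) ^ k := by positivity
  have hexp : 0 ≤ (1 : ℝ) - (1 / 2) ^ k := by
    have : (1 / 2 : ℝ) ^ k ≤ 1 := pow_le_one₀ (by norm_num) (by norm_num)
    linarith
  have h3 : e ^ (1 - δ') ≤ y ^ ((2 - 3 * σ) * (1 - δ')) := by
    have h4 := Real.rpow_le_rpow he.le hup (by linarith : 0 ≤ 1 - δ')
    rwa [← Real.rpow_mul hy.le] at h4
  have h8 : 1 - 2 * δ' ≤ (1 - δ') * (1 - (1 / 2) ^ k) := by
    have := mul_nonneg hδ'.le hk0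
    linarith
  have h9 := mul_le_mul_of_nonneg_left h8 (show 0 ≤ 2 - 3 * σ by linarith)
  have h10 : 2 - 3 * σ - 4 * δ' ≤ (2 - 3 * σ) * (1 - δ') * (1 - (1 / 2) ^ k) := by
    have h11 := mul_nonneg hσ0 hδ'.le
    linarith
  have h4 : (e ^ (1 - δ')) ^ (1 - (1 / 2 : ℝ) ^ k) ≤ y ^ (2 - 3 * σ - 4 * δ') := by
    have h5 := Real.rpow_le_rpow (Real.rpow_nonneg he.le _) h3 hexp
    rw [← Real.rpow_mul hy.le] at h5
    exact h5.trans (Real.rpow_le_rpow_of_exponent_ge hy hy1 h10)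
  have h5 : (16 : ℝ) ^ j ≤ 16 * y ^ (-(th / 4)) := by
    have h6 := pow_le_pow_left₀ (by positivity) hj2 4
    have e1 : ((2 : ℝ) ^ j) ^ 4 = 16 ^ j := by
      rw [← pow_mul, mul_comm, pow_mul]
      norm_num
    have e2 : (2 * y ^ (-(th / 16))) ^ 4 = 16 * y ^ (-(th / 4)) := by
      rw [mul_pow, rpow_pow' hy]
      norm_num
      congr 1
      ring
    rwa [e1, e2] at h6
  have h6 : lvS (e ^ (1 - δ')) j k ≤
      576 * (16 * y ^ (-(th / 4))) * y ^ (2 - 3 * σ - 4 * δ') := by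
    unfold H789.lvS
    exact mul_le_mul (mul_le_mul_of_nonneg_left h5 (by norm_num)) h4
      (Real.rpow_nonneg (Real.rpow_nonneg he.le _) _) (by have := Py (-(th / 4)); positivity)
  refine h6.trans ?_
  have h7 : y ^ (-(th / 4)) * y ^ (2 - 3 * σ - 4 * δ') =
      y ^ (2 - 3 * σ - δ) * y ^ (δ - (4 * δ' + th / 4)) := by
    rw [← Real.rpow_add hy, ← Real.rpow_add hy]
    congr 1
    ring
  have h8 : 576 * (16 * y ^ (-(th / 4))) * y ^ (2 - 3 * σ - 4 * δ') =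
      576 * 16 * (y ^ (2 - 3 * σ - δ) * y ^ (δ - (4 * δ' + th / 4))) := by
    rw [← h7]
    ring
  rw [h8]
  have h9 := mul_le_mul_of_nonneg_left g2 (Py (2 - 3 * σ - δ)).le
  linarith

/-- the cells -/
lemma cell_num {y e c1 c3 κ : ℝ} {n : ℕ} (hy : 0 < y) (hy1 : y ≤ 1) (he : 0 < e) (hey : e ≤ y)
    (hc1 : 0 < c1) (hc30 : 0 ≤ c3) (hn : 2 * e ^ (-(2 * c1)) ≤ n)
    (g3 : |κ| + 2 ≤ y ^ (-(2 * c1 - c3))) :
    tn n * (((2 ^ sF c1 n e : ℕ)) : ℝ) ^ 2 ≤ Real.exp (-(κ * y ^ (-c3))) := by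
  have hsn := sF_le c1 n e
  have hlo := sF_lo he hn
  have e1 : tn n * (((2 ^ sF c1 n e : ℕ)) : ℝ) ^ 2 =
      Real.exp (-(Real.log 4 * ((n - sF c1 n e : ℕ) : ℝ))) := by
    unfold H972.tn
    have h4 : (4 : ℝ) ^ n = 4 ^ sF c1 n e * 4 ^ (n - sF c1 n e) := by
      rw [← pow_add]
      congr 1
      omega
    have h5 : (4 : ℝ) ^ (n - sF c1 n e) =
        Real.exp (Real.log 4 * ((n - sF c1 n e : ℕ) : ℝ)) := by
      rw [mul_comm, Real.exp_nat_mul, Real.exp_log (by norm_num)]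
    push_cast
    rw [h4, ← pow_mul, mul_comm (sF c1 n e) 2, pow_mul, Real.exp_neg, ← h5]
    norm_num
  rw [e1]
  refine Real.exp_le_exp.2 (neg_le_neg ?_)
  have hl4 : 1 ≤ Real.log 4 := by
    have h5 := Real.log_two_gt_d9
    have : Real.log 4 = 2 * Real.log 2 := by
      rw [show (4 : ℝ) = 2 ^ 2 by norm_num, Real.log_pow]
      norm_num
    linarith
  have h5 : y ^ (-(2 * c1)) ≤ e ^ (-(2 * c1)) :=
    Real.rpow_le_rpow_of_nonpos he hey (by linarith)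
  have h6 : y ^ (-(2 * c1)) = y ^ (-(2 * c1 - c3)) * y ^ (-c3) := by
    rw [← Real.rpow_add hy]
    congr 1
    ring
  have h7 : 1 ≤ y ^ (-c3) := Real.one_le_rpow_of_pos_of_le_one_of_nonpos hy hy1 (by linarith)
  have h9 : (|κ| + 2) * y ^ (-c3) ≤ y ^ (-(2 * c1)) := by
    rw [h6]
    exact mul_le_mul_of_nonneg_right g3 (by linarith)
  have h10 : κ * y ^ (-c3) ≤ |κ| * y ^ (-c3) :=
    mul_le_mul_of_nonneg_right (le_abs_self κ) (by linarith)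
  have h11 : (0 : ℝ) ≤ ((n - sF c1 n e : ℕ) : ℝ) := Nat.cast_nonneg _
  have h12 := mul_le_mul_of_nonneg_right hl4 h11
  linarith

section flow

variable {P : Par} {b σ c c1 q2 qx : ℝ} {a y ε xs : ℕ → ℝ} {c' r q A : ℝ} {N : ℕ}

/-- smooth real fields, all tori of the window -/
def SmW (P : Par) (b σ δ ck : ℝ) (y ε : ℕ → ℝ) (i : ℕ) (c3 κ : ℝ) (n : ℕ) : Prop :=
  ∀ R, 2 ^ (n + kf ck y n) ≤ R → R ≤ 2 ^ (n + P.w (ε n) + kf ck y (n + P.w (ε n))) →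
    SmAt b (tn n) (y n ^ (2 - 3 * σ - δ)) (y n ^ (-(P.th / 8))) (Real.exp (-(κ * y n ^ (-c3))))
      (sd i R)

theorem sf_smt {δ' δ : ℝ} {k : ℕ} (hS : SmP P b c1 δ')
    (h : SFlow P b σ c c1 q2 qx a y ε xs c' r q A N) (hA : P.Adm) (hσ0 : 0 ≤ σ)
    (hσ : σ ≤ 1 / 4) (hc1 : 0 < c1) (hc18 : c1 ≤ 1 / 8) {ck : ℝ} (hck : 0 < ck)
    (hck1 : ck ≤ P.thp) (hck2 : 2 * P.th ≤ ck) {i : ℕ} (hi : 1 ≤ i) {c3 : ℝ} (hc30 : 0 ≤ c3)
    (hc3 : c3 < 2 * c1) (κ : ℝ) (hδ' : 0 < δ') (hδ'1 : δ' ≤ 1 / 2) (hk : (1 / 2 : ℝ) ^ k ≤ δ')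
    (hδ : 4 * δ' + P.th / 4 < δ) :
    ∀ᶠ n in atTop, SmW P b σ δ ck y ε i c3 κ n := by
  have hth := P.th0
  have hπ := Real.pi_gt_d2
  have hπ4 := Real.pi_lt_d2
  have hg := h.lim.eventually (lt_mem_nhds (show (1 : ℝ) < Real.pi / 2 by linarith))
  have hg2 := h.lim.eventually (gt_mem_nhds (show Real.pi / 2 < 8 / 5 by linarith))
  filter_upwards [sf_TT h hA hσ0 hσ hck hck1 hck2 hi, sf_n2 h hσ0 hc1 hc18, hg, hg2,
    sf_big h (p := P.th / 64) (M := 2 * 2 ^ k) (by positivity) (by positivity),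
    h.fl.ev_pow (b := δ - (4 * δ' + P.th / 4)) (e := 1 / (576 * 16)) (by linarith) (by norm_num),
    sf_big h (p := 2 * c1 - c3) (M := |κ| + 2) (by linarith) (by positivity),
    eventually_ge_atTop N] with n gT gn ga1 ga2 g1 g2 g3 hn
  have hy := h.fl.y0 n
  have hy1 := h.y1 n hn
  have hε := sf_eps h hn
  have hes := h.es n hn
  have Py : ∀ a : ℝ, 0 < y n ^ a := fun a => Real.rpow_pos_of_pos hy a
  have hup0 : ε n ≤ y n ^ (2 - 3 * σ) := h.up n hn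
  have hup : ε n ≤ y n ^ (5 / 4 : ℝ) :=
    hup0.trans (Real.rpow_le_rpow_of_exponent_ge hy hy1 (by linarith))
  intro R h1 h2
  have e0 : 2 ^ (i + Nat.clog 2 R) = sd i R := by
    unfold H773.sd
    rw [pow_add]
  refine SmAt.cast e0 ?_
  have hTT := gT R h1 h2
  have hsn := sF_le c1 n (ε n)
  have hnr : n ≤ i + Nat.clog 2 R := (Nat.le_add_right _ _).trans hTT.1
  have hne : NeZero (2 ^ (i + Nat.clog 2 R) / 2 ^ sF c1 n (ε n)) := ⟨by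
    rw [Nat.pow_div (by omega) two_pos]
    positivity⟩
  obtain ⟨j, hj⟩ : ∃ j, j = lg (P.th / 16) (y n) := ⟨_, rfl⟩
  have hj1 : y n ^ (-(P.th / 16)) ≤ 2 ^ j := hj ▸ H37.Sf.rpow_le_two_pow hy
  have hj2 : (2 : ℝ) ^ j ≤ 2 * y n ^ (-(P.th / 16)) := hj ▸ two_lg hy hy1 (by positivity)
  have hY : (2 : ℝ) ^ (j + k) ≤ ε n ^ (-(P.th / 16)) := by
    have h3 : y n ^ (-(P.th / 16) + -(P.th / 64)) ≤ ε n ^ (-(P.th / 16)) := by
      have h4 := Real.rpow_le_rpow_of_nonpos hε hup (by linarith : -(P.th / 16) ≤ 0)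
      rw [← Real.rpow_mul hy.le] at h4
      refine le_trans (le_of_eq ?_) h4
      congr 1
      ring
    rw [Real.rpow_add hy] at h3
    rw [pow_add]
    have h5 := Py (-(P.th / 16))
    have h6 : (0 : ℝ) < 2 ^ k := by positivity
    have h7 : (2 : ℝ) ^ j * 2 ^ k ≤ 2 * y n ^ (-(P.th / 16)) * 2 ^ k :=
      mul_le_mul_of_nonneg_right hj2 h6.le
    have h8 := mul_le_mul_of_nonneg_left g1 h5.le
    linarith
  refine ⟨2 ^ sF c1 n (ε n), hne, _, _, _, _, j, k,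
    hS n (ε n) hε hes (h.good n hn) gn (a n) ga1.le ga2.le _ hTT
      (h.flc n (ε n) hε hes (h.good n hn) (ε n) le_rfl hes _ hTT) j k hY,
    Real.rpow_nonneg hε.le _, ?_, ?_, ?_⟩
  · -- the energy
    have h3 := pow_le_pow_left₀ (Py _).le hj1 2
    have e1 : (y n ^ (-(P.th / 16))) ^ 2 = y n ^ (-(P.th / 8)) := by
      rw [rpow_pow' hy]
      congr 1
      push_cast
      ring
    have e2 : ((2 : ℝ) ^ j) ^ 2 = 4 ^ j := by
      rw [← pow_mul, mul_comm, pow_mul]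
      norm_num
    rw [e1, e2] at h3
    exact h3
  · exact lvl_num hy hy1 hε hup0 hσ0 hσ hδ' hδ'1 hk hj2 g2
  · exact cell_num hy hy1 hε (hup.trans (by
        calc y n ^ (5 / 4 : ℝ) ≤ y n ^ (1 : ℝ) :=
              Real.rpow_le_rpow_of_exponent_ge hy hy1 (by norm_num)
          _ = y n := Real.rpow_one _)) hc1 hc30 gn g3

end flow

/-- **`SmT` along the flow** -/
theorem smT_flow {b b1 b2 pf : ℝ} (hb1 : 0 < b1) (h1 : b1 ≤ b) (hpf : 0 < pf) (Q : ℕ) {δ : ℝ}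
    (hδ : 0 < δ) (hδ1 : δ ≤ 1) :
    Ev b1 b2 pf Q fun P c1 => 0 < c1 ∧ c1 ≤ P.th / 100 ∧
      ∀ {σ c q2 qx : ℝ} {a y ε xs : ℕ → ℝ} {c' r q A : ℝ} {N : ℕ},
      SFlow P b σ c c1 q2 qx a y ε xs c' r q A N → 0 ≤ σ → σ ≤ 1 / 4 →
      ∀ ck : ℝ, 0 < ck → 2 * P.th ≤ ck → ck ≤ P.thp → ∀ i : ℕ, 1 ≤ i → ∀ c3 : ℝ, 0 ≤ c3 →
      c3 < 2 * c1 → ∀ κ : ℝ, ∀ᶠ n in atTop, SmW P b σ δ ck y ε i c3 κ n := by
  obtain ⟨k, hk⟩ := exists_pow_lt_of_lt_one (show (0 : ℝ) < δ / 16 by positivity)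
    (show (1 / 2 : ℝ) < 1 by norm_num)
  refine (((ev_smt (b2 := b2) hb1 h1 hpf Q (δ := δ / 16) (by positivity) (by linarith)).and
    (ev_c1 (b1 := b1) (b2 := b2) (pf := pf) Q (show (0 : ℝ) < 1 / 100 by norm_num))).and
    (ev_num (b1 := b1) (b2 := b2) (pf := pf) Q (F := fun P _ => P.th ≤ δ) (x0 := δ) 0 hδ
      fun x1 thp th C0 hth htt htx hx _ => Eventually.of_forall fun e P e1 _ _ _ _ => by
        rw [e1]
        linarith)).mono fun P c1 hadm hT => ?_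
  obtain ⟨⟨hS, hc0, hc1⟩, hth⟩ := hT
  have hthδ : P.th ≤ δ := hth P.es P.es0 le_rfl
  have hth1 : P.th ≤ 1 := by linarith
  refine ⟨hc0, by linarith, ?_⟩
  intro σ c q2 qx a y ε xs c' r q A N h hσ0 hσ ck hck hck2 hck1 i hi c3 hc30 hc3 κ
  exact sf_smt (k := k) hS h hadm hσ0 hσ hc0 (by linarith) hck hck1 hck2 hi hc30 hc3 κ
    (by positivity) (by linarith) hk.le (by linarith)

end

end Vale.Agent.P159.H816
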