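import Vale.Agent.P159.H816.Zs0
import Vale.Agent.P159.H30.StG

/-!
P159 / module ZS (helper816), part 1: the block noise of `H972.AP` in the letters of 663's `hAP`
(`dB` of the block, index set `V (N / l)`).
-/

set_option linter.unusedSectionVars false

namespace Vale.Agent.P159.H816

open Finset Matrix MeasureTheory ProbabilityTheory
open Vale.Agent.P159.TM.Spec (V)
open Vale.Agent.P159.TM.SpecC (wT)
open Vale.Agent.P159.H37
open Vale.Agent.P159.H864
open Vale.Agent.P159.H859 (dB)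
open Vale.Agent.P159.H663
open Vale.Agent.P159.H972 (AP cobB)

noncomputable section

/-- equal covariances, equal probabilities -/
theorem gau_cov_eq {X I J : Type*} [Fintype X] [Fintype I] [Fintype J] {A : Matrix X I ℝ}
    {B : Matrix X J ℝ} (h : A * Aᵀ = B * Bᵀ) {E : Set (X → ℝ)} (hE : MeasurableSet E) :
    (gau I).real {g | A *ᵥ g ∈ E} = (gau J).real {g | B *ᵥ g ∈ E} := by
  have m1 : Measurable fun g : I → ℝ => A *ᵥ g := by fun_prop
  have m2 : Measurable fun g : J → ℝ => B *ᵥ g := by fun_prop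
  have e1 : (gau I).real {g | A *ᵥ g ∈ E} = ((gau I).map fun g => A *ᵥ g).real E := by
    rw [map_measureReal_apply m1 hE]
    rfl
  have e2 : (gau J).real {g | B *ᵥ g ∈ E} = ((gau J).map fun g => B *ᵥ g).real E := by
    rw [map_measureReal_apply m2 hE]
    rfl
  rw [e1, e2, H239.gau_map_congr h]

/-- the cells of the block `B` (blocks of `q * q` cells) -/
def blk (n q : ℕ) [NeZero n] (B : ℕ × ℕ) : Finset (V n) :=
  Finset.univ.filter fun c => c.1.val / q = B.1 ∧ c.2.val / q = B.2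

lemma mem_blk {n q : ℕ} [NeZero n] {B : ℕ × ℕ} {c : V n} :
    c ∈ blk n q B ↔ c.1.val / q = B.1 ∧ c.2.val / q = B.2 := by
  unfold blk
  simp

section block

variable {N l : ℕ} [NeZero N] [NeZero (N / l)]

lemma Lb_gram (q : ℕ) (B : ℕ × ℕ) :
    H30.Lb N l q B * (H30.Lb N l q B)ᵀ = dB (blk (N / l) q B) := by
  classical
  ext c c'
  rw [Matrix.mul_apply, Finset.sum_eq_single (ce (N / l) c)]
  · unfold H859.dB H30.Lb
    simp only [Matrix.of_apply, Matrix.transpose_apply, if_true]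
    by_cases h : c = c'
    · subst h
      rw [Matrix.diagonal_apply_eq]
      have e1 : ((ce (N / l) c).1 : Fin (N / l)).val = c.1.val := rfl
      have e2 : ((ce (N / l) c).2 : Fin (N / l)).val = c.2.val := rfl
      simp only [e1, e2, if_true, mem_blk]
      split_ifs <;> norm_num
    · have h2 : ¬ ce (N / l) c' = ce (N / l) c := fun h' => h ((ce (N / l)).injective h'.symm)
      rw [Matrix.diagonal_apply_ne _ h]
      simp only [if_neg h2, mul_zero]
  · intro j _ hj
    unfold H30.Lb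
    rw [Matrix.of_apply, if_neg (Ne.symm hj), zero_mul]
  · intro h
    exact absurd (Finset.mem_univ _) h

/-- the two forms of the block noise have the same covariance -/
lemma cobB_cov_dB (hl : l ∣ N) (q : ℕ) (B : ℕ × ℕ) :
    cobB N l q B * (cobB N l q B)ᵀ =
      ((cobV N l)ᵀ * dB (blk (N / l) q B)) * ((cobV N l)ᵀ * dB (blk (N / l) q B))ᵀ := by
  rw [H30.cobB_eq hl, transpose_mul, transpose_mul, transpose_transpose, dB_tr]
  have e1 : (cobV N l)ᵀ * H30.Lb N l q B * ((H30.Lb N l q B)ᵀ * cobV N l) =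
      (cobV N l)ᵀ * (H30.Lb N l q B * (H30.Lb N l q B)ᵀ) * cobV N l := by
    simp only [Matrix.mul_assoc]
  have e2 : (cobV N l)ᵀ * dB (blk (N / l) q B) * (dB (blk (N / l) q B) * cobV N l) =
      (cobV N l)ᵀ * (dB (blk (N / l) q B) * dB (blk (N / l) q B)) * cobV N l := by
    simp only [Matrix.mul_assoc]
  rw [e1, e2, Lb_gram, dB_idem]

/-- **the probability of `AP` in the letters of `cRs_ball`, `cRs_noise`** -/
theorem ap_prob {b τ : ℝ} (hb : 0 ≤ b) (hτ : 0 < τ) (hl : l ∣ N) (q : ℕ) (B : ℕ × ℕ)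
    (x δ : ℝ) :
    (gau (V (N / l))).real {g | δ < rsC N l b τ (x • (dB (blk (N / l) q B) *ᵥ g))} =
      (gau (Fin (N / l) × Fin (N / l))).real
        {g | δ < Rs (wt N b τ) ((x • cobB N l q B) *ᵥ g)} := by
  have hE : MeasurableSet {J : V N → ℝ | δ < Rs (wt N b τ) J} :=
    measurableSet_lt measurable_const (H586.rs_meas (H789.em_wt hb hτ))
  have hc : (x • cobB N l q B) * (x • cobB N l q B)ᵀ =
      (x • ((cobV N l)ᵀ * dB (blk (N / l) q B))) *
        (x • ((cobV N l)ᵀ * dB (blk (N / l) q B)))ᵀ := by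
    rw [transpose_smul, transpose_smul, Matrix.smul_mul, Matrix.mul_smul, Matrix.smul_mul,
      Matrix.mul_smul, cobB_cov_dB hl]
  have h1 := gau_cov_eq hc hE
  simp only [Set.mem_ofPred_eq] at h1
  rw [h1]
  have e : ∀ g : V (N / l) → ℝ, rsC N l b τ (x • (dB (blk (N / l) q B) *ᵥ g)) =
      Rs (wt N b τ) ((x • ((cobV N l)ᵀ * dB (blk (N / l) q B))) *ᵥ g) := by
    intro g
    unfold rsC
    rw [mulVec_smul, mulVec_mulVec, smul_mulVec]
  simp only [e]

end block

/-- **`AP` in the letters of `hAP`** -/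
theorem ap_blk {b τ X δ : ℝ} {n r s : ℕ} [NeZero (2 ^ r / 2 ^ s)] (hb : 0 ≤ b) (hτ : 0 < τ)
    (hs : s ≤ r) (h : AP b n r s X τ δ) (B : ℕ × ℕ) :
    (gau (V (2 ^ r / 2 ^ s))).real {g | δ < rsC (2 ^ r) (2 ^ s) b τ
      ((X * √τ) • (dB (blk (2 ^ r / 2 ^ s) (2 ^ (n - s)) B) *ᵥ g))} ≤ 1 / 30 := by
  rw [ap_prob hb hτ (pow_dvd_pow 2 hs)]
  exact h B

end

end Vale.Agent.P159.H816
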