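import Vale.Agent.P159.H816.Ty1
import Vale.Agent.P159.H789.TaI
import Vale.Agent.P159.H159.Drp2
import Vale.Agent.P159.TM.Frame.T1

/-!
P159 / **(A) TypE in the letters of `Good`** (helper816), part 2: the families.

* `TypB P b` : typical sources at the real mass of the state (bound `1/2`) and at the natural mass
  (bound `e^(1/20)`), amplitude `e^(-th/16)`, probability `exp (-e^(-th/16))`, every prior;
* `fam_typB` : `Fam b1 b2 pf fun P _ => TypB P b`; `fam_typA` : `Fam .. TypA P b N0` (helper159).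
-/

set_option linter.unusedSectionVars false

namespace Vale.Agent.P159.H816

open Filter Topology
open Vale.Agent.P159.H972 (Par lg tn one_le_logb GP AP RNG FL)
open Vale.Agent.P159.H730 (QD AptN ZsN AptH)
open Vale.Agent.P159.H239 (Fam Sel TypE)

noncomputable section

/-- typical sources, both masses -/
def TypB (P : Par) (b : ℝ) : Prop :=
  ∀ (n : ℕ) (e τ a : ℝ), 0 < e → e ≤ P.es → tn n ≤ τ → τ ≤ 4 * tn n → GP P b a n e τ →
    ∀ r, P.TT n e r → ∀ s, 0 < s → ∀ [NeZero (2 ^ r / 2 ^ P.sE n e)],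
      (s < τ → TypE (2 ^ r) (2 ^ P.sE n e) b τ s (e ^ (-(P.th / 16))) (1 / 2)
        (Real.exp (-(e ^ (-(P.th / 16)))))) ∧
      (s < tn n → TypE (2 ^ r) (2 ^ P.sE n e) b (tn n) s (e ^ (-(P.th / 16)))
        (e ^ (1 / 20 : ℝ)) (Real.exp (-(e ^ (-(P.th / 16))))))

section lv

variable {b1 b2 pf W ys x1 thp th C0 : ℝ} {X0 Q : ℕ} {P : Par}

/-- the bound of the number of blocks -/
lemma M_ev (hx1 : 0 < x1) (hx6 : 6 * x1 ≤ 1) (hthp : 0 < thp) (h1 : th ≤ x1 / 8)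
    (h2 : ((Q : ℝ) + 3) * thp ≤ x1 / 8) :
    ∀ᶠ e in 𝓝[>] (0 : ℝ), ∀ P : Par, Sel P b1 b2 pf W ys X0 x1 Q thp th C0 → ∀ n r : ℕ,
      P.TT n e r → (2 : ℝ) ^ (r - n) ≤ e ^ (-(6 * x1)) ∧
        ((r - n : ℕ) : ℝ) ≤ 1 + Real.logb 2 (1 / e) := by
  obtain ⟨qm, hqm⟩ : ∃ qm : ℕ, (x1 + (Q + 3) * thp) / thp ≤ qm := ⟨_, Nat.le_ceil _⟩
  have hρ : th + 4 * (x1 + (Q + 3) * thp) < 6 * x1 := by linarith
  filter_upwards [ev_pos, ev_le (show (0 : ℝ) < 1 / 4 by norm_num),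
    ev_pow hρ (2 ^ (1 + 4 * qm))] with e he he4 hE
  intro P hP n r hr
  have he1 : e ≤ 1 := by linarith
  have t1 := H789.tt_pow hP he he1 hr
  have hq0 : P.q0 ≤ qm := by
    have h2 : (P.q0 : ℝ) ≤ (x1 + (Q + 3) * thp) / thp := by
      rw [le_div_iff₀ hthp, ← hP.hthp]
      have := hP.hq
      rw [← hP.hthp] at this
      exact this
    exact_mod_cast h2.trans hqm
  have t3 : (2 : ℝ) ^ (1 + 4 * P.q0) ≤ 2 ^ (1 + 4 * qm) :=
    pow_le_pow_right₀ (by norm_num) (by omega)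
  have pe : 0 < e ^ (-(th + 4 * (x1 + (Q + 3) * thp))) := Real.rpow_pos_of_pos he _
  have hM : (2 : ℝ) ^ (r - n) ≤ e ^ (-(6 * x1)) :=
    (t1.trans (mul_le_mul_of_nonneg_right t3 pe.le)).trans hE
  refine ⟨hM, ?_⟩
  have h3 : e ^ (-(6 * x1)) ≤ 1 / e := by
    have h4 : e ^ (-(6 * x1)) ≤ e ^ (-1 : ℝ) :=
      Real.rpow_le_rpow_of_exponent_ge he he1 (by linarith)
    rwa [Real.rpow_neg_one, ← one_div] at h4
  have h5 : ((r - n : ℕ) : ℝ) ≤ Real.logb 2 (1 / e) := by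
    rw [Real.le_logb_iff_rpow_le one_lt_two (by positivity), Real.rpow_natCast]
    exact hM.trans h3
  linarith

/-- the level data of a state -/
lemma lv_of (hP : Sel P b1 b2 pf W ys X0 x1 Q thp th C0) (hC0 : 1 ≤ C0) {e : ℝ} (he : 0 < e)
    (he4 : e ≤ 1 / 4) {n r : ℕ} (hr : P.TT n e r) (hnE : 4 * lg P.C0 e ≤ n)
    (hM : (2 : ℝ) ^ (r - n) ≤ e ^ (-(6 * x1)))
    (hrn : ((r - n : ℕ) : ℝ) ≤ 1 + Real.logb 2 (1 / e)) :
    Lv (e ^ (-(th / 16))) (e ^ (-(6 * x1))) (e ^ (-C0)) (1 + Real.logb 2 (1 / e)) e C0 n r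
      (P.sE n e) := by
  have he2 : e ≤ 1 / 2 := by linarith
  have hL := one_le_logb he he2
  have hC := hP.hC0
  rw [hC] at hnE
  have hs : P.sE n e = n - lg C0 e := by
    unfold Par.sE
    rw [hC]
  have hns : n - (n - lg C0 e) = lg C0 e := by omega
  have hnr : n ≤ r := (Nat.le_add_right _ _).trans hr.1
  have hlg : (lg C0 e : ℝ) ≤ C0 * Real.logb 2 (1 / e) + 1 :=
    (Nat.ceil_lt_add_one (by positivity)).le
  have hlg2 : C0 * Real.logb 2 (1 / e) ≤ (lg C0 e : ℝ) := Nat.le_ceil _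
  have hG : e ^ (-C0) ≤ (2 : ℝ) ^ lg C0 e := H276.le_two_lg he
  have G0 : 0 < e ^ (-C0) := Real.rpow_pos_of_pos he _
  rw [hs]
  refine ⟨hM, hrn, ?_, ?_, Nat.sub_le _ _, hnr, ?_, ?_, ?_⟩
  · have h1 : r - (n - lg C0 e) = (r - n) + lg C0 e := by omega
    rw [h1]
    push_cast
    nlinarith
  · rw [hns]
    exact H276.two_lg (by linarith) he he2
  · have h1 : (e ^ (-C0)) ^ 4 ≤ (2 : ℝ) ^ n := by
      refine (pow_le_pow_left₀ G0.le hG 4).trans ?_
      rw [← pow_mul]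
      exact pow_le_pow_right₀ one_le_two (by omega)
    have h2 : (4 : ℝ) ^ n = 2 ^ n * 2 ^ n := by rw [← mul_pow]; norm_num
    rw [h2]
    exact mul_le_mul_of_nonneg_left h1 (by positivity)
  · have h1 : (e ^ (-C0)) ^ 2 ≤ (2 : ℝ) ^ (2 * lg C0 e) := by
      refine (pow_le_pow_left₀ G0.le hG 2).trans (le_of_eq ?_)
      rw [← pow_mul, mul_comm]
    have h2 : (4 : ℝ) ^ (n - lg C0 e) = 2 ^ (2 * (n - lg C0 e)) := by
      rw [pow_mul]
      norm_num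
    rw [h2]
    calc (2 : ℝ) ^ n * (e ^ (-C0)) ^ 2 ≤ 2 ^ n * 2 ^ (2 * lg C0 e) :=
          mul_le_mul_of_nonneg_left h1 (by positivity)
      _ = 2 ^ (n + 2 * lg C0 e) := by rw [pow_add]
      _ ≤ _ := pow_le_pow_right₀ one_le_two (by omega)
  · have h1 : Real.logb 2 (1 / e) ≤ (n : ℝ) := by
      have h2 : Real.logb 2 (1 / e) ≤ C0 * Real.logb 2 (1 / e) :=
        le_mul_of_one_le_left (by linarith) hC0
      have h3 : (lg C0 e : ℝ) ≤ n := by exact_mod_cast (by omega : lg C0 e ≤ n)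
      linarith
    linarith

end lv

/-- **(A), one state** -/
theorem typ_state {b1 b2 pf W ys x1 thp th C0 b K2 e₀ C c B : ℝ} {X0 Q : ℕ} {P : Par}
    (hb : 0 < b) (hP : Sel P b1 b2 pf W ys X0 x1 Q thp th C0) (hpf : 0 < pf)
    (hC0 : pf + 4 ≤ C0) (hK2 : 0 < K2)
    (H : AptH P b K2 (2 * C0 + 2) e₀)
    (hWt : ∀ (P : Par) (n r s : ℕ) (e τ a : ℝ) [NeZero (2 ^ r / 2 ^ s)], 0 < P.pf → 0 < e →
      e ≤ P.es → P.pf + 4 ≤ P.C0 → s + lg P.C0 e ≤ n → n + 2 ≤ r → tn n ≤ τ → τ ≤ 4 * tn n →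
      FL b (tn n) a (e ^ P.pf) (2 ^ r) → FL b (4 * tn n) a (e ^ P.pf) (2 ^ r) →
      tn n * (H276.Wt (2 ^ r) (2 ^ s) b (tn n) τ).trace ≤
        C * (1 + ((r - n : ℕ) : ℝ)) * ((2 : ℝ) ^ (r - n)) ^ 2 * e ^ (c * P.pf))
    (hcs : Cs B (Cz b) C (4 * K2 + 5) C0) {n r : ℕ} {e τ a : ℝ} (he : 0 < e) (hes : e ≤ P.es)
    (hee : e ≤ e₀)
    (S : Sm B (e ^ (-(th / 16))) (e ^ (-(6 * x1))) (e ^ (-C0)) (1 + Real.logb 2 (1 / e)) e (c * pf))
    (hL : Lv (e ^ (-(th / 16))) (e ^ (-(6 * x1))) (e ^ (-C0)) (1 + Real.logb 2 (1 / e)) e C0 n r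
      (P.sE n e))
    (hB : B * ((n : ℝ) + 1) ≤ 2 ^ n) (hr : P.TT n e r)
    (h1 : tn n ≤ τ) (h4 : τ ≤ 4 * tn n) (hG : GP P b a n e τ)
    (hAP : AP b n r (P.sE n e) ((e ^ (-(th / 16))) ^ 4 / 72) (tn n) (2 * e ^ (1 / 8 : ℝ)))
    {s : ℝ} (hs : 0 < s) [NeZero (2 ^ r / 2 ^ P.sE n e)] :
    (s < τ → TypE (2 ^ r) (2 ^ P.sE n e) b τ s (e ^ (-(P.th / 16))) (1 / 2)
      (Real.exp (-(e ^ (-(P.th / 16)))))) ∧
    (s < tn n → TypE (2 ^ r) (2 ^ P.sE n e) b (tn n) s (e ^ (-(P.th / 16)))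
      (e ^ (1 / 20 : ℝ)) (Real.exp (-(e ^ (-(P.th / 16)))))) := by
  rw [hP.hth]
  set q : ℝ := e ^ (-(th / 16)) with hq
  set m : ℝ := e ^ (-(6 * x1)) with hm
  set G : ℝ := e ^ (-C0) with hGd
  set R : ℝ := 1 + Real.logb 2 (1 / e) with hRd
  have q1 := S.q1
  have q0 : 0 < q := by linarith
  have he4 := S.e1
  have he2 : e ≤ 1 / 2 := by linarith
  have he1 : e ≤ 1 := by linarith
  have hl := one_le_logb he he2
  have hnr := hL.nr
  have hsn := hL.sn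
  have hlgn : 4 * lg P.C0 e ≤ n := hG.nE
  have hdiv : 2 ^ P.sE n e ∣ 2 ^ r := pow_dvd_pow 2 (hsn.trans hnr)
  obtain ⟨hR, -⟩ := hG.rng r (Or.inl hr)
  obtain ⟨F1, F4⟩ := hG.flat r hr
  -- the entropy number
  set D : ℕ := ⌈K2 * Real.log (1 / e)⌉₊ with hD
  have hD0 : K2 * Real.log (1 / e) ≤ D := Nat.le_ceil _
  have hlog : Real.log (1 / e) ≤ Real.logb 2 (1 / e) := by
    have h2 : 0 < Real.log 2 := Real.log_pos one_lt_two
    have h3 : Real.log 2 ≤ 1 := by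
      have := Real.log_two_lt_d9
      linarith
    have h0 : 0 ≤ Real.log (1 / e) := Real.log_nonneg (by rw [le_div_iff₀ he]; linarith)
    unfold Real.logb
    rw [le_div_iff₀ h2]
    nlinarith
  have hlog0 : 0 ≤ Real.log (1 / e) := Real.log_nonneg (by rw [le_div_iff₀ he]; linarith)
  have hD1 : 4 * (D : ℝ) + 1 ≤ (4 * K2 + 5) * R := by
    have h3 : (D : ℝ) ≤ K2 * Real.log (1 / e) + 1 :=
      (Nat.ceil_lt_add_one (by positivity)).le
    have h5 : K2 * Real.log (1 / e) ≤ K2 * Real.logb 2 (1 / e) :=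
      mul_le_mul_of_nonneg_left hlog hK2.le
    rw [hRd]
    nlinarith
  have hQD := one_le_QD D
  -- the number `w`
  have ht0 : 0 < tn n := tn_pos n
  set w : ℝ := (C * (1 + ((r - n : ℕ) : ℝ)) * ((2 : ℝ) ^ (r - n)) ^ 2 * e ^ (c * pf)) / tn n
    with hw
  have hw' : tn n * w = C * (1 + ((r - n : ℕ) : ℝ)) * ((2 : ℝ) ^ (r - n)) ^ 2 * e ^ (c * pf) := by
    rw [hw, mul_div_cancel₀ _ ht0.ne']
  have htr : (H276.Wt (2 ^ r) (2 ^ P.sE n e) b (tn n) τ).trace ≤ w := by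
    have h5 := hWt P n r (P.sE n e) e τ a (by rw [hP.hpf]; exact hpf) he hes
      (by rw [hP.hpf, hP.hC0]; exact hC0) (by unfold Par.sE; omega)
      (by
        have h6 : 3 ≤ P.kE e := hP.adm.hk.trans (H972.lg_anti P.th0.le he hes)
        have := hr.1
        omega) h1 h4 F1 F4
    rw [hP.hpf] at h5
    rw [hw, le_div_iff₀ ht0]
    linarith
  -- final numbers
  have hprob : 13 * ((2 : ℝ) ^ (r - n)) ^ 4 * Real.exp (-(2 * q)) ≤ Real.exp (-q) := by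
    have h5 : 13 * ((2 : ℝ) ^ (r - n)) ^ 4 ≤ Real.exp q := by
      have h6 := S.f8
      have h7 := hcs.c8
      have h8 := hL.M
      have h9 : ((2 : ℝ) ^ (r - n)) ^ 4 ≤ m ^ 4 := pow_le_pow_left₀ (by positivity) h8 4
      have m4 : 0 ≤ m ^ 4 := by positivity
      calc 13 * ((2 : ℝ) ^ (r - n)) ^ 4 ≤ 13 * m ^ 4 := by linarith
        _ ≤ B * m ^ 4 := mul_le_mul_of_nonneg_right h7 m4
        _ ≤ _ := h6
    have e1 : Real.exp (-(2 * q)) = Real.exp (-q) * Real.exp (-q) := by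
      rw [← Real.exp_add]
      congr 1
      ring
    rw [e1]
    calc 13 * ((2 : ℝ) ^ (r - n)) ^ 4 * (Real.exp (-q) * Real.exp (-q))
        ≤ Real.exp q * (Real.exp (-q) * Real.exp (-q)) :=
          mul_le_mul_of_nonneg_right h5 (by positivity)
      _ = Real.exp (-q) := by
        rw [← mul_assoc, ← Real.exp_add, add_neg_cancel, Real.exp_zero, one_mul]
  constructor
  · intro hsτ
    have hn := aptN_num (D := D) S hcs hL rfl hD0 hD1 (c₀ := 2 * q) (by linarith) le_rfl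
    have hz := zsN_num (b := b) (D := D) (Q₁ := 2 * q * QD D) S hcs hL hB hD1 (by nlinarith) le_rfl
      hw'
    have key := H730.typ_tau (Λ := G * e ^ (-1 : ℝ)) hb H he hee hR hnr hsn h1 h4 hn hz hAP htr hs
      hsτ
    refine key.mono hb.le hdiv hs hsτ.le q0.le le_rfl ?_ hprob
    have h5 := S.f12
    have h6 : q ^ 2 * (1 / (4 * q ^ 2)) = 1 / 4 := by field_simp
    rw [h6]
    linarith
  · intro hsτ
    have hn := aptN_num (D := D) S hcs hL rfl hD0 hD1 (c₀ := q) q0 (by linarith)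
    have hz := zsN_num (b := b) (D := D) (Q₁ := q * QD D) S hcs hL hB hD1 (by nlinarith)
      (by nlinarith) hw'
    have key := H730.typ_one (Λ := G * e ^ (-1 : ℝ)) hb H he hee hR hnr hsn hn hz hAP hs hsτ
    refine key.mono hb.le hdiv hs hsτ.le q0.le le_rfl ?_ hprob
    exact Real.rpow_le_rpow_of_exponent_ge he he1 (by norm_num)

/-- constants exist -/
lemma cs_exists {Cz C k C0 : ℝ} (h1 : 0 ≤ Cz) (h2 : 0 < C) (h3 : 1 ≤ k) (h4 : 0 ≤ C0) :
    ∃ B, 0 < B ∧ Cs B Cz C k C0 := by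
  have a1 : 0 ≤ 5184 * (256 * (Cz * k ^ 4 * (C0 + 5))) := by positivity
  have a2 : 0 ≤ 3 * (Cz * (C0 + 3)) := by positivity
  have a3 : 0 ≤ 2304 * k ^ 3 := by positivity
  have a4 : 0 ≤ 24 * (Cz * C) := by positivity
  have a5 : 0 ≤ 8 * (Cz * (C0 + 5)) := by positivity
  have a6 : 0 ≤ 24 * Cz := by positivity
  have a7 : 0 ≤ 4 * Cz * (6 + 1 / C) := by positivity
  refine ⟨5184 * (256 * (Cz * k ^ 4 * (C0 + 5))) + 3 * (Cz * (C0 + 3)) + 2304 * k ^ 3 +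
    24 * (Cz * C) + 8 * (Cz * (C0 + 5)) + 24 * Cz + 4 * Cz * (6 + 1 / C) + 13, by linarith,
    ⟨by linarith, h1, h2, h3, h4, by linarith, by linarith, by linarith, by linarith, by linarith,
      by linarith, by linarith, by linarith⟩⟩

lemma Cz_nonneg {b : ℝ} (hb : 0 ≤ b) : 0 ≤ Cz b := by
  have h := Cz_kb hb (c := 0) (by norm_num)
  rwa [zero_div] at h

/-- **(A)**: typical sources in the letters of `Good`, both masses, every prior -/
theorem fam_typB {b b1 b2 pf : ℝ} (hb1 : 0 < b1) (h1 : b1 ≤ b) (hpf : 0 < pf) :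
    Fam b1 b2 pf fun P _ => TypB P b := by
  have hb : 0 < b := hb1.trans_le h1
  obtain ⟨C, c, hC, hc, hc1, hWt⟩ := H276.trWt_good hb
  obtain ⟨W0, hA⟩ := H730.apt_t hb1 b2 (TM.Frame.thmA6 hb1)
  obtain ⟨W0', h⟩ := H789.fam_apTT (b1 := b1) (b2 := b2) (pf := pf) hb1
  refine ⟨max W0 W0', fun W hW => ?_⟩
  obtain ⟨ysa, X0a, hysa, hA⟩ := hA W ((le_max_left _ _).trans hW)
  obtain ⟨ys0, hys0, h⟩ := h W ((le_max_right _ _).trans hW)
  refine ⟨min ysa ys0, lt_min hysa hys0, fun ys hy1 hy2 => ?_⟩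
  obtain ⟨X00, h⟩ := h ys hy1 (hy2.trans (min_le_right _ _))
  refine ⟨max X0a X00, fun X0 hX0 => ?_⟩
  obtain ⟨r1, hr1, h⟩ := h X0 ((le_max_right _ _).trans hX0)
  have hcp : 0 < c * pf := by positivity
  refine ⟨min r1 (min (1 / 1000) (c * pf / 30)), by positivity, fun x1 hx1 hx1' => ?_⟩
  have hx1a : x1 ≤ 1 / 1000 := hx1'.trans ((min_le_right _ _).trans (min_le_left _ _))
  have hx1b : x1 ≤ c * pf / 30 := hx1'.trans ((min_le_right _ _).trans (min_le_right _ _))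
  obtain ⟨Q0, h⟩ := h x1 hx1 (hx1'.trans (min_le_left _ _))
  refine ⟨Q0, fun Q hQ => ?_⟩
  obtain ⟨r2, hr2, h⟩ := h Q hQ
  refine ⟨min r2 (x1 / (8 * ((Q : ℝ) + 3))), lt_min hr2 (by positivity), fun thp ht1 ht2 => ?_⟩
  have hthp : ((Q : ℝ) + 3) * thp ≤ x1 / 8 := by
    have h2 := ht2.trans (min_le_right _ _)
    rw [le_div_iff₀ (by positivity)] at h2
    linarith
  obtain ⟨r3, hr3, h⟩ := h thp ht1 (ht2.trans (min_le_left _ _))
  refine ⟨min r3 (x1 / 8), lt_min hr3 (by positivity), fun th ht3 ht4 => ?_⟩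
  have hth : th ≤ x1 / 8 := ht4.trans (min_le_right _ _)
  obtain ⟨C00, h⟩ := h th ht3 (ht4.trans (min_le_left _ _))
  refine ⟨max C00 (pf + 4), fun C0 hC0 hC0' => ?_⟩
  have hC04 : pf + 4 ≤ C0 := (le_max_right _ _).trans hC0'
  obtain ⟨E0, hE0, h⟩ := h C0 hC0 ((le_max_left _ _).trans hC0')
  obtain ⟨K2, e₀, hK2, he₀, hA⟩ := hA (2 * C0 + 2) (by linarith)
  obtain ⟨B, hB0, hcs⟩ := cs_exists (Cz_nonneg hb.le) hC (show 1 ≤ 4 * K2 + 5 by linarith) hC0.le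
  have hcpf : c * pf ≤ pf := mul_le_of_le_one_left hpf.le hc1
  have ev := (((sm_ev (th := th) (x1 := x1) (C0 := C0) (cp := c * pf) ht3 hx1 hC0 (by linarith)
    (by linarith) (by linarith) (by linarith) (by linarith) B hB0).and
    (M_ev (b1 := b1) (b2 := b2) (pf := pf) (W := W) (ys := ys) (X0 := X0) (C0 := C0) (Q := Q)
      (thp := thp) (th := th) hx1 (by linarith) ht1 hth hthp)).and (ev_lin hC0 B))
  obtain ⟨E1, hE1, hEv⟩ := mem_nhdsGT_iff_exists_Ioc_subset.1 ev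
  have hE1' : (0 : ℝ) < E1 := hE1
  refine ⟨min E0 (min E1 e₀), by positivity, fun P hP hes => ?_⟩
  obtain ⟨N00, h⟩ := h P hP (hes.trans (min_le_left _ _))
  refine ⟨N00, fun N0 hN => ?_⟩
  intro n e τ a he hes' h1τ h4τ hG r hr s hs _
  have heE : e ≤ E1 := hes'.trans (hes.trans ((min_le_right _ _).trans (min_le_left _ _)))
  have hee : e ≤ e₀ := hes'.trans (hes.trans ((min_le_right _ _).trans (min_le_right _ _)))
  obtain ⟨⟨S, hM⟩, hlin⟩ := hEv ⟨he, heE⟩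
  have he4 := S.e1
  obtain ⟨hM1, hM2⟩ := hM P hP n r hr
  have hnE := hG.nE
  have hBn := hlin n (by rw [← hP.hC0]; exact hnE)
  have hL := lv_of hP (by linarith) he he4 hr hnE hM1 hM2
  have hn12 : 12 ≤ n := by
    have h2 : 4 ≤ lg P.C0 e := by
      have h3 := one_le_logb he (by linarith)
      have h4 : (4 : ℝ) ≤ P.C0 * Real.logb 2 (1 / e) := by
        rw [hP.hC0]
        nlinarith
      have h5 := h4.trans (Nat.le_ceil (P.C0 * Real.logb 2 (1 / e)))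
      exact_mod_cast h5
    omega
  have q0 : 0 < e ^ (-(th / 16)) := Real.rpow_pos_of_pos he _
  have he1 : e ≤ 1 := by linarith
  -- AP
  have hX : (e ^ (-(th / 16))) ^ 4 = e ^ (-(th / 4)) := by
    rw [rpow_pow' he]
    congr 1
    push_cast
    ring
  have hAP0 := h N0 hN b a n e τ he hes' hn12 hG r hr ((e ^ (-(th / 16))) ^ 4)
    (one_le_pow₀ S.q1) (by
      rw [hX, rpow_pow' he, hP.hth, ← Real.rpow_add he]
      have h2 : e ^ (((2 : ℕ) : ℝ) * -(th / 4) + -(th / 400)) ≤ e ^ (-th) := by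
        refine Real.rpow_le_rpow_of_exponent_ge he he1 ?_
        push_cast
        linarith
      refine h2.trans ((H276.le_two_lg (c := th) he).trans ?_)
      refine pow_le_pow_right₀ one_le_two ?_
      have h3 : P.kE e = lg th e := by
        unfold Par.kE
        rw [hP.hth]
      have := hr.1
      omega) (by
      rw [hX]
      have h2 : e ^ (-(th / 4)) ≤ e ^ (-x1) :=
        Real.rpow_le_rpow_of_exponent_ge he he1 (by linarith)
      refine h2.trans ((H276.le_two_lg (c := x1) he).trans (le_of_eq ?_))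
      unfold Par.xE
      rw [hP.hx1])
  have hAP : AP b n r (P.sE n e) ((e ^ (-(th / 16))) ^ 4 / 72) (tn n) (2 * e ^ (1 / 8 : ℝ)) := by
    refine H30.ap_mono hb.le (tn_pos n) (by positivity) ?_ hAP0
    have : 0 ≤ (e ^ (-(th / 16))) ^ 4 := by positivity
    linarith
  exact typ_state hb hP hpf hC04 hK2 (hA P hP.hb1 hP.hb2 hP.hW (by
    rw [hP.hys]; exact hy2.trans (min_le_left _ _)) (by
    rw [hP.hX0]; exact (le_max_left _ _).trans hX0) b) hWt hcs he hes' hee S hL hBn hr h1τ h4τ hG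
    hAP hs

/-- **(A) in the letters of helper159 / helper640** -/
theorem fam_typA {b b1 b2 pf : ℝ} (hb1 : 0 < b1) (h1 : b1 ≤ b) (hpf : 0 < pf) :
    Fam b1 b2 pf fun P N0 => H159.TypA P b N0 := by
  have hb : 0 < b := hb1.trans_le h1
  refine (fam_typB (b := b) hb1 h1 hpf).imp fun P N0 _ _ _ _ hT => ?_
  intro n e τ a _ he hes h1τ h4τ hG r hr s hs hsτ _
  have hdiv : 2 ^ P.sE n e ∣ 2 ^ r := by
    refine pow_dvd_pow 2 ?_
    have := hr.1
    unfold Par.sE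
    omega
  exact ((hT n e τ a he hes h1τ h4τ hG r hr s hs).1 hsτ).mono hb.le hdiv hs hsτ.le
    (Real.rpow_pos_of_pos he _).le le_rfl (by norm_num) le_rfl

end

end Vale.Agent.P159.H816
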