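import Vale.Agent.P159.H816.Zs1
import Vale.Agent.P159.H663.GsA
import Vale.Agent.P159.H896.Ht1
import Vale.Agent.P159.H789.LgG

/-!
P159 / module ZS (helper816), part 2: the class of sources in the letters of 663 (`H663.cls`),
concrete blocks, and its zero source probability for every prior `0 < s < t`.

* `bS`, `av`, `clsG` : blocks of cells, block averages, the concrete class;
* `clsG.*`           : unpacking lemmas;
* `zs_cls`           : zero source probability of the complement, height parts as hypotheses.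
-/

set_option linter.unusedSectionVars false

namespace Vale.Agent.P159.H816

open Finset Matrix MeasureTheory ProbabilityTheory
open Vale.Agent.P159.TM.H104 (EM Ex Gr)
open Vale.Agent.P159.TM.Spec (V)
open Vale.Agent.P159.TM.H459 (sd bk bk1)
open Vale.Agent.P159.H37
open Vale.Agent.P159.H864
open Vale.Agent.P159.H859 (dB)
open Vale.Agent.P159.H239 (indh)
open Vale.Agent.P159.H963 (Neu nMC obsN Pn)
open Vale.Agent.P159.H663
open Vale.Agent.P159.H789 (ib sum_ib_one)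

noncomputable section

/-! ### blocks of cells -/

section cells

variable {n nb q : ℕ} [NeZero n] [NeZero nb]

/-- the cells of the block `β` -/
def bS (n nb q : ℕ) [NeZero n] [NeZero nb] (β : V nb) : Finset (V n) :=
  Finset.univ.filter fun c => bk nb q c = β

/-- the average over the block `β` -/
def av (n nb q : ℕ) [NeZero n] [NeZero nb] (β : V nb) : V n → ℝ :=
  fun c => 1 / (q : ℝ) ^ 2 * ib nb q β c

lemma ib_eq (β : V nb) (c : V n) : ib nb q β c = if c ∈ bS n nb q β then 1 else 0 := by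
  unfold ib bS
  simp

lemma av_nonneg (β : V nb) (c : V n) : 0 ≤ av n nb q β c := by
  unfold av
  rw [ib_eq]
  split_ifs <;> positivity

lemma sum_av (hq : 0 < q) (hn : n = nb * q) (β : V nb) : ∑ c, av n nb q β c = 1 :=
  sum_ib_one hq hn β

lemma card_bS (hq : 0 < q) (hn : n = nb * q) (β : V nb) :
    ((bS n nb q β).card : ℝ) = (q : ℝ) ^ 2 := by
  have hqR : (0 : ℝ) < q := by exact_mod_cast hq
  have h1 := sum_av (n := n) hq hn β
  unfold av at h1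
  rw [← Finset.mul_sum] at h1
  simp only [ib_eq] at h1
  rw [Finset.sum_ite_mem, Finset.univ_inter, Finset.sum_const, nsmul_eq_mul, mul_one] at h1
  field_simp at h1
  exact h1

lemma av_sq (hq : 0 < q) (hn : n = nb * q) (β : V nb) :
    ∑ c, av n nb q β c ^ 2 = 1 / (q : ℝ) ^ 2 := by
  have hqR : (0 : ℝ) < q := by exact_mod_cast hq
  have h1 : ∀ c, av n nb q β c ^ 2 = 1 / (q : ℝ) ^ 2 * av n nb q β c := by
    intro c
    unfold av
    rw [ib_eq]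
    split_ifs
    · ring
    · simp
  rw [Finset.sum_congr rfl fun c _ => h1 c, ← Finset.mul_sum, sum_av hq hn, mul_one]

lemma av_sub_sq (hq : 0 < q) (hn : n = nb * q) (β β' : V nb) :
    ∑ c, (av n nb q β - av n nb q β') c ^ 2 ≤ 2 / (q : ℝ) ^ 2 := by
  have h3 : ∑ c, (av n nb q β - av n nb q β') c ^ 2 ≤
      ∑ c, (av n nb q β c ^ 2 + av n nb q β' c ^ 2) := by
    refine Finset.sum_le_sum fun y _ => ?_
    rw [Pi.sub_apply]
    nlinarith [mul_nonneg (av_nonneg (q := q) β y) (av_nonneg (q := q) β' y)]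
  rw [Finset.sum_add_distrib, av_sq hq hn, av_sq hq hn] at h3
  refine h3.trans (le_of_eq (by ring))

lemma neu_av (hq : 0 < q) (hn : n = nb * q) {T : Matrix (V n) (V n) ℝ} (hT : TC T)
    (β β' : V nb) : Neu (T *ᵥ (av n nb q β - av n nb q β')) := by
  unfold H963.Neu
  rw [ti_sum hT.ti]
  simp only [Pi.sub_apply, Finset.sum_sub_distrib, sum_av hq hn, sub_self, mul_zero]

/-- `bS` in the letters of `H972.AP` -/
lemma bS_eq_blk (hn : n = nb * q) (β : V nb) : bS n nb q β = blk n q (β.1.val, β.2.val) := by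
  have h1 : ∀ (a : ZMod n) (β₁ : ZMod nb), ((a.val / q : ℕ) : ZMod nb) = β₁ ↔
      a.val / q = β₁.val := by
    intro a β₁
    have ha : a.val / q < nb := by
      have h2 := ZMod.val_lt a
      exact Nat.div_lt_of_lt_mul (by rw [mul_comm]; omega)
    constructor
    · intro h
      rw [← h, ZMod.val_cast_of_lt ha]
    · intro h
      rw [h, ZMod.natCast_zmod_val]
  ext c
  unfold bS
  rw [mem_blk, Finset.mem_filter]
  simp only [Finset.mem_univ, true_and]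
  unfold TM.H459.bk TM.H459.bk1
  rw [Prod.ext_iff]
  exact and_congr (h1 _ _) (h1 _ _)

/-- index of the ball conditions: pairs of neighbour blocks, and two more -/
abbrev Jx (nb : ℕ) [NeZero nb] : Type := {p : V nb × V nb // sd p.1 p.2 ≤ 1} ⊕ Bool

/-- the matrices of the ball conditions -/
def FG (n nb q : ℕ) [NeZero n] [NeZero nb] (T W₃ : Matrix (V n) (V n) ℝ) :
    Jx nb → Matrix (V n) (V n) ℝ
  | Sum.inl p => H663.rowM (T *ᵥ (av n nb q p.1.1 - av n nb q p.1.2))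
  | Sum.inr true => W₃
  | Sum.inr false => T * Pn

/-- the radii of the ball conditions -/
def uG {nb : ℕ} [NeZero nb] (Lip u Λ : ℝ) : Jx nb → ℝ
  | Sum.inl _ => Lip ^ 2
  | Sum.inr true => u
  | Sum.inr false => Λ ^ 2

end cells

/-! ### the concrete class -/

section clsG

variable {N l nb q : ℕ} [NeZero N] [NeZero (N / l)] [NeZero nb] {b t₀ Q₁ δ Lip u Λ : ℝ}
  {T W₃ : Matrix (V (N / l)) (V (N / l)) ℝ} {J : V N → ℝ}

/-- **the concrete class of sources** -/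
def clsG (N l : ℕ) [NeZero N] [NeZero (N / l)] (b t₀ Q₁ δ : ℝ) (nb q : ℕ) [NeZero nb]
    (T W₃ : Matrix (V (N / l)) (V (N / l)) ℝ) (Lip u Λ : ℝ) : Set (V N → ℝ) :=
  cls N l b t₀ Q₁ δ q T (bS (N / l) nb q) (FG (N / l) nb q T W₃) (uG Lip u Λ)

lemma clsG_meas (hb : 0 ≤ b) (ht : 0 < t₀) :
    MeasurableSet (clsG N l b t₀ Q₁ δ nb q T W₃ Lip u Λ) := cls_meas hb ht _ _ _ _ _ _ _

/-- the source is a neutral cell source -/
lemma clsG_rng (h : J ∈ clsG N l b t₀ Q₁ δ nb q T W₃ Lip u Λ) :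
    (cobV N l)ᵀ *ᵥ (cobV N l *ᵥ J) = J ∧ ∑ x, J x = 0 := h.1

/-- (S1) -/
lemma clsG_rs (h : J ∈ clsG N l b t₀ Q₁ δ nb q T W₃ Lip u Λ) (β : V nb) :
    rsC N l b t₀ (Q₁ • (bE (bS (N / l) nb q β) q T *ᵥ (cobV N l *ᵥ J))) ≤ δ := h.2.1 β

/-- (S2) -/
lemma clsG_dif (hT : TC T) (hL : 0 ≤ Lip) (h : J ∈ clsG N l b t₀ Q₁ δ nb q T W₃ Lip u Λ)
    {β β' : V nb} (hβ : sd β β' ≤ 1) :
    |(av (N / l) nb q β - av (N / l) nb q β') ⬝ᵥ (T *ᵥ (cobV N l *ᵥ J))| ≤ Lip := by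
  have h1 := h.2.2 (Sum.inl ⟨(β, β'), hβ⟩)
  have h2 : FG (N / l) nb q T W₃ (Sum.inl ⟨(β, β'), hβ⟩) =
      H663.rowM (T *ᵥ (av (N / l) nb q β - av (N / l) nb q β')) := rfl
  have h3 : (uG Lip u Λ : Jx nb → ℝ) (Sum.inl ⟨(β, β'), hβ⟩) = Lip ^ 2 := rfl
  rw [h2, h3, H663.rowM_sq] at h1
  have h4 : (T *ᵥ (av (N / l) nb q β - av (N / l) nb q β')) ⬝ᵥ (cobV N l *ᵥ J) =
      (av (N / l) nb q β - av (N / l) nb q β') ⬝ᵥ (T *ᵥ (cobV N l *ᵥ J)) := by
    conv_lhs => rw [← hT.ti.transpose]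
    rw [mulVec_transpose, ← dotProduct_mulVec]
  rw [h4] at h1
  exact abs_le_of_sq_le_sq h1 hL

/-- (S3) -/
lemma clsG_quad (h : J ∈ clsG N l b t₀ Q₁ δ nb q T W₃ Lip u Λ) :
    ∑ w, (W₃ *ᵥ (cobV N l *ᵥ J)) w ^ 2 ≤ u := h.2.2 (Sum.inr true)

/-- norm of `T j` -/
lemma clsG_nrm (hl : l ∣ N) (h : J ∈ clsG N l b t₀ Q₁ δ nb q T W₃ Lip u Λ) :
    ∑ w, (T *ᵥ (cobV N l *ᵥ J)) w ^ 2 ≤ Λ ^ 2 := by
  have h1 := h.2.2 (Sum.inr false)
  have h2 : FG (N / l) nb q T W₃ (Sum.inr false) = T * Pn := rfl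
  have h3 : (uG Lip u Λ : Jx nb → ℝ) (Sum.inr false) = Λ ^ 2 := rfl
  have h5 : Neu (cobV N l *ᵥ J) := by
    unfold H963.Neu
    have h6 := clsG_rng h
    have h7 : ∑ x, J x = l * ∑ c, (cobV N l *ᵥ J) c := by
      conv_lhs => rw [← h6.1]
      exact H963.sum_cobV_tr hl _
    rw [h6.2] at h7
    have hl0 : (l : ℝ) ≠ 0 := by exact_mod_cast (l_pos hl).ne'
    rcases mul_eq_zero.1 h7.symm with h8 | h8
    · exact absurd h8 hl0
    · exact h8
  rw [h2, h3, ← mulVec_mulVec, H963.Pn_of_neu h5] at h1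
  exact h1

end clsG

/-! ### zero source probability -/

section zs

variable {N l : ℕ} [NeZero N] [NeZero (N / l)] {b t s κ cs : ℝ} {ι₁ ι₂ : Type*}
  [Fintype ι₁] [Fintype ι₂]

/-- a larger factor in front of the form -/
lemma Ex_mono_c (hb : 0 ≤ b) (hl : l ∣ N) (hs : 0 < s) (h : s ≤ t) (x₀ : V N)
    {W : Type*} [Fintype W] {c c' ρ : ℝ} (hc : 0 ≤ c) (hcc : c ≤ c') (A : Matrix W (V N) ℝ) :
    Ex (nMC N l b t s x₀) 0 (indh {h | ρ < ∑ w, ((c • A) *ᵥ re h) w ^ 2}) ≤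
      Ex (nMC N l b t s x₀) 0 (indh {h | ρ < ∑ w, ((c' • A) *ᵥ re h) w ^ 2}) := by
  refine TM.H104.Ex_mono (H963.em_nMC (N := N) hb hl hs h x₀) (H239.Gr.indh _)
    (H239.Gr.indh _) (fun h => ?_) 0
  refine Set.indicator_le_indicator_of_subset (fun h (h1 : ρ < _) => ?_) (fun _ => zero_le_one) h
  refine lt_of_lt_of_le h1 (Finset.sum_le_sum fun w _ => ?_)
  rw [smul_mulVec, smul_mulVec, Pi.smul_apply, Pi.smul_apply, smul_eq_mul, smul_eq_mul, mul_pow,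
    mul_pow]
  exact mul_le_mul_of_nonneg_right (pow_le_pow_left₀ hc hcc 2) (sq_nonneg _)

/-- **zero source probability of the complement of the class** (663's letters), every prior -/
theorem zs_cls (hb : 0 ≤ b) (hl : l ∣ N) (hs : 0 < s) (h : s < t) (x₀ : V N)
    {q : ℕ} (hq : q ∣ N / l) (Bl : ι₁ → Finset (V (N / l)))
    {T : Matrix (V (N / l)) (V (N / l)) ℝ} (hT : TC T)
    {t₀ : ℝ} (ht₀ : 0 < t₀) {X Q₁ δ : ℝ} (hX : 0 < X) (hQ : 0 < Q₁) (hδ : 0 ≤ δ)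
    (hAP : ∀ i, (gau (V (N / l))).real
      {g | δ < rsC N l b t₀ ((X * √t₀) • (dB (Bl i) *ᵥ g))} ≤ 1 / 30)
    (ha : 9 * Q₁ ^ 2 * (t - s) ≤ X ^ 2 * t₀) {π₁ : ι₁ → ℝ}
    (hπ₁ : ∀ i, Ex (nMC N l b t s x₀) 0 (indh {h | X ^ 2 * t₀ / (12 * Q₁ ^ 2) <
      ∑ w, ((((t - s) • (bE (Bl i) q T * cobV N l)) *ᵥ re h) w) ^ 2}) ≤ π₁ i)
    (F : ι₂ → Matrix (V (N / l)) (V (N / l)) ℝ) (hF : ∀ j w, Neu (F j w)) {k r u : ι₂ → ℝ}
    (hk : ∀ j, 0 < k j) (hFk : ∀ j, ∀ φ : V (N / l) → ℝ,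
      ∑ i, ((F j)ᵀ *ᵥ φ) i ^ 2 ≤ k j * ∑ i, φ i ^ 2)
    (hFr : ∀ j, (F j * (F j)ᵀ).trace ≤ r j) (hu : ∀ j, 0 ≤ u j) {π₂ : ι₂ → ℝ}
    (hπ₂ : ∀ j, Ex (nMC N l b t s x₀) 0 (indh {h | u j / 9 <
      ∑ w, ((((t - s) • (F j * cobV N l)) *ᵥ re h) w) ^ 2}) ≤ π₂ j) :
    Ech (nMC N l b t s x₀) 0 (obsN N l (t - s)) (ind (cls N l b t₀ Q₁ δ q T Bl F u)ᶜ) ≤
      ∑ i, (π₁ i + 2 * Real.exp (-(X ^ 2 * t₀ / (63 * Q₁ ^ 2 * (t - s))))) +
        ∑ j, (π₂ j + Real.exp (r j / (2 * k j) - u j / (36 * (t - s) * k j))) := by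
  have hE := H963.em_nMC (N := N) hb hl hs h.le x₀
  have hc : 0 < t - s := sub_pos.2 h
  -- the range condition holds almost surely
  have h1 : Ech (nMC N l b t s x₀) 0 (obsN N l (t - s))
      (ind (cls N l b t₀ Q₁ δ q T Bl F u)ᶜ) =
      Ech (nMC N l b t s x₀) 0 (obsN N l (t - s))
      (ind (cls0 N l b t₀ Q₁ δ q T Bl F u)ᶜ) := by
    unfold H37.Ech
    congr 2
    funext g
    congr 1
    have h2 := range_src (N := N) (l := l) hl (t - s) (e := 0) (by simp [H963.Neu]) g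
    rw [mulVec_zero, zero_add] at h2
    rw [zero_add]
    by_cases h3 : (obsN N l (t - s))ᵀ *ᵥ g ∈ cls0 N l b t₀ Q₁ δ q T Bl F u
    · have h4 : (obsN N l (t - s))ᵀ *ᵥ g ∈ cls N l b t₀ Q₁ δ q T Bl F u := ⟨h2, h3⟩
      have h5 : (obsN N l (t - s))ᵀ *ᵥ g ∉ (cls N l b t₀ Q₁ δ q T Bl F u)ᶜ := fun hh => hh h4
      have h6 : (obsN N l (t - s))ᵀ *ᵥ g ∉ (cls0 N l b t₀ Q₁ δ q T Bl F u)ᶜ := fun hh => hh h3
      unfold H663.ind
      rw [Set.indicator_of_notMem h5, Set.indicator_of_notMem h6]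
    · have h4 : (obsN N l (t - s))ᵀ *ᵥ g ∉ cls N l b t₀ Q₁ δ q T Bl F u := fun hh => h3 hh.2
      unfold H663.ind
      rw [Set.indicator_of_mem (show _ ∈ (cls N l b t₀ Q₁ δ q T Bl F u)ᶜ from h4),
        Set.indicator_of_mem (show _ ∈ (cls0 N l b t₀ Q₁ δ q T Bl F u)ᶜ from h3)]
  rw [h1]
  -- union bound
  set BB : ι₁ ⊕ ι₂ → Set (V N → ℝ) :=
    Sum.elim (fun i => bad₁ N l b t₀ Q₁ δ q T (Bl i)) (fun j => bad₂ N l (F j) (u j)) with hBB
  have hBm : ∀ a, MeasurableSet (BB a) := by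
    rintro (i | j)
    · exact bad₁_meas hb ht₀ _ _ _ _ _
    · exact bad₂_meas _ _
  have h2 := Ech_union hE 0 (obsN N l (t - s)) Finset.univ hBm
    (cls0_meas hb ht₀ Q₁ δ q T Bl F u).compl (fun J hJ => by
      by_contra hc2
      refine hJ ⟨fun i => ?_, fun j => ?_⟩
      · by_contra h3
        refine hc2 ⟨Sum.inl i, Finset.mem_univ _, ?_⟩
        show δ < rsC N l b t₀ (Q₁ • ((bE (Bl i) q T * cobV N l) *ᵥ J))
        rw [← mulVec_mulVec]
        exact not_le.1 h3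
      · by_contra h3
        refine hc2 ⟨Sum.inr j, Finset.mem_univ _, ?_⟩
        show u j < ∑ w, ((F j * cobV N l) *ᵥ J) w ^ 2
        rw [← mulVec_mulVec]
        exact not_le.1 h3)
  refine h2.trans ?_
  rw [Fintype.sum_sum_type]
  refine add_le_add (Finset.sum_le_sum fun i _ => ?_) (Finset.sum_le_sum fun j _ => ?_)
  · exact zs_rs hb hl hs h x₀ hq (Bl i) hT ht₀ hX hQ hδ (hAP i) ha (hπ₁ i)
  · exact zs_ball hb hl hs h x₀ (hF j) (hk j) (hFk j) (hFr j) (hu j) (hπ₂ j)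

end zs

end

end Vale.Agent.P159.H816
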