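import Vale.Agent.P159.H816.Zs2

/-!
P159 / module ZS (helper816), part 3: **zero source probability of the concrete class in Good
letters** (`N = 2 ^ r`, `l = 2 ^ s`, `ξ = 2 ^ n`, posterior mass `t` in `[t_n, 4 t_n]`, EVERY prior
`0 < a < t`): `zs_good`.
-/

set_option linter.unusedSectionVars false

namespace Vale.Agent.P159.H816

open Finset Matrix MeasureTheory ProbabilityTheory
open Vale.Agent.P159.TM.H104 (EM Ex Gr)
open Vale.Agent.P159.TM.Spec (V)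
open Vale.Agent.P159.TM.H459 (sd bk bk1)
open Vale.Agent.P159.H37
open Vale.Agent.P159.H864
open Vale.Agent.P159.H859 (dB)
open Vale.Agent.P159.H239 (indh)
open Vale.Agent.P159.H963 (Neu nMC obsN Pn)
open Vale.Agent.P159.H663
open Vale.Agent.P159.H896 (Gam0 Gam0_nonneg tailF tailF_blk tailF_mean tailF_ball tailF_all)
open Vale.Agent.P159.H972 (AP tn)

noncomputable section

/-! ### general matrices -/

section mat

variable {K W : Type*} [Fintype K] [Fintype W]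

/-- operator norm at most Frobenius norm -/
lemma tr_op (F : Matrix W K ℝ) (φ : W → ℝ) :
    ∑ i, (Fᵀ *ᵥ φ) i ^ 2 ≤ (F * Fᵀ).trace * ∑ i, φ i ^ 2 := by
  have h1 : ∀ i, (Fᵀ *ᵥ φ) i ^ 2 ≤ (∑ w, F w i ^ 2) * ∑ w, φ w ^ 2 := fun i =>
    Finset.sum_mul_sq_le_sq_mul_sq Finset.univ (fun w => F w i) φ
  refine (Finset.sum_le_sum fun i _ => h1 i).trans (le_of_eq ?_)
  rw [← Finset.sum_mul]
  congr 1
  unfold Matrix.trace
  rw [Finset.sum_comm]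
  refine Finset.sum_congr rfl fun w _ => ?_
  rw [Matrix.diag_apply, Matrix.mul_apply]
  exact Finset.sum_congr rfl fun i _ => by rw [Matrix.transpose_apply]; ring

lemma trace_le_card [DecidableEq W] {F : Matrix W K ℝ} {k : ℝ}
    (h : ∀ φ : W → ℝ, ∑ i, (Fᵀ *ᵥ φ) i ^ 2 ≤ k * ∑ i, φ i ^ 2) :
    (F * Fᵀ).trace ≤ k * Fintype.card W := by
  have h1 : ∀ w, (F * Fᵀ) w w ≤ k := by
    intro w
    have h2 := h (Pi.single w 1)
    have e1 : ∑ i, (Pi.single w (1 : ℝ) : W → ℝ) i ^ 2 = 1 := by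
      rw [Finset.sum_eq_single w]
      · simp
      · intro j _ hj
        simp [hj]
      · intro hw
        exact absurd (Finset.mem_univ w) hw
    have e2 : ∑ i, (Fᵀ *ᵥ (Pi.single w (1 : ℝ))) i ^ 2 = (F * Fᵀ) w w := by
      rw [Matrix.mul_apply]
      refine Finset.sum_congr rfl fun i _ => ?_
      rw [mulVec_single_one, Matrix.col_apply, Matrix.transpose_apply]
      ring
    rw [e1, e2, mul_one] at h2
    exact h2
  unfold Matrix.trace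
  refine (Finset.sum_le_sum fun w _ => (h1 w : (F * Fᵀ).diag w ≤ k)).trans (le_of_eq ?_)
  rw [Finset.sum_const, nsmul_eq_mul, Finset.card_univ, mul_comm]

end mat

/-! ### numbers -/

/-- the constant of the bare domination -/
def kb0 (b : ℝ) : ℝ := 1 / (b + 12 * max b 1 ^ 2)

lemma kb0_pos {b : ℝ} (hb : 0 ≤ b) : 0 < kb0 b := by
  unfold kb0
  have : 1 ≤ max b 1 := le_max_right _ _
  positivity

lemma kb0_le {b : ℝ} (hb : 0 ≤ b) : kb0 b ≤ 1 := by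
  unfold kb0
  have h1 : 1 ≤ max b 1 := le_max_right _ _
  rw [div_le_one (by positivity)]
  nlinarith

lemma kb0_eq {b : ℝ} (hb : 0 ≤ b) : kb0 b * (b + 12 * max b 1 ^ 2 * (1 : ℝ) ^ 2) ≤ 1 := by
  unfold kb0
  have h1 : 1 ≤ max b 1 := le_max_right _ _
  rw [one_pow, mul_one, div_mul_cancel₀ _ (by positivity)]

section num

variable {n r s : ℕ} {t : ℝ}

lemma tn_pos (n : ℕ) : 0 < tn n := by
  unfold H972.tn
  positivity

lemma tn_mul (n : ℕ) : tn n * 4 ^ n = 1 := by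
  unfold H972.tn
  exact inv_mul_cancel₀ (by positivity)

lemma four_pow' (n : ℕ) : ((2 : ℝ) ^ n) ^ 2 = 4 ^ n := by
  rw [← pow_mul, mul_comm, pow_mul]
  norm_num

lemma log_two_pow_le (k : ℕ) : Real.log ((2 : ℝ) ^ k) ≤ k := by
  rw [Real.log_pow]
  have h1 : Real.log 2 ≤ 1 := by linarith [Real.log_two_lt_d9]
  nlinarith [Nat.cast_nonneg (α := ℝ) k]

/-- `Gam0` in Good letters -/
lemma Gam0_le {κ : ℝ} (hκ : 0 < κ) (hnr : n ≤ r) (ht0 : 0 ≤ t) (ht : t ≤ 4 * tn n) :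
    Gam0 (2 ^ r) t κ ≤ 2 * (3 + 16 / κ ^ 2) * (2 + r) * ((2 : ℝ) ^ (r - n)) ^ 4 := by
  unfold H896.Gam0
  have hM : (1 : ℝ) ≤ (2 : ℝ) ^ (r - n) := one_le_pow₀ (by norm_num)
  set M : ℝ := (2 : ℝ) ^ (r - n) with hMd
  have h1 : Real.log ((2 ^ r : ℕ) : ℝ) ≤ r := by
    push_cast
    exact log_two_pow_le r
  have h2 : t * (((2 ^ r : ℕ) : ℝ)) ^ 2 ≤ 4 * M ^ 2 := by
    push_cast
    have e : ((2 : ℝ) ^ r) ^ 2 = M ^ 2 * 4 ^ n := by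
      rw [hMd, ← four_pow' n, ← mul_pow, ← pow_add, Nat.sub_add_cancel hnr]
    rw [e]
    calc t * (M ^ 2 * 4 ^ n) ≤ 4 * tn n * (M ^ 2 * 4 ^ n) :=
          mul_le_mul_of_nonneg_right ht (by positivity)
      _ = 4 * M ^ 2 * (tn n * 4 ^ n) := by ring
      _ = 4 * M ^ 2 := by rw [tn_mul, mul_one]
  have h3 : (t * (((2 ^ r : ℕ) : ℝ)) ^ 2 / κ) ^ 2 ≤ 16 / κ ^ 2 * M ^ 4 := by
    have h4 : t * (((2 ^ r : ℕ) : ℝ)) ^ 2 / κ ≤ 4 * M ^ 2 / κ :=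
      div_le_div_of_nonneg_right h2 hκ.le
    refine (pow_le_pow_left₀ (by positivity) h4 2).trans (le_of_eq ?_)
    ring
  have h5 : 3 + (t * (((2 ^ r : ℕ) : ℝ)) ^ 2 / κ) ^ 2 ≤ (3 + 16 / κ ^ 2) * M ^ 4 := by
    have h6 : (1 : ℝ) ≤ M ^ 4 := one_le_pow₀ hM
    nlinarith
  have h7 : 0 ≤ Real.log ((2 ^ r : ℕ) : ℝ) := Real.log_natCast_nonneg _
  calc 2 * (2 + Real.log ((2 ^ r : ℕ) : ℝ)) * (3 + (t * (((2 ^ r : ℕ) : ℝ)) ^ 2 / κ) ^ 2)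
      ≤ 2 * (2 + r) * ((3 + 16 / κ ^ 2) * M ^ 4) :=
        mul_le_mul (by linarith) h5 (by positivity) (by positivity)
    _ = _ := by ring

lemma side_le {g Gr x y c₁ c₂ B F : ℝ} (hg0 : 0 ≤ g) (hg : g ≤ Gr) (hx0 : 0 ≤ x)
    (hx : x ≤ c₁ / F) (hy0 : 0 ≤ y) (hy : y ≤ c₂ * B) (hF : 0 < F)
    (h : Gr * (c₁ * c₂ * B) ≤ F) : g * (x * y) ≤ 1 ^ 2 := by
  have h1 : x * y ≤ c₁ / F * (c₂ * B) := mul_le_mul hx hy hy0 (hx0.trans hx)
  have h2 : g * (x * y) ≤ Gr * (c₁ / F * (c₂ * B)) :=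
    mul_le_mul hg h1 (mul_nonneg hx0 hy0) (hg0.trans hg)
  refine h2.trans ?_
  have e : Gr * (c₁ / F * (c₂ * B)) = Gr * (c₁ * c₂ * B) / F := by
    field_simp
  rw [e, one_pow, div_le_one hF]
  exact h

/-- a row -/
lemma row_conv {m N : ℕ} [NeZero m] [NeZero N] (c : ℝ) (r0 : V m → ℝ)
    (A : Matrix (V m) (V N) ℝ) (v : V N → ℝ) :
    ∑ w, ((c • (H663.rowM r0 * A)) *ᵥ v) w ^ 2 = (c * (r0 ⬝ᵥ (A *ᵥ v))) ^ 2 := by
  have h1 : ∀ w, ((c • (H663.rowM r0 * A)) *ᵥ v) w ^ 2 =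
      c ^ 2 * (H663.rowM r0 *ᵥ (A *ᵥ v)) w ^ 2 := by
    intro w
    rw [smul_mulVec, ← mulVec_mulVec, Pi.smul_apply, smul_eq_mul, mul_pow]
  rw [Finset.sum_congr rfl fun w _ => h1 w, ← Finset.mul_sum, H663.rowM_sq, mul_pow]

end num

/-- the constant of `zs_good` -/
def Cz (b : ℝ) : ℝ := 100000 / kb0 b + 17 * (2 * (3 + 16 / kb0 b ^ 2))

lemma Cz_kb {b : ℝ} (hb : 0 ≤ b) {c : ℝ} (hc : c ≤ 100000) : c / kb0 b ≤ Cz b := by
  have hκ := kb0_pos hb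
  unfold Cz
  have h1 : c / kb0 b ≤ 100000 / kb0 b := div_le_div_of_nonneg_right hc hκ.le
  have h2 : 0 ≤ 17 * (2 * (3 + 16 / kb0 b ^ 2)) := by positivity
  linarith

lemma Cz_pos {b : ℝ} (hb : 0 ≤ b) : 0 < Cz b := by
  have hκ := kb0_pos hb
  unfold Cz
  positivity

lemma Cz_big {b : ℝ} (hb : 0 ≤ b) {c : ℝ} (hc : c ≤ 100000) : c ≤ Cz b := by
  have hκ := kb0_pos hb
  have hκ1 := kb0_le hb
  rcases le_total c 0 with h | h
  · exact h.trans (Cz_pos hb).le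
  · refine le_trans ?_ (Cz_kb hb hc)
    rw [le_div_iff₀ hκ]
    nlinarith

/-- the side conditions from the numeric hypotheses -/
lemma side_G {b : ℝ} (hb : 0 ≤ b) {n r : ℕ} {t B F c : ℝ} (hnr : n ≤ r) (ht0 : 0 ≤ t)
    (ht : t ≤ 4 * tn n) (hB : 0 ≤ B) (hc17 : c ≤ 17) (hc0 : 0 ≤ c)
    (h : Cz b * (3 + r) * ((2 : ℝ) ^ (r - n)) ^ 4 * B ≤ F) :
    Gam0 (2 ^ r) t (kb0 b) * (c * B) ≤ F := by
  have hκ := kb0_pos hb
  have hM1 : (1 : ℝ) ≤ (2 : ℝ) ^ (r - n) := one_le_pow₀ (by norm_num)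
  set M : ℝ := (2 : ℝ) ^ (r - n) with hM
  have hg := Gam0_le (n := n) (r := r) hκ hnr ht0 ht
  rw [← hM] at hg
  set G : ℝ := 2 * (3 + 16 / kb0 b ^ 2) with hG
  have hG0 : 0 < G := by positivity
  have hCG : 17 * G ≤ Cz b := by
    unfold Cz
    rw [← hG]
    have : 0 ≤ 100000 / kb0 b := by positivity
    linarith
  have hr0 : (0 : ℝ) ≤ r := Nat.cast_nonneg r
  have h0 : 0 ≤ M ^ 4 * B := by positivity
  refine (mul_le_mul_of_nonneg_right hg (by positivity)).trans (le_trans ?_ h)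
  have e1 : G * (2 + r) * M ^ 4 * (c * B) = (c * G) * ((2 + r) * (M ^ 4 * B)) := by ring
  have e2 : Cz b * (3 + r) * M ^ 4 * B = Cz b * ((3 + r) * (M ^ 4 * B)) := by ring
  rw [e1, e2]
  refine mul_le_mul ?_ ?_ (by positivity) (Cz_pos hb).le
  · exact (mul_le_mul_of_nonneg_right hc17 hG0.le).trans hCG
  · exact mul_le_mul_of_nonneg_right (by linarith) h0

/-! ### the four height parts -/

section parts

variable {b : ℝ} {n r s : ℕ} [NeZero (2 ^ r / 2 ^ s)] {t a X Q₁ L u w Λ Y : ℝ}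
  {T W₃ : Matrix (V (2 ^ r / 2 ^ s)) (V (2 ^ r / 2 ^ s)) ℝ}

lemma nu_cast (hsr : s ≤ r) : (((2 : ℕ) ^ r / 2 ^ s : ℕ) : ℝ) = (2 : ℝ) ^ (r - s) := by
  rw [Nat.pow_div hsr two_pos]
  push_cast
  rfl

lemma log_nu (hsr : s ≤ r) :
    Real.log (((2 : ℕ) ^ r / 2 ^ s : ℕ) : ℝ) ≤ ((r - s : ℕ) : ℝ) := by
  rw [nu_cast hsr]
  exact log_two_pow_le _

/-- (S1) -/
theorem part_blk (hb : 0 ≤ b) (hsn : s ≤ n) (hnr : n ≤ r) (ht1 : tn n ≤ t)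
    (ht4 : t ≤ 4 * tn n) (ha : 0 < a) (hat : a < t) (hT : TC T) (x₀ : V (2 ^ r))
    (hQ1 : 1 ≤ Q₁) (hX : 0 < X) (hY : 0 ≤ Y)
    (hX2 : Cz b * Q₁ ^ 2 * (Y + 1 + ((r - s : ℕ) : ℝ)) ≤ X ^ 2)
    (hs1 : Cz b * (3 + r) * ((2 : ℝ) ^ (r - n)) ^ 4 * (X ^ 2 + ((2 : ℝ) ^ (r - s)) ^ 2) ≤ 4 ^ n)
    (β : V (2 ^ (r - n))) :
    Ex (nMC (2 ^ r) (2 ^ s) b t a x₀) 0 (indh {h | X ^ 2 * tn n / (12 * Q₁ ^ 2) <
      ∑ w, ((((t - a) • (bE (bS (2 ^ r / 2 ^ s) (2 ^ (r - n)) (2 ^ (n - s)) β) (2 ^ (n - s)) T *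
        cobV (2 ^ r) (2 ^ s))) *ᵥ re h) w) ^ 2}) ≤ 2 * Real.exp (-Y) := by
  have hκ := kb0_pos hb
  have hκ1 := kb0_le hb
  have hτ := tn_pos n
  have hτF := tn_mul n
  have ht : 0 < t := hτ.trans_le ht1
  have hsr : s ≤ r := hsn.trans hnr
  have hl : (2 : ℕ) ^ s ∣ 2 ^ r := pow_dvd_pow 2 hsr
  have hnq : (2 : ℕ) ^ r / 2 ^ s = 2 ^ (r - n) * 2 ^ (n - s) := by
    rw [Nat.pow_div hsr two_pos, ← pow_add]
    congr 1
    omega
  have hq : (2 : ℕ) ^ (n - s) ∣ 2 ^ r / 2 ^ s := ⟨2 ^ (r - n), by rw [hnq, mul_comm]⟩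
  have hq0 : 0 < (2 : ℕ) ^ (n - s) := by positivity
  have hql2 : ((((2 : ℕ) ^ (n - s) : ℕ) : ℝ) * (((2 : ℕ) ^ s : ℕ) : ℝ)) ^ 2 = 4 ^ n := by
    push_cast
    rw [← pow_add, Nat.sub_add_cancel hsn, four_pow']
  have hF : (0 : ℝ) < 4 ^ n := by positivity
  have hcard := card_bS (n := 2 ^ r / 2 ^ s) hq0 hnq β
  have hlog := log_nu hsr
  have hQ0 : 0 < Q₁ := by linarith
  have hρ0 : 0 ≤ X ^ 2 * tn n / (12 * Q₁ ^ 2) := by positivity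
  have hκρ : kb0 b * (X ^ 2 * tn n / (12 * Q₁ ^ 2)) / (64 * t ^ 2 * 4 ^ n) ≤ X ^ 2 := by
    have h1 : tn n ≤ t ^ 2 * 4 ^ n := by
      have h2 : tn n ^ 2 ≤ t ^ 2 := pow_le_pow_left₀ hτ.le ht1 2
      have h3 : tn n ^ 2 * 4 ^ n = tn n := by
        rw [pow_two, mul_assoc, hτF, mul_one]
      calc tn n = tn n ^ 2 * 4 ^ n := h3.symm
        _ ≤ t ^ 2 * 4 ^ n := mul_le_mul_of_nonneg_right h2 hF.le
    rw [div_le_iff₀ (by positivity)]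
    have h4 : X ^ 2 * tn n / (12 * Q₁ ^ 2) ≤ X ^ 2 * tn n := by
      refine div_le_self (by positivity) ?_
      nlinarith
    calc kb0 b * (X ^ 2 * tn n / (12 * Q₁ ^ 2)) ≤ 1 * (X ^ 2 * tn n) :=
          mul_le_mul hκ1 h4 hρ0 zero_le_one
      _ ≤ X ^ 2 * (t ^ 2 * 4 ^ n) := by
          rw [one_mul]
          exact mul_le_mul_of_nonneg_left h1 (sq_nonneg _)
      _ ≤ X ^ 2 * (64 * t ^ 2 * 4 ^ n) := by
          refine mul_le_mul_of_nonneg_left ?_ (sq_nonneg _)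
          have : 0 ≤ t ^ 2 * 4 ^ n := by positivity
          linarith
  refine (Ex_mono_c hb hl ha hat.le x₀ (by linarith) (by linarith : t - a ≤ t) _).trans
    ((tailF_blk hb hl ha hat.le hκ zero_le_one (kb0_eq hb) le_rfl x₀ ht hq
      (bS (2 ^ r / 2 ^ s) (2 ^ (r - n)) (2 ^ (n - s)) β) hT hρ0 ?_).trans ?_)
  · rw [hql2, nu_cast hsr]
    refine side_le (c₁ := 1) (c₂ := 2) (B := X ^ 2 + ((2 : ℝ) ^ (r - s)) ^ 2) Gam0_nonneg le_rfl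
      (by positivity) ?_ (by positivity) ?_ hF ?_
    · rw [div_le_div_iff₀ (by positivity) hF]
      nlinarith
    · linarith [sq_nonneg X]
    · rw [one_mul]
      exact side_G hb hnr ht.le ht4 (by positivity) (by norm_num) (by norm_num) hs1
  · rw [hql2, hcard]
    refine mul_le_mul_of_nonneg_left (Real.exp_le_exp.2 ?_) zero_le_two
    have hq2 : (0 : ℝ) < (((2 : ℕ) ^ (n - s) : ℕ) : ℝ) ^ 2 := by positivity
    have e1 : (((2 : ℕ) ^ (n - s) : ℕ) : ℝ) ^ 2 *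
        (2 + Real.log (((2 : ℕ) ^ r / 2 ^ s : ℕ) : ℝ)) /
        (8 * (((2 : ℕ) ^ (n - s) : ℕ) : ℝ) ^ 2) =
        (2 + Real.log (((2 : ℕ) ^ r / 2 ^ s : ℕ) : ℝ)) / 8 := by
      field_simp
    rw [e1]
    set D : ℝ := ((r - s : ℕ) : ℝ) with hD
    have hD0 : 0 ≤ D := Nat.cast_nonneg _
    have h1 : Y + 1 + D ≤ kb0 b * (X ^ 2 * tn n / (12 * Q₁ ^ 2)) / (128 * t ^ 2 * 4 ^ n) := by
      rw [le_div_iff₀ (by positivity)]
      have h2 : t ^ 2 * 4 ^ n ≤ 16 * tn n := by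
        have h3 : t ^ 2 ≤ (4 * tn n) ^ 2 := pow_le_pow_left₀ ht.le ht4 2
        calc t ^ 2 * 4 ^ n ≤ (4 * tn n) ^ 2 * 4 ^ n := mul_le_mul_of_nonneg_right h3 hF.le
          _ = 16 * tn n * (tn n * 4 ^ n) := by ring
          _ = 16 * tn n := by rw [hτF, mul_one]
      have h5 : 0 ≤ Y + 1 + D := by linarith
      have h6 : 24576 * Q₁ ^ 2 * (Y + 1 + D) ≤ kb0 b * X ^ 2 := by
        have h7 := mul_le_mul_of_nonneg_left hX2 hκ.le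
        refine le_trans ?_ h7
        have h8 := Cz_kb hb (c := 24576) (by norm_num)
        rw [div_le_iff₀ hκ] at h8
        have h9 : 0 ≤ Q₁ ^ 2 * (Y + 1 + D) := by positivity
        calc 24576 * Q₁ ^ 2 * (Y + 1 + D) = 24576 * (Q₁ ^ 2 * (Y + 1 + D)) := by ring
          _ ≤ Cz b * kb0 b * (Q₁ ^ 2 * (Y + 1 + D)) := mul_le_mul_of_nonneg_right h8 h9
          _ = _ := by ring
      calc (Y + 1 + D) * (128 * t ^ 2 * 4 ^ n) = 128 * (Y + 1 + D) * (t ^ 2 * 4 ^ n) := by ring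
        _ ≤ 128 * (Y + 1 + D) * (16 * tn n) := mul_le_mul_of_nonneg_left h2 (by positivity)
        _ = (24576 * Q₁ ^ 2 * (Y + 1 + D)) * (tn n / (12 * Q₁ ^ 2)) := by
            field_simp
            ring
        _ ≤ (kb0 b * X ^ 2) * (tn n / (12 * Q₁ ^ 2)) :=
            mul_le_mul_of_nonneg_right h6 (by positivity)
        _ = _ := by ring
    linarith

/-- (S2) -/
theorem part_mean (hb : 0 ≤ b) (hsn : s ≤ n) (hnr : n ≤ r) (ht1 : tn n ≤ t)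
    (ht4 : t ≤ 4 * tn n) (ha : 0 < a) (hat : a < t) (hT : TC T) (x₀ : V (2 ^ r))
    (hY : 0 ≤ Y) (hL2 : Cz b * (1 + ((r - s : ℕ) : ℝ)) * (Y + 1) ≤ L ^ 2)
    (hs2 : Cz b * (3 + r) * ((2 : ℝ) ^ (r - n)) ^ 4 * (L ^ 2 + 1) ≤ 4 ^ s)
    (β β' : V (2 ^ (r - n))) :
    Ex (nMC (2 ^ r) (2 ^ s) b t a x₀) 0 (indh {h | (2 ^ s * tn n * L) ^ 2 / 9 <
      ∑ w, ((((t - a) • (H663.rowM (T *ᵥ (av (2 ^ r / 2 ^ s) (2 ^ (r - n)) (2 ^ (n - s)) β -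
        av (2 ^ r / 2 ^ s) (2 ^ (r - n)) (2 ^ (n - s)) β')) *
        cobV (2 ^ r) (2 ^ s))) *ᵥ re h) w) ^ 2}) ≤ 2 * Real.exp (-Y) := by
  have hκ := kb0_pos hb
  have hκ1 := kb0_le hb
  have hτ := tn_pos n
  have ht : 0 < t := hτ.trans_le ht1
  have hsr : s ≤ r := hsn.trans hnr
  have hl : (2 : ℕ) ^ s ∣ 2 ^ r := pow_dvd_pow 2 hsr
  have hnq : (2 : ℕ) ^ r / 2 ^ s = 2 ^ (r - n) * 2 ^ (n - s) := by
    rw [Nat.pow_div hsr two_pos, ← pow_add]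
    congr 1
    omega
  have hq0 : 0 < (2 : ℕ) ^ (n - s) := by positivity
  have hl2 : ((((2 : ℕ) ^ s : ℕ) : ℝ)) ^ 2 = 4 ^ s := by
    push_cast
    exact four_pow' s
  have hF : (0 : ℝ) < 4 ^ s := by positivity
  have hlog := log_nu hsr
  have hlog0 : 0 ≤ Real.log (((2 : ℕ) ^ r / 2 ^ s : ℕ) : ℝ) := Real.log_natCast_nonneg _
  set D : ℝ := ((r - s : ℕ) : ℝ) with hD
  have hD0 : 0 ≤ D := Nat.cast_nonneg _
  have hρ : (2 ^ s * tn n * L) ^ 2 / 9 = 4 ^ s * tn n ^ 2 * L ^ 2 / 9 := by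
    rw [mul_pow, mul_pow, four_pow']
  have hρ0 : 0 ≤ (2 ^ s * tn n * L) ^ 2 / 9 := by positivity
  have hτt : tn n ^ 2 ≤ t ^ 2 := pow_le_pow_left₀ hτ.le ht1 2
  refine (Ex_mono_c hb hl ha hat.le x₀ (by linarith) (by linarith : t - a ≤ t) _).trans ?_
  set av₁ := av (2 ^ r / 2 ^ s) (2 ^ (r - n)) (2 ^ (n - s)) β with hav₁
  set av₂ := av (2 ^ r / 2 ^ s) (2 ^ (r - n)) (2 ^ (n - s)) β' with hav₂
  have hset : {h : V (2 ^ r) → ℤ | (2 ^ s * tn n * L) ^ 2 / 9 <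
      ∑ w, (((t • (H663.rowM (T *ᵥ (av₁ - av₂)) * cobV (2 ^ r) (2 ^ s))) *ᵥ re h) w) ^ 2} =
      {h : V (2 ^ r) → ℤ | (2 ^ s * tn n * L) ^ 2 / 9 <
      ∑ w, (((t • (H896.rowM T av₁ av₂ * cobV (2 ^ r) (2 ^ s))) *ᵥ re h) w) ^ 2} := by
    ext h
    simp only [Set.mem_ofPred_eq]
    rw [row_conv, Fintype.univ_ofSubsingleton, Finset.sum_singleton]
    have e : ((t • (H896.rowM T av₁ av₂ * cobV (2 ^ r) (2 ^ s))) *ᵥ re h) (default : Unit) =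
        t * ((T *ᵥ (av₁ - av₂)) ⬝ᵥ (cobV (2 ^ r) (2 ^ s) *ᵥ re h)) := by
      rw [Matrix.smul_mulVec, Pi.smul_apply, smul_eq_mul, ← Matrix.mulVec_mulVec]
      rfl
    rw [e]
  rw [hset]
  refine (tailF_mean hb hl ha hat.le hκ zero_le_one (kb0_eq hb) le_rfl x₀ hT
    (fun y => av_nonneg β y) (sum_av hq0 hnq β) (fun y => av_nonneg β' y) (sum_av hq0 hnq β')
    ht hρ0 ?_).trans ?_
  · rw [hl2, hρ]
    refine side_le (c₁ := 1) (c₂ := 2) (B := L ^ 2 + 1) Gam0_nonneg le_rfl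
      (by positivity) ?_ (by positivity) ?_ hF ?_
    · rw [div_le_div_iff₀ (by positivity) hF]
      nlinarith
    · have h1 : kb0 b * (4 ^ s * tn n ^ 2 * L ^ 2 / 9) / (16 * 4 ^ s * t ^ 2) ≤ L ^ 2 := by
        rw [div_le_iff₀ (by positivity)]
        calc kb0 b * (4 ^ s * tn n ^ 2 * L ^ 2 / 9) ≤ 1 * (4 ^ s * tn n ^ 2 * L ^ 2) :=
              mul_le_mul hκ1 (by
                have : 0 ≤ 4 ^ s * tn n ^ 2 * L ^ 2 := by positivity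
                linarith) (by positivity) zero_le_one
          _ ≤ 4 ^ s * t ^ 2 * L ^ 2 := by
              rw [one_mul]
              exact mul_le_mul_of_nonneg_right (mul_le_mul_of_nonneg_left hτt hF.le)
                (sq_nonneg _)
          _ ≤ L ^ 2 * (16 * 4 ^ s * t ^ 2) := by
              have : 0 ≤ 4 ^ s * t ^ 2 * L ^ 2 := by positivity
              linarith
      linarith [sq_nonneg L]
    · rw [one_mul]
      exact side_G hb hnr ht.le ht4 (by positivity) (by norm_num) (by norm_num) hs2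
  · rw [hl2, hρ]
    refine mul_le_mul_of_nonneg_left (Real.exp_le_exp.2 ?_) zero_le_two
    have h1 : Y + 1 ≤ kb0 b * (4 ^ s * tn n ^ 2 * L ^ 2 / 9) /
        (32 * t ^ 2 * 4 ^ s * (2 + Real.log (((2 : ℕ) ^ r / 2 ^ s : ℕ) : ℝ))) := by
      rw [le_div_iff₀ (by positivity)]
      have h3 : t ^ 2 ≤ 16 * tn n ^ 2 := by
        have := pow_le_pow_left₀ ht.le ht4 2
        refine this.trans (le_of_eq (by ring))
      have h4 : 2 + Real.log (((2 : ℕ) ^ r / 2 ^ s : ℕ) : ℝ) ≤ 2 * (1 + D) := by linarith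
      have h6 : 9216 * ((1 + D) * (Y + 1)) ≤ kb0 b * L ^ 2 := by
        have h7 := mul_le_mul_of_nonneg_left hL2 hκ.le
        refine le_trans ?_ h7
        have h8 := Cz_kb hb (c := 9216) (by norm_num)
        rw [div_le_iff₀ hκ] at h8
        have h9 : 0 ≤ (1 + D) * (Y + 1) := by positivity
        calc 9216 * ((1 + D) * (Y + 1)) ≤ Cz b * kb0 b * ((1 + D) * (Y + 1)) :=
              mul_le_mul_of_nonneg_right h8 h9
          _ = _ := by ring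
      calc (Y + 1) * (32 * t ^ 2 * 4 ^ s * (2 + Real.log (((2 : ℕ) ^ r / 2 ^ s : ℕ) : ℝ)))
          ≤ (Y + 1) * (32 * (16 * tn n ^ 2) * 4 ^ s * (2 * (1 + D))) := by
            refine mul_le_mul_of_nonneg_left ?_ (by linarith)
            refine mul_le_mul ?_ h4 (by linarith) (by positivity)
            exact mul_le_mul_of_nonneg_right (by linarith) hF.le
        _ = (9216 * ((1 + D) * (Y + 1))) * (4 ^ s * tn n ^ 2 / 9) := by ring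
        _ ≤ (kb0 b * L ^ 2) * (4 ^ s * tn n ^ 2 / 9) :=
            mul_le_mul_of_nonneg_right h6 (by positivity)
        _ = _ := by ring
    linarith

lemma N2_M (hnr : n ≤ r) : tn n * 4 ^ r = ((2 : ℝ) ^ (r - n)) ^ 2 := by
  have e : (4 : ℝ) ^ r = ((2 : ℝ) ^ (r - n)) ^ 2 * 4 ^ n := by
    rw [four_pow', ← pow_add, Nat.sub_add_cancel hnr]
  rw [e, mul_comm (((2 : ℝ) ^ (r - n)) ^ 2), ← mul_assoc, tn_mul, one_mul]

/-- (S3) -/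
theorem part_quad (hb : 0 ≤ b) (hsn : s ≤ n) (hnr : n ≤ r) (ht1 : tn n ≤ t)
    (ht4 : t ≤ 4 * tn n) (ha : 0 < a) (hat : a < t) (x₀ : V (2 ^ r))
    (hWn : ∀ x, Neu (W₃ x)) (hw : 0 < w) (hWw : (W₃ * W₃ᵀ).trace ≤ w)
    (hY : 0 ≤ Y) (hu : 0 ≤ u)
    (hu2 : Cz b * ((2 : ℝ) ^ (r - n)) ^ 2 * (tn n * w) * (Y + 1) ≤ u)
    (hs3 : Cz b * (3 + r) * ((2 : ℝ) ^ (r - n)) ^ 4 *
      (u / (tn n * w) + Λ ^ 2 + ((2 : ℝ) ^ (r - s)) ^ 2) ≤ 4 ^ r) :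
    Ex (nMC (2 ^ r) (2 ^ s) b t a x₀) 0 (indh {h | u / 9 <
      ∑ x, ((((t - a) • (W₃ * cobV (2 ^ r) (2 ^ s))) *ᵥ re h) x) ^ 2}) ≤ 2 * Real.exp (-Y) := by
  have hκ := kb0_pos hb
  have hκ1 := kb0_le hb
  have hτ := tn_pos n
  have ht : 0 < t := hτ.trans_le ht1
  have hsr : s ≤ r := hsn.trans hnr
  have hl : (2 : ℕ) ^ s ∣ 2 ^ r := pow_dvd_pow 2 hsr
  have hN2 : ((((2 : ℕ) ^ r : ℕ) : ℝ)) ^ 2 = 4 ^ r := by
    push_cast
    exact four_pow' r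
  have hF : (0 : ℝ) < 4 ^ r := by positivity
  have hM2 := N2_M hnr
  have hM1 : (1 : ℝ) ≤ (2 : ℝ) ^ (r - n) := one_le_pow₀ (by norm_num)
  set M : ℝ := (2 : ℝ) ^ (r - n) with hM
  have hM21 : 1 ≤ M ^ 2 := one_le_pow₀ hM1
  have hτt : tn n ^ 2 ≤ t ^ 2 := pow_le_pow_left₀ hτ.le ht1 2
  have h16 : 4 ^ r * t ^ 2 ≤ 16 * (M ^ 2 * tn n) := by
    have h3 : t ^ 2 ≤ (4 * tn n) ^ 2 := pow_le_pow_left₀ ht.le ht4 2
    calc 4 ^ r * t ^ 2 ≤ 4 ^ r * (4 * tn n) ^ 2 := mul_le_mul_of_nonneg_left h3 hF.le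
      _ = 16 * ((tn n * 4 ^ r) * tn n) := by ring
      _ = _ := by rw [hM2]
  have h1 : tn n ≤ 4 ^ r * t ^ 2 := by
    calc tn n ≤ M ^ 2 * tn n := le_mul_of_one_le_left hτ.le hM21
      _ = 4 ^ r * tn n ^ 2 := by rw [← hM2]; ring
      _ ≤ 4 ^ r * t ^ 2 := mul_le_mul_of_nonneg_left hτt hF.le
  refine (Ex_mono_c hb hl ha hat.le x₀ (by linarith) (by linarith : t - a ≤ t) _).trans
    ((tailF_ball hb hl ha hat.le hκ zero_le_one (kb0_eq hb) le_rfl x₀ hWn ht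
      (ρ := u / 9) (by positivity) hw
      (fun φ => (tr_op W₃ φ).trans (mul_le_mul_of_nonneg_right hWw (sq_vec_nonneg φ)))
      hWw ?_).trans ?_)
  · rw [hN2, TM.H764.card_V, nu_cast hsr]
    refine side_le (c₁ := 17 / 2) (c₂ := 2)
      (B := u / (tn n * w) + Λ ^ 2 + ((2 : ℝ) ^ (r - s)) ^ 2) Gam0_nonneg le_rfl
      (by positivity) ?_ (by positivity) ?_ hF ?_
    · rw [div_le_div_iff₀ (by positivity) hF]
      nlinarith
    · have h2 : 17 * kb0 b * (u / 9) / (4 * 4 ^ r * t ^ 2 * w) ≤ u / (tn n * w) := by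
        rw [div_le_div_iff₀ (by positivity) (by positivity)]
        have h3 : 17 * kb0 b * (u / 9) ≤ 4 * u := by nlinarith
        calc 17 * kb0 b * (u / 9) * (tn n * w) ≤ 4 * u * (tn n * w) :=
              mul_le_mul_of_nonneg_right h3 (by positivity)
          _ ≤ 4 * u * (4 ^ r * t ^ 2 * w) := by
              refine mul_le_mul_of_nonneg_left ?_ (by positivity)
              exact mul_le_mul_of_nonneg_right h1 hw.le
          _ = _ := by ring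
      nlinarith [sq_nonneg Λ, div_nonneg hu (mul_nonneg hτ.le hw.le)]
    · have := side_G hb hnr ht.le ht4 (B := u / (tn n * w) + Λ ^ 2 + ((2 : ℝ) ^ (r - s)) ^ 2)
        (F := 4 ^ r) (by positivity) (c := 17) le_rfl (by norm_num) hs3
      refine le_trans (le_of_eq ?_) this
      ring
  · rw [hN2]
    refine mul_le_mul_of_nonneg_left (Real.exp_le_exp.2 ?_) zero_le_two
    have e1 : w / (2 * w) = 1 / 2 := by field_simp
    rw [e1]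
    have h2 : Y + 1 ≤ 17 * kb0 b * (u / 9) / (8 * 4 ^ r * t ^ 2 * w) := by
      rw [le_div_iff₀ (by positivity)]
      have h6 : 1152 * ((M ^ 2 * (tn n * w)) * (Y + 1)) ≤ kb0 b * u := by
        have h7 := mul_le_mul_of_nonneg_left hu2 hκ.le
        refine le_trans ?_ h7
        have h8 := Cz_kb hb (c := 1152) (by norm_num)
        rw [div_le_iff₀ hκ] at h8
        have h9 : 0 ≤ (M ^ 2 * (tn n * w)) * (Y + 1) := by positivity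
        calc 1152 * ((M ^ 2 * (tn n * w)) * (Y + 1)) ≤
            Cz b * kb0 b * ((M ^ 2 * (tn n * w)) * (Y + 1)) := mul_le_mul_of_nonneg_right h8 h9
          _ = _ := by ring
      have hκu : 0 ≤ kb0 b * u := by positivity
      calc (Y + 1) * (8 * 4 ^ r * t ^ 2 * w) = 8 * (Y + 1) * w * (4 ^ r * t ^ 2) := by ring
        _ ≤ 8 * (Y + 1) * w * (16 * (M ^ 2 * tn n)) :=
            mul_le_mul_of_nonneg_left h16 (by positivity)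
        _ = (1152 * ((M ^ 2 * (tn n * w)) * (Y + 1))) / 9 := by ring
        _ ≤ kb0 b * u / 9 := by linarith
        _ ≤ _ := by linarith
    linarith

/-- norm -/
theorem part_nrm (hb : 0 ≤ b) (hsn : s ≤ n) (hnr : n ≤ r) (ht1 : tn n ≤ t)
    (ht4 : t ≤ 4 * tn n) (ha : 0 < a) (hat : a < t) (hT : TC T) (x₀ : V (2 ^ r))
    (hw : 0 < w) (hY : 0 ≤ Y) (hu : 0 ≤ u)
    (hΛ2 : Cz b * (((2 : ℝ) ^ (r - n)) ^ 2 * (Y + 1 + ((r - s : ℕ) : ℝ)) +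
      ((2 : ℝ) ^ (r - s)) ^ 2) ≤ Λ ^ 2)
    (hs3 : Cz b * (3 + r) * ((2 : ℝ) ^ (r - n)) ^ 4 *
      (u / (tn n * w) + Λ ^ 2 + ((2 : ℝ) ^ (r - s)) ^ 2) ≤ 4 ^ r) :
    Ex (nMC (2 ^ r) (2 ^ s) b t a x₀) 0 (indh {h | (√(tn n) * Λ) ^ 2 / 9 <
      ∑ x, ((((t - a) • (T * Pn * cobV (2 ^ r) (2 ^ s))) *ᵥ re h) x) ^ 2}) ≤
      2 * Real.exp (-Y) := by
  have hκ := kb0_pos hb
  have hκ1 := kb0_le hb
  have hτ := tn_pos n
  have ht : 0 < t := hτ.trans_le ht1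
  have hsr : s ≤ r := hsn.trans hnr
  have hl : (2 : ℕ) ^ s ∣ 2 ^ r := pow_dvd_pow 2 hsr
  have hN2 : ((((2 : ℕ) ^ r : ℕ) : ℝ)) ^ 2 = 4 ^ r := by
    push_cast
    exact four_pow' r
  have hF : (0 : ℝ) < 4 ^ r := by positivity
  have hM2 := N2_M hnr
  have hM1 : (1 : ℝ) ≤ (2 : ℝ) ^ (r - n) := one_le_pow₀ (by norm_num)
  set M : ℝ := (2 : ℝ) ^ (r - n) with hM
  have hM21 : 1 ≤ M ^ 2 := one_le_pow₀ hM1
  have hlog := log_nu hsr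
  set D : ℝ := ((r - s : ℕ) : ℝ) with hD
  have hD0 : 0 ≤ D := Nat.cast_nonneg _
  have hτt : tn n ^ 2 ≤ t ^ 2 := pow_le_pow_left₀ hτ.le ht1 2
  have h16 : 4 ^ r * t ^ 2 ≤ 16 * (M ^ 2 * tn n) := by
    have h3 : t ^ 2 ≤ (4 * tn n) ^ 2 := pow_le_pow_left₀ ht.le ht4 2
    calc 4 ^ r * t ^ 2 ≤ 4 ^ r * (4 * tn n) ^ 2 := mul_le_mul_of_nonneg_left h3 hF.le
      _ = 16 * ((tn n * 4 ^ r) * tn n) := by ring
      _ = _ := by rw [hM2]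
  have h1 : tn n ≤ 4 ^ r * t ^ 2 := by
    calc tn n ≤ M ^ 2 * tn n := le_mul_of_one_le_left hτ.le hM21
      _ = 4 ^ r * tn n ^ 2 := by rw [← hM2]; ring
      _ ≤ 4 ^ r * t ^ 2 := mul_le_mul_of_nonneg_left hτt hF.le
  have hρ : (√(tn n) * Λ) ^ 2 / 9 = tn n * Λ ^ 2 / 9 := by
    rw [mul_pow, Real.sq_sqrt hτ.le]
  rw [hρ]
  refine (Ex_mono_c hb hl ha hat.le x₀ (by linarith) (by linarith : t - a ≤ t) _).trans
    ((tailF_all hb hl ha hat.le hκ zero_le_one (kb0_eq hb) le_rfl x₀ ht hT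
      (ρ := tn n * Λ ^ 2 / 9) (by positivity) ?_).trans ?_)
  · rw [hN2, nu_cast hsr]
    refine side_le (c₁ := 17 / 2) (c₂ := 2)
      (B := u / (tn n * w) + Λ ^ 2 + ((2 : ℝ) ^ (r - s)) ^ 2) Gam0_nonneg le_rfl
      (by positivity) ?_ (by positivity) ?_ hF ?_
    · rw [div_le_div_iff₀ (by positivity) hF]
      nlinarith
    · have h2 : 17 * kb0 b * (tn n * Λ ^ 2 / 9) / (4 * 4 ^ r * t ^ 2) ≤ Λ ^ 2 := by
        rw [div_le_iff₀ (by positivity)]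
        have h0 : 0 ≤ tn n * Λ ^ 2 := by positivity
        have h3 : 17 * kb0 b * (tn n * Λ ^ 2 / 9) ≤ 4 * (tn n * Λ ^ 2) := by nlinarith
        calc 17 * kb0 b * (tn n * Λ ^ 2 / 9) ≤ 4 * (tn n * Λ ^ 2) := h3
          _ ≤ 4 * (4 ^ r * t ^ 2 * Λ ^ 2) := by
              refine mul_le_mul_of_nonneg_left ?_ (by norm_num)
              exact mul_le_mul_of_nonneg_right h1 (sq_nonneg _)
          _ = _ := by ring
      have h5 : 0 ≤ u / (tn n * w) := div_nonneg hu (mul_nonneg hτ.le hw.le)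
      nlinarith [sq_nonneg Λ]
    · have := side_G hb hnr ht.le ht4 (B := u / (tn n * w) + Λ ^ 2 + ((2 : ℝ) ^ (r - s)) ^ 2)
        (F := 4 ^ r) (by positivity) (c := 17) le_rfl (by norm_num) hs3
      refine le_trans (le_of_eq ?_) this
      ring
  · rw [hN2]
    refine mul_le_mul_of_nonneg_left (Real.exp_le_exp.2 ?_) zero_le_two
    have h2 : 17 * (Y + 1 + D) ≤ 17 * kb0 b * (tn n * Λ ^ 2 / 9) / (8 * 4 ^ r * t ^ 2) := by
      rw [le_div_iff₀ (by positivity)]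
      have h6 : 1152 * (M ^ 2 * (Y + 1 + D)) ≤ kb0 b * Λ ^ 2 := by
        have h7 := mul_le_mul_of_nonneg_left hΛ2 hκ.le
        refine le_trans ?_ h7
        have h8 := Cz_kb hb (c := 1152) (by norm_num)
        rw [div_le_iff₀ hκ] at h8
        have h9 : 0 ≤ M ^ 2 * (Y + 1 + D) := by positivity
        have h10 : 0 ≤ ((2 : ℝ) ^ (r - s)) ^ 2 := by positivity
        calc 1152 * (M ^ 2 * (Y + 1 + D)) ≤ Cz b * kb0 b * (M ^ 2 * (Y + 1 + D)) :=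
              mul_le_mul_of_nonneg_right h8 h9
          _ ≤ Cz b * kb0 b * (M ^ 2 * (Y + 1 + D) + ((2 : ℝ) ^ (r - s)) ^ 2) :=
              mul_le_mul_of_nonneg_left (by linarith) (mul_nonneg (Cz_pos hb).le hκ.le)
          _ = _ := by ring
      calc 17 * (Y + 1 + D) * (8 * 4 ^ r * t ^ 2) = 136 * (Y + 1 + D) * (4 ^ r * t ^ 2) := by ring
        _ ≤ 136 * (Y + 1 + D) * (16 * (M ^ 2 * tn n)) :=
            mul_le_mul_of_nonneg_left h16 (by positivity)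
        _ = (1152 * (M ^ 2 * (Y + 1 + D))) * (17 * tn n / 9) := by ring
        _ ≤ (kb0 b * Λ ^ 2) * (17 * tn n / 9) :=
            mul_le_mul_of_nonneg_right h6 (by positivity)
        _ = _ := by ring
    linarith

end parts

/-! ### the theorem -/

section thm

variable {b : ℝ} {n r s : ℕ} [NeZero (2 ^ r / 2 ^ s)] {t a δ X Q₁ L u w Λ Y : ℝ}
  {T W₃ : Matrix (V (2 ^ r / 2 ^ s)) (V (2 ^ r / 2 ^ s)) ℝ}

/-- norms of the ball conditions -/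
def kG (q : ℕ) (w : ℝ) {nb : ℕ} [NeZero nb] : Jx nb → ℝ
  | Sum.inl _ => 2 / (q : ℝ) ^ 2
  | Sum.inr true => w
  | Sum.inr false => 1

/-- traces of the ball conditions -/
def rG (m q : ℕ) (w : ℝ) {nb : ℕ} [NeZero nb] : Jx nb → ℝ
  | Sum.inl _ => 2 / (q : ℝ) ^ 2
  | Sum.inr true => w
  | Sum.inr false => (m : ℝ) ^ 2

lemma tc_TPn {m : ℕ} [NeZero m] {T : Matrix (V m) (V m) ℝ} (hT : TC T) : TC (T * Pn) :=
  hT.mul ⟨H963.ti_Pn, fun k => by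
    rw [H963.sym_Pn]
    split_ifs <;> simp⟩

lemma neu_TPn {m : ℕ} [NeZero m] {T : Matrix (V m) (V m) ℝ} (hT : TC T) (x : V m) :
    Neu ((T * Pn : Matrix (V m) (V m) ℝ) x) := by
  have hTP := tc_TPn hT
  have e1 : (T * Pn : Matrix (V m) (V m) ℝ) x = (T * Pn) *ᵥ (Pi.single x 1) := by
    funext z
    rw [mulVec_single_one, Matrix.col_apply]
    conv_lhs => rw [← hTP.ti.transpose]
    rfl
  rw [e1]
  unfold H963.Neu
  rw [ti_sum hTP.ti, H864.sym_mul hT.ti H963.ti_Pn, H963.sym_Pn, if_pos rfl, mul_zero, zero_mul]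

lemma card_Jx (nb : ℕ) [NeZero nb] : (Fintype.card (Jx nb) : ℝ) ≤ (nb : ℝ) ^ 4 + 2 := by
  rw [Fintype.card_sum, Fintype.card_bool]
  push_cast
  have h1 : Fintype.card {p : V nb × V nb // sd p.1 p.2 ≤ 1} ≤ Fintype.card (V nb × V nb) :=
    Fintype.card_subtype_le _
  have h2 : (Fintype.card (V nb × V nb) : ℝ) = (nb : ℝ) ^ 4 := by
    rw [Fintype.card_prod]
    push_cast
    rw [TM.H764.card_V]
    ring
  have h3 : (Fintype.card {p : V nb × V nb // sd p.1 p.2 ≤ 1} : ℝ) ≤ (nb : ℝ) ^ 4 := by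
    rw [← h2]
    exact_mod_cast h1
  linarith

lemma noise1 (hb : 0 ≤ b) (ht4 : t ≤ 4 * tn n) (ha : 0 < a) (hat : a < t) (hQ0 : 0 < Q₁)
    (hY : 0 ≤ Y) (hX2 : Cz b * Q₁ ^ 2 * (Y + 1 + ((r - s : ℕ) : ℝ)) ≤ X ^ 2) :
    Y ≤ X ^ 2 * tn n / (63 * Q₁ ^ 2 * (t - a)) := by
  have hτ := tn_pos n
  have hc : 0 < t - a := sub_pos.2 hat
  have hct4 : t - a ≤ 4 * tn n := by linarith
  have hD0 : (0 : ℝ) ≤ ((r - s : ℕ) : ℝ) := Nat.cast_nonneg _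
  have hC0 := Cz_pos hb
  rw [le_div_iff₀ (by positivity)]
  have h1 : 252 * Q₁ ^ 2 * Y ≤ X ^ 2 := by
    refine le_trans ?_ hX2
    have h2 := Cz_big hb (c := 252) (by norm_num)
    calc 252 * Q₁ ^ 2 * Y ≤ Cz b * Q₁ ^ 2 * Y :=
          mul_le_mul_of_nonneg_right (mul_le_mul_of_nonneg_right h2 (sq_nonneg _)) hY
      _ ≤ Cz b * Q₁ ^ 2 * (Y + 1 + ((r - s : ℕ) : ℝ)) :=
          mul_le_mul_of_nonneg_left (by linarith) (by positivity)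
  calc Y * (63 * Q₁ ^ 2 * (t - a)) ≤ Y * (63 * Q₁ ^ 2 * (4 * tn n)) := by
        refine mul_le_mul_of_nonneg_left ?_ hY
        exact mul_le_mul_of_nonneg_left hct4 (by positivity)
    _ = (252 * Q₁ ^ 2 * Y) * tn n := by ring
    _ ≤ X ^ 2 * tn n := mul_le_mul_of_nonneg_right h1 hτ.le

lemma noise2 (hb : 0 ≤ b) (hsn : s ≤ n) (ht4 : t ≤ 4 * tn n) (ha : 0 < a) (hat : a < t)
    (hY : 0 ≤ Y) (hL2 : Cz b * (1 + ((r - s : ℕ) : ℝ)) * (Y + 1) ≤ L ^ 2) :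
    Y + 1 ≤ (2 ^ s * tn n * L) ^ 2 /
      (36 * (t - a) * (2 / (((2 : ℕ) ^ (n - s) : ℕ) : ℝ) ^ 2)) := by
  have hτ := tn_pos n
  have hτF := tn_mul n
  have hc : 0 < t - a := sub_pos.2 hat
  have hct4 : t - a ≤ 4 * tn n := by linarith
  have hD0 : (0 : ℝ) ≤ ((r - s : ℕ) : ℝ) := Nat.cast_nonneg _
  have hC0 := Cz_pos hb
  have hY1 : 0 < Y + 1 := by linarith
  have hqR : (0 : ℝ) < (((2 : ℕ) ^ (n - s) : ℕ) : ℝ) := by positivity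
  have e1 : 36 * (t - a) * (2 / (((2 : ℕ) ^ (n - s) : ℕ) : ℝ) ^ 2) =
      72 * (t - a) / (((2 : ℕ) ^ (n - s) : ℕ) : ℝ) ^ 2 := by ring
  rw [e1, le_div_iff₀ (by positivity), ← mul_div_assoc, div_le_iff₀ (by positivity)]
  have e2 : (2 ^ s * tn n * L) ^ 2 * (((2 : ℕ) ^ (n - s) : ℕ) : ℝ) ^ 2 = tn n * L ^ 2 := by
    push_cast
    have e3 : (2 ^ s * tn n * L) ^ 2 * ((2 : ℝ) ^ (n - s)) ^ 2 =
        ((2 : ℝ) ^ (s + (n - s))) ^ 2 * tn n ^ 2 * L ^ 2 := by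
      rw [pow_add]
      ring
    rw [e3, Nat.add_sub_cancel' hsn, four_pow', pow_two (tn n), ← mul_assoc,
      mul_comm ((4 : ℝ) ^ n), hτF, one_mul]
  rw [e2]
  have h1 : 288 * (Y + 1) ≤ L ^ 2 := by
    refine le_trans ?_ hL2
    have h2 := Cz_big hb (c := 288) (by norm_num)
    calc 288 * (Y + 1) ≤ Cz b * (Y + 1) := mul_le_mul_of_nonneg_right h2 hY1.le
      _ ≤ Cz b * (1 + ((r - s : ℕ) : ℝ)) * (Y + 1) := by
          refine mul_le_mul_of_nonneg_right ?_ hY1.le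
          exact le_mul_of_one_le_right hC0.le (by linarith)
  calc (Y + 1) * (72 * (t - a)) ≤ (Y + 1) * (72 * (4 * tn n)) :=
        mul_le_mul_of_nonneg_left (by linarith) hY1.le
    _ = tn n * (288 * (Y + 1)) := by ring
    _ ≤ tn n * L ^ 2 := mul_le_mul_of_nonneg_left h1 hτ.le

lemma noise3 (hb : 0 ≤ b) (ht4 : t ≤ 4 * tn n) (ha : 0 < a) (hat : a < t) (hw : 0 < w)
    (hY : 0 ≤ Y) (hu2 : Cz b * ((2 : ℝ) ^ (r - n)) ^ 2 * (tn n * w) * (Y + 1) ≤ u) :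
    Y + 1 ≤ u / (36 * (t - a) * w) := by
  have hτ := tn_pos n
  have hc : 0 < t - a := sub_pos.2 hat
  have hct4 : t - a ≤ 4 * tn n := by linarith
  have hC0 := Cz_pos hb
  have hY1 : 0 < Y + 1 := by linarith
  rw [le_div_iff₀ (by positivity)]
  refine le_trans ?_ hu2
  have h2 := Cz_big hb (c := 144) (by norm_num)
  have h3 : (1 : ℝ) ≤ ((2 : ℝ) ^ (r - n)) ^ 2 := one_le_pow₀ (one_le_pow₀ (by norm_num))
  calc (Y + 1) * (36 * (t - a) * w) ≤ (Y + 1) * (36 * (4 * tn n) * w) := by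
        refine mul_le_mul_of_nonneg_left ?_ hY1.le
        exact mul_le_mul_of_nonneg_right (by linarith) hw.le
    _ = 144 * 1 * (tn n * w) * (Y + 1) := by ring
    _ ≤ Cz b * ((2 : ℝ) ^ (r - n)) ^ 2 * (tn n * w) * (Y + 1) := by
        refine mul_le_mul_of_nonneg_right ?_ hY1.le
        refine mul_le_mul_of_nonneg_right ?_ (by positivity)
        exact mul_le_mul h2 h3 zero_le_one hC0.le

lemma noise4 (hb : 0 ≤ b) (ht4 : t ≤ 4 * tn n) (ha : 0 < a) (hat : a < t)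
    (hY : 0 ≤ Y) (hΛ2 : Cz b * (((2 : ℝ) ^ (r - n)) ^ 2 * (Y + 1 + ((r - s : ℕ) : ℝ)) +
      ((2 : ℝ) ^ (r - s)) ^ 2) ≤ Λ ^ 2) :
    Y + ((2 : ℝ) ^ (r - s)) ^ 2 ≤ (√(tn n) * Λ) ^ 2 / (36 * (t - a) * 1) := by
  have hτ := tn_pos n
  have hc : 0 < t - a := sub_pos.2 hat
  have hct4 : t - a ≤ 4 * tn n := by linarith
  have hD0 : (0 : ℝ) ≤ ((r - s : ℕ) : ℝ) := Nat.cast_nonneg _
  have hC0 := Cz_pos hb
  rw [mul_pow, Real.sq_sqrt hτ.le, mul_one, le_div_iff₀ (by positivity)]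
  have h2 := Cz_big hb (c := 144) (by norm_num)
  have h3 : (1 : ℝ) ≤ ((2 : ℝ) ^ (r - n)) ^ 2 := one_le_pow₀ (one_le_pow₀ (by norm_num))
  have h4 : 144 * (Y + ((2 : ℝ) ^ (r - s)) ^ 2) ≤ Λ ^ 2 := by
    refine le_trans ?_ hΛ2
    refine mul_le_mul h2 ?_ (by positivity) hC0.le
    have h5 : Y + 1 + ((r - s : ℕ) : ℝ) ≤
        ((2 : ℝ) ^ (r - n)) ^ 2 * (Y + 1 + ((r - s : ℕ) : ℝ)) :=
      le_mul_of_one_le_left (by linarith) h3
    linarith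
  calc (Y + ((2 : ℝ) ^ (r - s)) ^ 2) * (36 * (t - a)) ≤
        (Y + ((2 : ℝ) ^ (r - s)) ^ 2) * (36 * (4 * tn n)) :=
        mul_le_mul_of_nonneg_left (by linarith) (by positivity)
    _ = tn n * (144 * (Y + ((2 : ℝ) ^ (r - s)) ^ 2)) := by ring
    _ ≤ tn n * Λ ^ 2 := mul_le_mul_of_nonneg_left h4 hτ.le

end thm

/-! ### one number for all conditions -/

section unif

variable {N l nb q : ℕ} [NeZero N] [NeZero (N / l)] [NeZero nb] {b t a t₀ X Q₁ δ Lip u w Λ Y : ℝ}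
  {T W₃ : Matrix (V (N / l)) (V (N / l)) ℝ}

/-- exponent of a ball condition -/
lemma expG {c ν2 : ℝ} (hq : 0 < q) (hw : 0 < w) (hν : ((N / l : ℕ) : ℝ) ^ 2 = ν2)
    (hν0 : 0 ≤ ν2)
    (n2 : Y + 1 ≤ Lip ^ 2 / (36 * c * (2 / (q : ℝ) ^ 2))) (n3 : Y + 1 ≤ u / (36 * c * w))
    (n4 : Y + ν2 ≤ Λ ^ 2 / (36 * c * 1)) (j : Jx nb) :
    rG (N / l) q w j / (2 * kG q w j) - uG Lip u Λ j / (36 * c * kG q w j) ≤ -Y := by
  have hqR : (0 : ℝ) < q := by exact_mod_cast hq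
  rcases j with (p | (_ | _))
  · show 2 / (q : ℝ) ^ 2 / (2 * (2 / (q : ℝ) ^ 2)) - Lip ^ 2 / (36 * c * (2 / (q : ℝ) ^ 2)) ≤ -Y
    have e1 : 2 / (q : ℝ) ^ 2 / (2 * (2 / (q : ℝ) ^ 2)) = 1 / 2 := by
      field_simp
    rw [e1]
    linarith
  · show ((N / l : ℕ) : ℝ) ^ 2 / (2 * 1) - Λ ^ 2 / (36 * c * 1) ≤ -Y
    rw [hν]
    linarith
  · show w / (2 * w) - u / (36 * c * w) ≤ -Y
    have e1 : w / (2 * w) = 1 / 2 := by field_simp
    rw [e1]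
    linarith

/-- **the concrete class, one exponent** -/
theorem zs_unif (hb : 0 ≤ b) (hl : l ∣ N) (hsn : N / l = nb * q) (ha : 0 < a) (hat : a < t)
    (x₀ : V N) (hT : TC T) (ht₀ : 0 < t₀)
    (hWn : ∀ x, Neu (W₃ x)) (hw : 0 < w) (hWw : (W₃ * W₃ᵀ).trace ≤ w) (hδ : 0 ≤ δ)
    (hX : 0 < X) (hQ : 0 < Q₁) (hu : 0 ≤ u)
    (hAP : ∀ β : V nb, (gau (V (N / l))).real
      {g | δ < rsC N l b t₀ ((X * √t₀) • (dB (bS (N / l) nb q β) *ᵥ g))} ≤ 1 / 30)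
    (hXQ : 9 * Q₁ ^ 2 * (t - a) ≤ X ^ 2 * t₀)
    (p1 : ∀ β : V nb, Ex (nMC N l b t a x₀) 0 (indh {h | X ^ 2 * t₀ / (12 * Q₁ ^ 2) <
      ∑ w, ((((t - a) • (bE (bS (N / l) nb q β) q T * cobV N l)) *ᵥ re h) w) ^ 2}) ≤
      2 * Real.exp (-Y))
    (p2 : ∀ β β' : V nb, Ex (nMC N l b t a x₀) 0 (indh {h | Lip ^ 2 / 9 <
      ∑ w, ((((t - a) • (H663.rowM (T *ᵥ (av (N / l) nb q β - av (N / l) nb q β')) *
        cobV N l)) *ᵥ re h) w) ^ 2}) ≤ 2 * Real.exp (-Y))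
    (p3 : Ex (nMC N l b t a x₀) 0 (indh {h | u / 9 <
      ∑ x, ((((t - a) • (W₃ * cobV N l)) *ᵥ re h) x) ^ 2}) ≤ 2 * Real.exp (-Y))
    (p4 : Ex (nMC N l b t a x₀) 0 (indh {h | Λ ^ 2 / 9 <
      ∑ x, ((((t - a) • (T * Pn * cobV N l)) *ᵥ re h) x) ^ 2}) ≤ 2 * Real.exp (-Y))
    {ν2 : ℝ} (hν : ((N / l : ℕ) : ℝ) ^ 2 = ν2)
    (n1 : Y ≤ X ^ 2 * t₀ / (63 * Q₁ ^ 2 * (t - a)))
    (n2 : Y + 1 ≤ Lip ^ 2 / (36 * (t - a) * (2 / (q : ℝ) ^ 2)))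
    (n3 : Y + 1 ≤ u / (36 * (t - a) * w))
    (n4 : Y + ν2 ≤ Λ ^ 2 / (36 * (t - a) * 1)) :
    Ech (nMC N l b t a x₀) 0 (obsN N l (t - a))
      (ind (clsG N l b t₀ Q₁ δ nb q T W₃ Lip u Λ)ᶜ) ≤
      13 * (nb : ℝ) ^ 4 * Real.exp (-Y) := by
  have hq0 : 0 < q := by
    rcases Nat.eq_zero_or_pos q with h | h
    · rw [h, mul_zero] at hsn
      exact absurd hsn (NeZero.ne _)
    · exact h
  have hqR : (0 : ℝ) < q := by exact_mod_cast hq0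
  have hq : q ∣ N / l := ⟨nb, by rw [hsn, mul_comm]⟩
  have hTP := tc_TPn hT
  have kTP : ∀ φ : V (N / l) → ℝ, ∑ i, ((T * Pn)ᵀ *ᵥ φ) i ^ 2 ≤ 1 * ∑ i, φ i ^ 2 := by
    intro φ
    rw [hTP.ti.transpose, one_mul]
    exact hTP.contr φ
  have hrow : ∀ β β' : V nb, ∑ i, (T *ᵥ (av (N / l) nb q β - av (N / l) nb q β')) i ^ 2 ≤
      2 / (q : ℝ) ^ 2 := fun β β' => (hT.contr _).trans (av_sub_sq hq0 hsn β β')
  have hmain := zs_cls hb hl ha hat x₀ hq (bS (N / l) nb q) hT ht₀ hX hQ hδ hAP hXQ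
    (π₁ := fun _ => 2 * Real.exp (-Y)) p1 (FG (N / l) nb q T W₃)
    (by
      rintro (p | (_ | _)) x
      · exact H663.rowM_neu (neu_av hq0 hsn hT _ _) x
      · exact neu_TPn hT x
      · exact hWn x)
    (k := kG q w) (r := rG (N / l) q w) (u := uG Lip u Λ)
    (by
      rintro (p | (_ | _))
      · show 0 < 2 / (q : ℝ) ^ 2
        positivity
      · exact zero_lt_one
      · exact hw)
    (by
      rintro (p | (_ | _)) φ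
      · exact (H663.rowM_tr_sq _ _).trans
          (mul_le_mul_of_nonneg_right (hrow p.1.1 p.1.2) (sq_vec_nonneg φ))
      · exact kTP φ
      · exact (tr_op W₃ φ).trans (mul_le_mul_of_nonneg_right hWw (sq_vec_nonneg φ)))
    (by
      rintro (p | (_ | _))
      · exact (H663.rowM_trace _).le.trans (hrow p.1.1 p.1.2)
      · refine (trace_le_card kTP).trans (le_of_eq ?_)
        rw [one_mul, TM.H764.card_V]
        rfl
      · exact hWw)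
    (by
      rintro (p | (_ | _))
      · exact sq_nonneg _
      · exact sq_nonneg _
      · exact hu)
    (π₂ := fun _ => 2 * Real.exp (-Y))
    (by
      rintro (p | (_ | _))
      · exact p2 p.1.1 p.1.2
      · exact p4
      · exact p3)
  refine hmain.trans ?_
  have hE0 : 0 < Real.exp (-Y) := Real.exp_pos _
  have hM1 : (1 : ℝ) ≤ nb := by exact_mod_cast NeZero.pos nb
  have hA : ∑ _β : V nb, (2 * Real.exp (-Y) +
      2 * Real.exp (-(X ^ 2 * t₀ / (63 * Q₁ ^ 2 * (t - a))))) ≤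
      (nb : ℝ) ^ 2 * (4 * Real.exp (-Y)) := by
    rw [Finset.sum_const, nsmul_eq_mul, Finset.card_univ, TM.H764.card_V]
    refine mul_le_mul_of_nonneg_left ?_ (by positivity)
    have := Real.exp_le_exp.2 (neg_le_neg n1)
    linarith
  have hB : ∀ j : Jx nb, 2 * Real.exp (-Y) + Real.exp (rG (N / l) q w j / (2 * kG q w j) -
      uG Lip u Λ j / (36 * (t - a) * kG q w j)) ≤ 3 * Real.exp (-Y) := by
    intro j
    have h2 := Real.exp_le_exp.2 (expG (N := N) (l := l) hq0 hw hν (hν ▸ sq_nonneg _) n2 n3 n4 j)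
    linarith
  have hC := (Finset.sum_le_sum fun j (_ : j ∈ Finset.univ) => hB j)
  rw [Finset.sum_const, nsmul_eq_mul, Finset.card_univ] at hC
  have hC2 := hC.trans (mul_le_mul_of_nonneg_right (card_Jx nb)
    (show 0 ≤ 3 * Real.exp (-Y) by positivity))
  refine (add_le_add hA hC2).trans ?_
  have hM2 : (nb : ℝ) ^ 2 ≤ (nb : ℝ) ^ 4 := pow_le_pow_right₀ hM1 (by norm_num)
  have hM4 : 1 ≤ (nb : ℝ) ^ 4 := one_le_pow₀ hM1
  have e1 : (nb : ℝ) ^ 2 * (4 * Real.exp (-Y)) + ((nb : ℝ) ^ 4 + 2) * (3 * Real.exp (-Y)) =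
      (4 * (nb : ℝ) ^ 2 + 3 * (nb : ℝ) ^ 4 + 6) * Real.exp (-Y) := by ring
  rw [e1]
  refine mul_le_mul_of_nonneg_right ?_ hE0.le
  linarith

end unif

section thm2

variable {b : ℝ} {n r s : ℕ} [NeZero (2 ^ r / 2 ^ s)] {t a δ X Q₁ L u w Λ Y : ℝ}
  {T W₃ : Matrix (V (2 ^ r / 2 ^ s)) (V (2 ^ r / 2 ^ s)) ℝ}

/-- **zero source probability of the complement of the concrete class, Good letters**: posterior
mass `t` in `[t_n, 4 t_n]`, EVERY prior `0 < a < t` -/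
theorem zs_good (hb : 0 ≤ b) (hsn : s ≤ n) (hnr : n ≤ r) (ht1 : tn n ≤ t)
    (ht4 : t ≤ 4 * tn n) (ha : 0 < a) (hat : a < t) (x₀ : V (2 ^ r)) (hT : TC T)
    (hWn : ∀ x, Neu (W₃ x)) (hw : 0 < w) (hWw : (W₃ * W₃ᵀ).trace ≤ w) (hδ : 0 ≤ δ)
    (hQ1 : 1 ≤ Q₁) (hQX : 6 * Q₁ ≤ X) (hY : 0 ≤ Y) (hu : 0 ≤ u)
    (hAP : AP b n r s X (tn n) δ)
    (hX2 : Cz b * Q₁ ^ 2 * (Y + 1 + ((r - s : ℕ) : ℝ)) ≤ X ^ 2)
    (hL2 : Cz b * (1 + ((r - s : ℕ) : ℝ)) * (Y + 1) ≤ L ^ 2)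
    (hu2 : Cz b * ((2 : ℝ) ^ (r - n)) ^ 2 * (tn n * w) * (Y + 1) ≤ u)
    (hΛ2 : Cz b * (((2 : ℝ) ^ (r - n)) ^ 2 * (Y + 1 + ((r - s : ℕ) : ℝ)) +
      ((2 : ℝ) ^ (r - s)) ^ 2) ≤ Λ ^ 2)
    (hs1 : Cz b * (3 + r) * ((2 : ℝ) ^ (r - n)) ^ 4 * (X ^ 2 + ((2 : ℝ) ^ (r - s)) ^ 2) ≤ 4 ^ n)
    (hs2 : Cz b * (3 + r) * ((2 : ℝ) ^ (r - n)) ^ 4 * (L ^ 2 + 1) ≤ 4 ^ s)
    (hs3 : Cz b * (3 + r) * ((2 : ℝ) ^ (r - n)) ^ 4 *
      (u / (tn n * w) + Λ ^ 2 + ((2 : ℝ) ^ (r - s)) ^ 2) ≤ 4 ^ r) :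
    Ech (nMC (2 ^ r) (2 ^ s) b t a x₀) 0 (obsN (2 ^ r) (2 ^ s) (t - a))
      (ind (clsG (2 ^ r) (2 ^ s) b (tn n) Q₁ δ (2 ^ (r - n)) (2 ^ (n - s)) T W₃
        (2 ^ s * tn n * L) u (√(tn n) * Λ))ᶜ) ≤
      13 * ((2 : ℝ) ^ (r - n)) ^ 4 * Real.exp (-Y) := by
  have hτ := tn_pos n
  have ht : 0 < t := hτ.trans_le ht1
  have hct4 : t - a ≤ 4 * tn n := by linarith
  have hsr : s ≤ r := hsn.trans hnr
  have hX0 : 0 < X := by linarith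
  have hQ0 : 0 < Q₁ := by linarith
  have hnq : (2 : ℕ) ^ r / 2 ^ s = 2 ^ (r - n) * 2 ^ (n - s) := by
    rw [Nat.pow_div hsr two_pos, ← pow_add]
    congr 1
    omega
  have hXQ : 9 * Q₁ ^ 2 * (t - a) ≤ X ^ 2 * tn n := by
    have h1 : (6 * Q₁) ^ 2 ≤ X ^ 2 := pow_le_pow_left₀ (by linarith) hQX 2
    calc 9 * Q₁ ^ 2 * (t - a) ≤ 9 * Q₁ ^ 2 * (4 * tn n) :=
          mul_le_mul_of_nonneg_left hct4 (by positivity)
      _ = (6 * Q₁) ^ 2 * tn n := by ring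
      _ ≤ _ := mul_le_mul_of_nonneg_right h1 hτ.le
  have h := zs_unif (N := 2 ^ r) (l := 2 ^ s) (nb := 2 ^ (r - n)) (q := 2 ^ (n - s)) (Y := Y)
    (Lip := 2 ^ s * tn n * L) (Λ := √(tn n) * Λ) (u := u) hb (pow_dvd_pow 2 hsr) hnq ha hat x₀ hT
    hτ hWn hw hWw hδ hX0 hQ0 hu (fun β => by
      rw [bS_eq_blk hnq]
      exact ap_blk hb hτ hsr hAP _) hXQ
    (fun β => part_blk hb hsn hnr ht1 ht4 ha hat hT x₀ hQ1 hX0 hY hX2 hs1 β)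
    (fun β β' => part_mean hb hsn hnr ht1 ht4 ha hat hT x₀ hY hL2 hs2 β β')
    (part_quad hb hsn hnr ht1 ht4 ha hat x₀ hWn hw hWw hY hu hu2 hs3)
    (part_nrm hb hsn hnr ht1 ht4 ha hat hT x₀ hw hY hu hΛ2 hs3)
    (ν2 := ((2 : ℝ) ^ (r - s)) ^ 2) (by rw [nu_cast hsr])
    (noise1 hb ht4 ha hat hQ0 hY hX2) (noise2 hb hsn ht4 ha hat hY hL2)
    (noise3 hb ht4 ha hat hw hY hu2) (noise4 hb ht4 ha hat hY hΛ2)
  push_cast at h
  exact h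

end thm2

end

end Vale.Agent.P159.H816
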