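import Vale.Agent.P159.H816.Rf1
import Vale.Agent.P159.H816.Tyin

/-!
P159 / **Rq9: the numbers of RF2b** (helper816, for helper896), part 2: `RfV`, `ev_rf`.
-/

set_option linter.unusedSectionVars false

namespace Vale.Agent.P159.H816

open Filter Topology
open Vale.Agent.P159.TM.H764 (EE)
open Vale.Agent.P159.H864 (sym)
open Vale.Agent.P159.H972 (Par lg tn one_le_logb GP AP RNG FL DN)
open Vale.Agent.P159.H239 (Fam Sel TypE)
open Vale.Agent.P159.H801 (Ev PS)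

noncomputable section

/-- the numbers of RF2b, eventually -/
theorem rfn_ev {b C c σ th x1 C0 : ℝ} (J j k : ℕ) (_hb : 0 < b) (_hσ : 0 < σ) (hσ1 : σ ≤ 1)
    (hth : 0 < th) (hx1 : 0 < x1) (h1 : 36 * x1 + th / 8 < σ / 8) (hC0 : 15 < c * C0) :
    ∀ᶠ e in 𝓝[>] (0 : ℝ), RfN b C c σ J j k (e ^ (-(th / 16))) (e ^ (-(6 * x1)))
      (1 + Real.logb 2 (1 / e)) e C0 ∧
      320 * Real.exp (-(e ^ (-(th / 16)) / 20)) ≤ Real.exp (-(e ^ (-(th / 40)))) := by
  filter_upwards [ev_pos, ev_le (show (0 : ℝ) < 1 / 4 by norm_num),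
    ev_ge (show (0 : ℝ) < th / 16 by positivity) (2 ^ (J + 1)),
    ev_ge (show (0 : ℝ) < th / 16 by positivity) (2 ^ (j + k) / 2),
    ev_pow h1 (16 * (1 + b) ^ 2),
    ev_pow (show σ / 4 - 1 < σ / 3 - 1 by linarith) 10,
    ev_small (show 24 * x1 < 1 by linarith) (2 * (1 + b) * b * (C0 + 4)) 1,
    ev_pow (show 1 + th / 8 < 2 by linarith) 6,
    ev_pow (show 12 * x1 < 1 by linarith) 4,
    ev_pow (show th / 8 + 12 * x1 < 1 by linarith) (1 + b),
    ev_pow (show 13 - c * C0 < -2 by linarith) (2 * C),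
    ev_exp (show 0 < th / 16 by positivity) 2 12 (show (0 : ℝ) < 20 by norm_num),
    ev_pow (show σ / 2 - 1 < σ - 1 by linarith) (288 * 16 ^ j + 1),
    ev_pow (show th / 40 < th / 16 by linarith) 40,
    ev_ge (show (0 : ℝ) < th / 40 by positivity) 6]
    with e he he4 g1 g2 g3 g4 g5 g6 g7 g8 g9 g10 g11 g12 g13
  have he1 : e ≤ 1 := by linarith
  have P : ∀ a : ℝ, 0 < e ^ a := fun a => Real.rpow_pos_of_pos he a
  have one : ∀ a : ℝ, 0 ≤ a → (1 : ℝ) ≤ e ^ (-a) := fun a ha =>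
    Real.one_le_rpow_of_pos_of_le_one_of_nonpos he he1 (by linarith)
  have q1 := one (th / 16) (by positivity)
  have e2 : e ^ 2 ≤ e ^ (1 - σ / 4) := by
    rw [← Real.rpow_natCast]
    refine Real.rpow_le_rpow_of_exponent_ge he he1 ?_
    push_cast
    linarith
  have qq : (e ^ (-(th / 16))) ^ 2 = e ^ (-(th / 8)) := by
    rw [rpow_pow' he]
    congr 1
    push_cast
    ring
  constructor
  · refine ⟨he, he4, q1, one _ (by positivity), g1, g2, ?_, ?_, ?_, ?_, ?_, ?_, ?_, ?_, ?_⟩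
    · have h2 : 16 * (1 + b) ^ 2 * (e ^ (-(6 * x1))) ^ 6 * (e ^ (-(th / 16))) ^ 2 * e =
          16 * (1 + b) ^ 2 * e ^ (-(36 * x1 + th / 8)) * e := by
        rw [qq, rpow_pow' he, mul_assoc (16 * (1 + b) ^ 2), ← Real.rpow_add he]
        congr 3
        push_cast
        ring
      rw [h2]
      calc 16 * (1 + b) ^ 2 * e ^ (-(36 * x1 + th / 8)) * e ≤ e ^ (-(σ / 8)) * e :=
            mul_le_mul_of_nonneg_right g3 he.le
        _ = e ^ (1 - σ / 8) := by
          nth_rewrite 2 [← Real.rpow_one e]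
          rw [← Real.rpow_add he]
          congr 1
          ring
    · have e3 : -(σ / 4 - 1) = 1 - σ / 4 := by ring
      have e4 : -(σ / 3 - 1) = 1 - σ / 3 := by ring
      rw [e3, e4] at g4
      linarith
    · refine le_trans (le_of_eq ?_) g5
      rw [rpow_pow' he, pow_one]
      have e3 : ((4 : ℕ) : ℝ) * -(6 * x1) = -(24 * x1) := by push_cast; ring
      rw [e3]
      ring
    · rw [qq]
      have h2 : 2 + 2 * e ^ (-1 : ℝ) * (e ^ (-(th / 8)) + 1 / 2) ≤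
          6 * (e ^ (-1 : ℝ) * e ^ (-(th / 8))) := by
        have a1 := one 1 zero_le_one
        have a2 := one (th / 8) (by positivity)
        have a3 : 1 ≤ e ^ (-1 : ℝ) * e ^ (-(th / 8)) := one_le_mul_of_one_le_of_one_le a1 a2
        have a4 : e ^ (-1 : ℝ) ≤ e ^ (-1 : ℝ) * e ^ (-(th / 8)) := le_mul_of_one_le_right (P _).le a2
        linarith
      refine h2.trans (le_trans (le_of_eq ?_) g6)
      rw [← Real.rpow_add he]
      congr 2
      ring
    · refine le_trans (le_of_eq ?_) g7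
      rw [rpow_pow' he]
      congr 2
      push_cast
      ring
    · rw [qq]
      refine le_trans (le_of_eq ?_) g8
      rw [rpow_pow' he]
      have e3 : ((2 : ℕ) : ℝ) * -(6 * x1) = -(12 * x1) := by push_cast; ring
      rw [e3, mul_left_comm, ← Real.rpow_add he]
      congr 2
      ring
    · have h2 : 2 * C * e ^ (-13 : ℝ) * e ^ (c * C0) = 2 * C * e ^ (-(13 - c * C0)) := by
        rw [mul_assoc (2 * C), ← Real.rpow_add he]
        congr 2
        ring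
      rw [h2]
      refine g9.trans (le_of_eq ?_)
      rw [neg_neg, ← Real.rpow_natCast]
      norm_num
    · have h2 : e ^ (-2 : ℝ) = (e ^ 2)⁻¹ := by
        rw [Real.rpow_neg he.le, ← Real.rpow_natCast]
        norm_num
      rw [h2] at g10
      have h3 : 0 < e ^ 2 := by positivity
      rw [Real.exp_neg, ← div_eq_mul_inv, div_le_iff₀ (Real.exp_pos _)]
      rw [← div_eq_mul_inv, div_le_iff₀ h3] at g10
      linarith
    · have e3 : -(σ / 2 - 1) = 1 - σ / 2 := by ring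
      have e4 : -(σ - 1) = 1 - σ := by ring
      rw [e3, e4] at g11
      have e5 : e ^ 2 ≤ e ^ (1 - σ / 2) := by
        rw [← Real.rpow_natCast]
        refine Real.rpow_le_rpow_of_exponent_ge he he1 ?_
        push_cast
        linarith
      have := P (1 - σ / 2)
      linarith
  · set x : ℝ := e ^ (-(th / 40)) with hx
    set q : ℝ := e ^ (-(th / 16)) with hq
    have h2 : Real.exp (-(q / 20)) ≤ Real.exp (-x) * Real.exp (-6) := by
      rw [← Real.exp_add]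
      refine Real.exp_le_exp.2 ?_
      linarith
    have h3 : 320 * Real.exp (-6) ≤ 1 := by
      have h5 : Real.exp (-6) = (Real.exp (-1)) ^ 6 := by
        rw [← Real.exp_nat_mul]
        congr 1
        push_cast
        ring
      have h6 := Real.exp_neg_one_lt_d9
      have h7 : (Real.exp (-1)) ^ 6 ≤ (0.3679 : ℝ) ^ 6 :=
        pow_le_pow_left₀ (Real.exp_pos _).le (by linarith) 6
      rw [h5]
      norm_num at h7
      linarith
    have := Real.exp_pos (-x)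
    nlinarith

/-- typical sources at the V cells, natural mass, **strong level** (helper896's text) -/
def RfV (P : Par) (b c1 σ : ℝ) : Prop :=
  ∀ (n : ℕ) (e τ a : ℝ), 0 < e → e ≤ P.es → tn n ≤ τ → τ ≤ 4 * tn n → GP P b a n e τ →
    ∀ a0 : ℝ, 1 ≤ a0 → a0 ≤ 8 / 5 → ∀ r, P.TT n e r → FL b (tn n) a0 (17 * e ^ P.pf) (2 ^ r) →
    ∀ s : ℕ, s ≤ P.sE n e → n ≤ 2 * s → ((n : ℝ) - s) ≤ e ^ (-(2 * c1)) →
    ∀ a', 0 < a' → a' < tn n → ∀ [NeZero (2 ^ r / 2 ^ s)],
      TypE (2 ^ r) (2 ^ s) b (tn n) a' 1 (e ^ (1 - σ)) (Real.exp (-(e ^ (-(P.th / 40)))))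

/-- change of the stiffness -/
lemma FL.chg {b t a a1 η η1 : ℝ} {N : ℕ} [NeZero N] (h : FL b t a η N) (ht : 0 < t)
    (h1 : η + |a - a1| ≤ η1) : FL b t a1 η1 N := by
  obtain ⟨z, a', hz, hz1, ha, hk⟩ := h
  have h0 := abs_nonneg (a - a1)
  refine ⟨z, a', hz, hz1.trans (by linarith), ?_, fun k hk0 => ?_⟩
  · have h2 : a' - a1 = (a' - a) + (a - a1) := by ring
    rw [h2]
    exact (abs_add_le _ _).trans (by linarith)
  · refine (hk k hk0).trans ?_
    have h3 : η ≤ η1 := by linarith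
    have h5 : 0 ≤ EE k ^ 2 := sq_nonneg _
    gcongr

/-- the cell covariance of a state -/
lemma sym_ten {b τ a a0 η : ℝ} {n r S : ℕ} [NeZero (2 ^ r / 2 ^ S)] (hb : 0 < b)
    (hnr : n + 3 ≤ r) (hSn : S + 2 ≤ n) (h1 : tn n ≤ τ) (h4 : τ ≤ 4 * tn n) (ha1 : 1 ≤ a0)
    (ha2 : a0 ≤ 8 / 5) (hη : η ≤ 1 / 200) (F0 : FL b (tn n) a0 (17 * η) (2 ^ r))
    (F1 : FL b (tn n) a η (2 ^ r)) (F4 : FL b (4 * tn n) a η (2 ^ r))
    (k : TM.Spec.V (2 ^ r / 2 ^ S)) :
    sym (H363.acl (2 ^ r) (2 ^ S) b τ τ) k ≤ 10 * EE k := by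
  have ht : 0 < tn n := tn_pos n
  have hη0 : 0 ≤ η := by
    obtain ⟨z, a1, _, _, ha, _⟩ := F1
    exact (abs_nonneg _).trans ha
  have hN : 40 ≤ tn n * (((2 : ℕ) ^ r : ℕ) : ℝ) ^ 2 := by
    rw [tn_N2 (by omega)]
    have h2 : (2 : ℝ) ^ 3 ≤ 2 ^ (r - n) := pow_le_pow_right₀ one_le_two (by omega)
    have h3 := pow_le_pow_left₀ (by positivity) h2 2
    norm_num at h3
    linarith
  have hN2 : 2 ≤ 2 ^ r := by
    calc 2 = 2 ^ 1 := by norm_num
      _ ≤ 2 ^ r := Nat.pow_le_pow_right two_pos (by omega)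
  have hd := H972.FL.det hN hN2 F1 F0
  have habs := abs_le.1 hd
  have hF : FL b (4 * tn n) (max a 1) (73 * η) (2 ^ r) := by
    refine FL.chg F4 (by positivity) ?_
    rcases le_total a 1 with h | h
    · rw [max_eq_right h, abs_of_nonpos (by linarith)]
      linarith
    · rw [max_eq_left h, sub_self, abs_zero]
      linarith
  have hτS := tau_S (S := S) h4 hSn
  have h2 : max a 1 ≤ 2 := max_le (by linarith) (by norm_num)
  have h3 := H375.sym_acl_topT (l := 2 ^ S) (T := τ) hb (pow_dvd_pow 2 (by omega))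
    (ht.trans_le h1) h4 (le_max_right a 1) h2 (by linarith) (by push_cast; exact hτS) hF k
  refine h3.trans (mul_le_mul_of_nonneg_right ?_ (TM.H764.EE_nonneg k))
  push_cast
  linarith

/-- **Rq9** (helper896): the strong level at the V cells -/
theorem ev_rf {b b1 b2 pf : ℝ} (hb1 : 0 < b1) (h1 : b1 ≤ b) (hpf : 0 < pf) (Q : ℕ) {σ : ℝ}
    (hσ : 0 < σ) : Ev b1 b2 pf Q fun P c1 => RfV P b c1 σ := by
  have hb : 0 < b := hb1.trans_le h1
  obtain ⟨C, c, hC, hc, hc1, H⟩ := rf_state hb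
  set s0 : ℝ := min σ 1 with hs0
  have s0p : 0 < s0 := lt_min hσ one_pos
  have s01 : s0 ≤ 1 := min_le_right _ _
  have s0σ : s0 ≤ σ := min_le_left _ _
  obtain ⟨J, hJ⟩ := exists_pow_lt_of_lt_one (show (0 : ℝ) < s0 / 8 by positivity)
    (show (1 / 2 : ℝ) < 1 by norm_num)
  obtain ⟨j, hj⟩ := pow_unbounded_of_one_lt (4 * √(1 + 20 * b)) (one_lt_two (α := ℝ))
  have hnum : Ev b1 b2 pf Q fun P _ => ∀ e, 0 < e → e ≤ P.es →
      (RfN b C c s0 J j J (e ^ (-(P.th / 16))) (e ^ (-(6 * P.x1))) (1 + Real.logb 2 (1 / e)) e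
        P.C0 ∧ 320 * Real.exp (-(e ^ (-(P.th / 16)) / 20)) ≤ Real.exp (-(e ^ (-(P.th / 40))))) ∧
        e ^ P.pf ≤ 1 / 200 ∧ 4 ≤ P.C0 := by
    refine ev_num Q (x0 := s0 / 400) (16 / c + 4) (by positivity)
      fun x1 thp th C0 hth htt htx hx hC0 => ?_
    have hx1 : 0 < x1 := by linarith
    have h16 : 0 < 16 / c := by positivity
    have hcC : 15 < c * C0 := by
      have h2 : 16 / c ≤ C0 := by linarith
      rw [div_le_iff₀ hc] at h2
      linarith
    filter_upwards [rfn_ev (C := C) (c := c) (σ := s0) J j J hb s0p s01 hth hx1 (by linarith) hcC,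
      ev_ge hpf 200, ev_pos] with e g1 g2 he
    intro P e1 e2 e3 e4 e5
    rw [e1, e3, e4, e5]
    refine ⟨g1, ?_, by linarith⟩
    rw [Real.rpow_neg he.le] at g2
    have h := inv_anti₀ (by norm_num : (0 : ℝ) < 200) g2
    rw [inv_inv] at h
    refine h.trans (by norm_num)
  refine ((((ev_typB (b2 := b2) hb1 h1 hpf Q).and (ev_typV (b2 := b2) hb1 h1 hpf Q)).and hnum).and
    (ev_M (b1 := b1) (b2 := b2) (pf := pf) Q)).mono fun P c1 hadm hT => ?_
  obtain ⟨⟨⟨hB, hV⟩, hN⟩, hM⟩ := hT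
  intro n e τ a he hes h1τ h4τ hG a0 ha1 ha2 r hr F0 s hsE hns hnR a' ha haT _
  obtain ⟨⟨nm, hpr⟩, hpf2, hC04⟩ := hN e he hes
  obtain ⟨hM1, hM2⟩ := hM n e r he hes hr
  obtain ⟨F1, F4⟩ := hG.flat r hr
  have he4 := nm.e1
  have he1 : e ≤ 1 := by linarith
  have hl := one_le_logb he (by linarith)
  have hnE := hG.nE
  have hsE' : P.sE n e = n - lg P.C0 e := rfl
  have hlg2 : P.C0 * Real.logb 2 (1 / e) ≤ (lg P.C0 e : ℝ) := Nat.le_ceil _
  have hlg1 : (lg P.C0 e : ℝ) ≤ P.C0 * Real.logb 2 (1 / e) + 1 :=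
    (Nat.ceil_lt_add_one (by positivity)).le
  have hlg4 : 4 ≤ lg P.C0 e := by
    have h2 : (4 : ℝ) ≤ (lg P.C0 e : ℝ) := le_trans (by nlinarith) hlg2
    exact_mod_cast h2
  have hrk : n + 3 ≤ r := by
    have h6 : 3 ≤ P.kE e := hadm.hk.trans (H972.lg_anti P.th0.le he hes)
    have := hr.1
    omega
  have hne : NeZero (2 ^ r / 2 ^ P.sE n e) := ⟨by
    rw [hsE', Nat.pow_div (by omega) two_pos]
    positivity⟩
  have hsr : (2 ^ r / 2 ^ s : ℕ) ≠ 0 := by
    rw [Nat.pow_div (by omega) two_pos]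
    positivity
  have hds : 2 ^ s ∣ 2 ^ r := pow_dvd_pow 2 (by omega)
  have hG2 : (2 : ℝ) ^ P.sE n e ≤ 2 ^ n * e ^ P.C0 := by
    have h2 : e ^ (-P.C0) ≤ (2 : ℝ) ^ lg P.C0 e := H276.le_two_lg he
    have h3 : (2 : ℝ) ^ n = 2 ^ P.sE n e * 2 ^ lg P.C0 e := by
      rw [← pow_add]
      congr 1
      omega
    have pC : 0 < e ^ P.C0 := Real.rpow_pos_of_pos he _
    rw [Real.rpow_neg he.le, inv_le_iff_one_le_mul₀ pC] at h2
    calc (2 : ℝ) ^ P.sE n e = 2 ^ P.sE n e * 1 := (mul_one _).symm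
      _ ≤ 2 ^ P.sE n e * (2 ^ lg P.C0 e * e ^ P.C0) :=
        mul_le_mul_of_nonneg_left h2 (by positivity)
      _ = _ := by rw [h3]; ring
  have hrS : ((r - P.sE n e : ℕ) : ℝ) ≤ (P.C0 + 2) * (1 + Real.logb 2 (1 / e)) := by
    have h2 : r - P.sE n e = (r - n) + lg P.C0 e := by omega
    rw [h2]
    push_cast
    nlinarith
  have key := H s0 P.C0 _ _ _ e J j J s0p s01 hJ.le hJ.le hj.le (by linarith) nm n r (P.sE n e) s
    (by omega) (by omega) hsE hM1 hrS hG2 τ a' h1τ h4τ (hG.D r hr) ha haT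
    (sym_ten hb hrk (by omega) h1τ h4τ ha1 ha2 hpf2 F0 F1 F4)
    ((hB n e τ a he hes h1τ h4τ hG r hr a' ha).1 (haT.trans_le h1τ))
    (((hB n e τ a he hes h1τ h4τ hG r hr a' ha).2 haT).mono hb.le (pow_dvd_pow 2 (by omega)) ha
      haT.le (Real.rpow_pos_of_pos he _).le le_rfl (Real.rpow_le_one he.le he1 (by norm_num)) le_rfl)
    (hV n e τ a he hes hG r hr s hsE hns hnR (tn n) le_rfl (by linarith [tn_pos n]) a' ha haT)
  refine key.mono hb.le hds ha haT.le zero_le_one le_rfl ?_ hpr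
  exact Real.rpow_le_rpow_of_exponent_ge he he1 (by linarith)

end

end Vale.Agent.P159.H816
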