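import Vale.Agent.P159.H730.Apt2
import Vale.Agent.P159.H789.TaE
import Vale.Agent.P159.H30.RF1
import Vale.Agent.P159.H816.Zs3
import Vale.Agent.P159.H276.Eta3
import Vale.Agent.P159.H239.FamEv

/-!
P159 / (A) TypE in the letters of `Good` (helper816), part 0: the numbers.

* `ev_small`, `ev_exp` : powers of the logarithm against powers, powers against exponentials;
* `Sm B q m G R e cp` : finitely many smallness facts (`q = e^(-th/16)`, `m = e^(-6 x1)`,
  `G = e^(-C0)`, `R = 1 + log2 (1/e)`), true for every `B` and all small `e` (`sm_ev`);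
* `Lv` : the level data.
-/

set_option linter.unusedSectionVars false

namespace Vale.Agent.P159.H816

open Filter Topology
open Vale.Agent.P159.H972 (Par lg tn one_le_logb)

noncomputable section

section asym

/-- the logarithm is at most any power -/
lemma logb_le {d e : ℝ} (hd : 0 < d) (he : 0 < e) (he1 : e ≤ 1) :
    1 + Real.logb 2 (1 / e) ≤ (1 + 1 / (d * Real.log 2)) * e ^ (-d) := by
  have h2 : 0 < Real.log 2 := Real.log_pos one_lt_two
  have h1 := Real.log_le_rpow_div (x := 1 / e) (by positivity) hd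
  have e1 : (1 / e) ^ d = e ^ (-d) := by
    rw [one_div, Real.inv_rpow he.le, Real.rpow_neg he.le]
  rw [e1] at h1
  have h3 : (1 : ℝ) ≤ e ^ (-d) := Real.one_le_rpow_of_pos_of_le_one_of_nonpos he he1 (by linarith)
  have h4 : Real.logb 2 (1 / e) ≤ 1 / (d * Real.log 2) * e ^ (-d) := by
    unfold Real.logb
    rw [div_le_iff₀ h2]
    refine h1.trans (le_of_eq ?_)
    field_simp
  calc 1 + Real.logb 2 (1 / e) ≤ e ^ (-d) + 1 / (d * Real.log 2) * e ^ (-d) := by linarith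
    _ = _ := by ring

/-- `e ^ (-d)` is eventually large -/
lemma ev_ge {d : ℝ} (hd : 0 < d) (C : ℝ) : ∀ᶠ e in 𝓝[>] (0 : ℝ), C ≤ e ^ (-d) := by
  have h1 : Tendsto (fun e : ℝ => e ^ (-d)) (𝓝[>] 0) atTop :=
    tendsto_rpow_neg_nhdsGT_zero (by linarith)
  exact h1.eventually_ge_atTop C

lemma ev_pos : ∀ᶠ e in 𝓝[>] (0 : ℝ), 0 < e := eventually_mem_nhdsWithin

lemma ev_le {E : ℝ} (hE : 0 < E) : ∀ᶠ e in 𝓝[>] (0 : ℝ), e ≤ E := by
  filter_upwards [Ioc_mem_nhdsGT hE] with e he using he.2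

/-- powers of the logarithm against powers -/
theorem ev_small {a b : ℝ} (hab : a < b) (C : ℝ) (k : ℕ) :
    ∀ᶠ e in 𝓝[>] (0 : ℝ), C * (1 + Real.logb 2 (1 / e)) ^ k * e ^ (-a) ≤ e ^ (-b) := by
  set d : ℝ := (b - a) / (2 * (k + 1)) with hd
  have hk : (0 : ℝ) ≤ k := Nat.cast_nonneg k
  have hd0 : 0 < d := by
    rw [hd]
    have : 0 < b - a := by linarith
    positivity
  set A : ℝ := 1 + 1 / (d * Real.log 2) with hA
  have h2 : 0 < Real.log 2 := Real.log_pos one_lt_two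
  have hA0 : 0 < A := by rw [hA]; positivity
  have hkd : (k : ℝ) * d ≤ (b - a) / 2 := by
    rw [hd]
    rw [mul_div_assoc', div_le_div_iff₀ (by positivity) (by norm_num)]
    nlinarith
  have hc0 : 0 < b - a - k * d := by linarith
  filter_upwards [ev_pos, ev_le one_pos, ev_ge hc0 (|C| * A ^ k)] with e he he1 hE
  have hl := logb_le hd0 he he1
  have hl0 : 0 ≤ 1 + Real.logb 2 (1 / e) := by
    have : 0 ≤ Real.logb 2 (1 / e) := H972.logb_nonneg' he he1
    linarith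
  have h3 : (1 + Real.logb 2 (1 / e)) ^ k ≤ A ^ k * e ^ (-(k * d)) := by
    refine (pow_le_pow_left₀ hl0 hl k).trans (le_of_eq ?_)
    rw [mul_pow, ← Real.rpow_natCast (e ^ (-d)), ← Real.rpow_mul he.le]
    congr 2
    ring
  have hea : 0 < e ^ (-a) := Real.rpow_pos_of_pos he _
  have hek : 0 < e ^ (-(k * d)) := Real.rpow_pos_of_pos he _
  calc C * (1 + Real.logb 2 (1 / e)) ^ k * e ^ (-a)
      ≤ |C| * (1 + Real.logb 2 (1 / e)) ^ k * e ^ (-a) := by
        refine mul_le_mul_of_nonneg_right (mul_le_mul_of_nonneg_right (le_abs_self C) ?_) hea.le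
        positivity
    _ ≤ |C| * (A ^ k * e ^ (-(k * d))) * e ^ (-a) := by
        refine mul_le_mul_of_nonneg_right (mul_le_mul_of_nonneg_left h3 (abs_nonneg C)) hea.le
    _ = (|C| * A ^ k) * (e ^ (-(k * d)) * e ^ (-a)) := by ring
    _ ≤ e ^ (-(b - a - k * d)) * (e ^ (-(k * d)) * e ^ (-a)) :=
        mul_le_mul_of_nonneg_right hE (by positivity)
    _ = e ^ (-b) := by
        rw [← Real.rpow_add he, ← Real.rpow_add he]
        congr 1
        ring

/-- powers against powers -/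
theorem ev_pow {a b : ℝ} (hab : a < b) (C : ℝ) :
    ∀ᶠ e in 𝓝[>] (0 : ℝ), C * e ^ (-a) ≤ e ^ (-b) := by
  filter_upwards [ev_small hab C 0] with e he
  rwa [pow_zero, mul_one] at he

/-- powers against exponentials -/
theorem ev_exp {b : ℝ} (hb : 0 < b) (a C : ℝ) {D : ℝ} (hD : 0 < D) :
    ∀ᶠ e in 𝓝[>] (0 : ℝ), C * e ^ (-a) ≤ Real.exp (e ^ (-b) / D) := by
  have h1 : Tendsto (fun e : ℝ => e ^ (-b) / D) (𝓝[>] 0) atTop :=
    (tendsto_rpow_neg_nhdsGT_zero (by linarith)).atTop_div_const hD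
  have h2 := (tendsto_exp_div_rpow_atTop (|a| / b)).comp h1
  filter_upwards [ev_pos, ev_le one_pos, h2.eventually_ge_atTop (|C| * D ^ (|a| / b))] with e he he1 h3
  have hx : 0 < e ^ (-b) := Real.rpow_pos_of_pos he _
  have h4 : (0 : ℝ) < (e ^ (-b) / D) ^ (|a| / b) := by positivity
  simp only [Function.comp] at h3
  rw [le_div_iff₀ h4] at h3
  have h5 : |C| * D ^ (|a| / b) * (e ^ (-b) / D) ^ (|a| / b) = |C| * e ^ (-|a|) := by
    rw [Real.div_rpow hx.le hD.le, ← Real.rpow_mul he.le]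
    have h6 : -b * (|a| / b) = -|a| := by field_simp
    rw [h6]
    have : D ^ (|a| / b) ≠ 0 := (Real.rpow_pos_of_pos hD _).ne'
    field_simp
  rw [h5] at h3
  refine le_trans ?_ h3
  have h7 : e ^ (-a) ≤ e ^ (-|a|) :=
    Real.rpow_le_rpow_of_exponent_ge he he1 (neg_le_neg (le_abs_self a))
  calc C * e ^ (-a) ≤ |C| * e ^ (-a) :=
        mul_le_mul_of_nonneg_right (le_abs_self C) (Real.rpow_pos_of_pos he _).le
    _ ≤ |C| * e ^ (-|a|) := mul_le_mul_of_nonneg_left h7 (abs_nonneg C)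

/-- the level is large -/
lemma ev_lin {C0 : ℝ} (hC : 0 < C0) (B : ℝ) :
    ∀ᶠ e in 𝓝[>] (0 : ℝ), ∀ n : ℕ, 4 * lg C0 e ≤ n → B * (n + 1) ≤ 2 ^ n := by
  have h1 : ∀ᶠ n : ℕ in atTop, B * ((n : ℝ) + 1) ≤ 2 ^ n := by
    have h2 : Tendsto (fun n : ℕ => ((n : ℝ) + 1) / 2 ^ n) atTop (𝓝 0) := by
      have h3 := tendsto_pow_const_div_const_pow_of_one_lt 1 (one_lt_two (α := ℝ))
      have h4 : Tendsto (fun n : ℕ => (1 : ℝ) / 2 ^ n) atTop (𝓝 0) := by
        have := tendsto_pow_const_div_const_pow_of_one_lt 0 (one_lt_two (α := ℝ))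
        simpa using this
      have h5 := h3.add h4
      simp only [pow_one, add_zero] at h5
      refine h5.congr fun n => ?_
      rw [← add_div]
    have h6 := h2.const_mul B
    rw [mul_zero] at h6
    filter_upwards [h6.eventually_le_const (show (0 : ℝ) < 1 by norm_num)] with n hn
    rw [mul_div_assoc', div_le_one (by positivity)] at hn
    exact hn
  obtain ⟨n0, hn0⟩ := eventually_atTop.1 h1
  have h2 : Tendsto (fun e : ℝ => C0 * Real.logb 2 (1 / e)) (𝓝[>] 0) atTop := by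
    refine Tendsto.const_mul_atTop hC ?_
    have h3 : Tendsto (fun e : ℝ => 1 / e) (𝓝[>] 0) atTop := by
      simpa using tendsto_inv_nhdsGT_zero (𝕜 := ℝ)
    exact (Real.tendsto_logb_atTop one_lt_two).comp h3
  filter_upwards [h2.eventually_ge_atTop (n0 : ℝ)] with e he n hn
  refine hn0 n ?_
  have h3 : n0 ≤ lg C0 e := by
    have h4 := he.trans (Nat.le_ceil (C0 * Real.logb 2 (1 / e)))
    exact_mod_cast h4
  omega

end asym

section sm

/-- smallness facts -/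
structure Sm (B q m G R e cp : ℝ) : Prop where
  e0 : 0 < e
  e1 : e ≤ 1 / 4
  q1 : 1 ≤ q
  m1 : 1 ≤ m
  G1 : 1 ≤ G
  R1 : 1 ≤ R
  f1 : B * R ^ 5 ≤ q
  f2 : B * m ^ 3 * q ^ 2 ≤ e ^ (-(1 / 40) : ℝ)
  f3 : B * m ^ 4 * q ^ 4 * e ^ cp ≤ 1
  f5 : B * m ^ 6 * (e ^ (-cp) + q ^ 8 + e ^ (-2 : ℝ)) ≤ G ^ 2
  f6 : B * m ^ 2 * q ^ 2 ≤ e ^ (-2 : ℝ)
  f7 : B * q ≤ e ^ (-1 : ℝ)
  f8 : B * m ^ 4 ≤ Real.exp q
  f9 : e ^ (-(1 / 8) : ℝ) ≤ Real.exp (q ^ 16 / B)
  f10 : B * q ^ 16 * e ^ (1 / 4 : ℝ) ≤ 1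
  f12 : e ^ (1 / 16 : ℝ) ≤ 1 / 2

lemma rpow_pow' {e a : ℝ} (he : 0 < e) (k : ℕ) : (e ^ a) ^ k = e ^ (k * a) := by
  rw [← Real.rpow_natCast (e ^ a), ← Real.rpow_mul he.le, mul_comm a]

theorem sm_ev {th x1 C0 cp : ℝ} (hth : 0 < th) (hx1 : 0 < x1) (hC0 : 0 < C0)
    (h2 : 18 * x1 + th / 8 < 1 / 40) (h3 : 24 * x1 + th / 4 < cp)
    (h5a : 36 * x1 + cp < 2 * C0) (h5b : 36 * x1 + th / 2 < 2 * C0) (h5c : 36 * x1 + 2 < 2 * C0)
    (B : ℝ) (hB : 0 < B) :
    ∀ᶠ e in 𝓝[>] (0 : ℝ), Sm B (e ^ (-(th / 16))) (e ^ (-(6 * x1))) (e ^ (-C0))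
      (1 + Real.logb 2 (1 / e)) e cp := by
  have hth2 : th < 1 / 5 := by linarith
  have hx : x1 < 1 / 720 := by linarith
  filter_upwards [ev_pos, ev_le (show (0 : ℝ) < 1 / 4 by norm_num),
    ev_small (show (0 : ℝ) < th / 16 by positivity) B 5,
    ev_pow (show 18 * x1 + th / 8 < 1 / 40 from h2) B,
    ev_pow (show 24 * x1 + th / 4 < cp from h3) B,
    ev_pow (show 36 * x1 + cp < 2 * C0 from h5a) (3 * B),
    ev_pow (show 36 * x1 + th / 2 < 2 * C0 from h5b) (3 * B),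
    ev_pow (show 36 * x1 + 2 < 2 * C0 from h5c) (3 * B),
    ev_pow (show 12 * x1 + th / 8 < 2 by linarith) B,
    ev_pow (show th / 16 < 1 by linarith) B,
    ev_exp (show 0 < th / 16 by positivity) (24 * x1) B one_pos,
    ev_exp (show 0 < th by positivity) (1 / 8) 1 hB,
    ev_pow (show th < 1 / 4 by linarith) B,
    ev_ge (show (0 : ℝ) < 1 / 16 by norm_num) 2] with e he he4 g1 g2 g3 g5 g6 g7 g8 g9 g10 g11 g12 g13
  have he1 : e ≤ 1 := by linarith
  have hR := one_le_logb he (by linarith)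
  have P : ∀ a : ℝ, 0 < e ^ a := fun a => Real.rpow_pos_of_pos he a
  have one : ∀ a : ℝ, 0 ≤ a → (1 : ℝ) ≤ e ^ (-a) := fun a ha =>
    Real.one_le_rpow_of_pos_of_le_one_of_nonpos he he1 (by linarith)
  refine ⟨he, he4, one _ (by positivity), one _ (by positivity), one _ hC0.le, by linarith, ?_, ?_,
    ?_, ?_, ?_, ?_, ?_, ?_, ?_, ?_⟩
  · rw [neg_zero, Real.rpow_zero, mul_one] at g1
    exact g1
  · refine le_trans (le_of_eq ?_) g2
    rw [rpow_pow' he, rpow_pow' he, mul_assoc, ← Real.rpow_add he]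
    congr 2
    push_cast
    ring
  · have e1 : B * (e ^ (-(6 * x1))) ^ 4 * (e ^ (-(th / 16))) ^ 4 * e ^ cp =
        B * e ^ (-(24 * x1 + th / 4)) * e ^ cp := by
      rw [rpow_pow' he, rpow_pow' he, mul_assoc B, ← Real.rpow_add he]
      congr 3
      push_cast
      ring
    rw [e1]
    calc B * e ^ (-(24 * x1 + th / 4)) * e ^ cp ≤ e ^ (-cp) * e ^ cp :=
          mul_le_mul_of_nonneg_right g3 (P _).le
      _ = 1 := by rw [← Real.rpow_add he, neg_add_cancel, Real.rpow_zero]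
  · have e1 : B * (e ^ (-(6 * x1))) ^ 6 * (e ^ (-cp) + (e ^ (-(th / 16))) ^ 8 + e ^ (-2 : ℝ)) =
        (B * e ^ (-(36 * x1 + cp)) + B * e ^ (-(36 * x1 + th / 2)) + B * e ^ (-(36 * x1 + 2))) := by
      rw [rpow_pow' he, rpow_pow' he, mul_add, mul_add, mul_assoc B, mul_assoc B, mul_assoc B,
        ← Real.rpow_add he, ← Real.rpow_add he, ← Real.rpow_add he]
      congr 3
      · congr 2
        push_cast
        ring
      · congr 1
        push_cast
        ring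
      · push_cast
        ring
    rw [e1, rpow_pow' he]
    have e2 : ((2 : ℕ) : ℝ) * -C0 = -(2 * C0) := by push_cast; ring
    rw [e2]
    linarith
  · refine le_trans (le_of_eq ?_) g8
    rw [rpow_pow' he, rpow_pow' he, mul_assoc, ← Real.rpow_add he]
    congr 2
    push_cast
    ring
  · exact g9
  · rw [div_one] at g10
    refine le_trans (le_of_eq ?_) g10
    rw [rpow_pow' he]
    congr 2
    push_cast
    ring
  · rw [one_mul] at g11
    refine g11.trans (le_of_eq ?_)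
    rw [rpow_pow' he]
    congr 3
    push_cast
    ring
  · rw [rpow_pow' he]
    have e1 : ((16 : ℕ) : ℝ) * -(th / 16) = -th := by push_cast; ring
    rw [e1]
    calc B * e ^ (-th) * e ^ (1 / 4 : ℝ) ≤ e ^ (-(1 / 4) : ℝ) * e ^ (1 / 4 : ℝ) :=
          mul_le_mul_of_nonneg_right g12 (P _).le
      _ = 1 := by rw [← Real.rpow_add he, neg_add_cancel, Real.rpow_zero]
  · rw [Real.rpow_neg he.le] at g13
    have h := inv_anti₀ two_pos g13
    rw [inv_inv] at h
    refine h.trans (by norm_num)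

end sm

end

end Vale.Agent.P159.H816
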