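import Vale.Agent.P159.H816.Ht
import Vale.Agent.P159.H789.Ray
import Vale.Agent.P159.H663.Prop

/-!
P159 / module HT (helper816): where `(SG)` comes from.

* `sg_Cm`, `ht_Cm`   : covariance domination in every source, centre `E_J h`, `c₀ = 0`;
* `sg_base`, `ht_base`: domination at source `0` only and `Rs ≥ 0`; centre `H J`,
                       `c₀ = c + <J,(H-G) J>/2`  (FINE part of the propagation);
* `sg_one`, `sg_conv` : convexity of `Rs` and domination at source `0`, centre `G J`,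
                       `c₀ = (1-d) R(J/(1-d)) - R(J)`, `G₀ = G + (H-G)/d`.
-/

set_option linter.unusedSectionVars false

namespace Vale.Agent.P159.H816

open Finset Matrix MeasureTheory ProbabilityTheory
open Vale.Agent.P159.TM.H104 (EM Ex Cv K3 Lg li nh Gr)
open Vale.Agent.P159.H37

noncomputable section

/-! ### covariance domination in every source -/

section every

variable {V K : Type*} [Fintype V] [Fintype K] {μ : (V → ℤ) → ℝ}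

lemma dot_mn (hμ : EM μ) (J u : V → ℝ) : u ⬝ᵥ mn μ J = Ex μ J (li u) := by
  unfold dotProduct mn
  have e : li u = fun h : V → ℤ => ∑ x, u x * (h x : ℝ) := by
    funext h
    rfl
  have hg : ∀ x : V, Gr fun h : V → ℤ => u x * (h x : ℝ) := fun x => by
    refine Gr.cmul _ (Gr.mk' (A := 1) (B := 1) fun h => ?_)
    have h1 : |(h x : ℝ)| ≤ nh h := by
      unfold nh
      exact Finset.single_le_sum (f := fun x => |(h x : ℝ)|) (fun y _ => abs_nonneg _)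
        (Finset.mem_univ x)
    have h2 : nh h ≤ Real.exp (nh h) := by
      have := Real.add_one_le_exp (nh h)
      linarith
    rw [one_mul, one_mul]
    exact h1.trans h2
  rw [e, H114.Ex_sum hμ J Finset.univ hg]
  exact Finset.sum_congr rfl fun x _ => (TM.H104.Ex_cmul _ _ _).symm

/-- Taylor: the increment of `Lg` from the covariance on the segment -/
lemma Lg_taylor (hμ : EM μ) (J u : V → ℝ) {C : ℝ}
    (hC : ∀ s ∈ Set.Icc (0 : ℝ) 1, qf (Cm μ (J + s • u)) u ≤ C) :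
    Lg μ (J + u) - Lg μ J - Ex μ J (li u) ≤ C / 2 := by
  have h1 : ∀ s, HasDerivAt (fun s : ℝ => Lg μ (J + s • u) - Lg μ J - s * Ex μ J (li u))
      (Ex μ (J + s • u) (li u) - Ex μ J (li u)) s := fun s => by
    have h2 := (TM.H104.hasDerivAt_Lg hμ J u s).sub_const (Lg μ J)
    have h3 : HasDerivAt (fun s : ℝ => s * Ex μ J (li u)) (Ex μ J (li u)) s := by
      simpa using (hasDerivAt_id s).mul_const (Ex μ J (li u))
    exact h2.sub h3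
  have h2 : ∀ s, HasDerivAt (fun s : ℝ => Ex μ (J + s • u) (li u) - Ex μ J (li u))
      (Cv μ (J + s • u) (li u) (li u)) s := fun s =>
    (TM.H104.hasDerivAt_Ex hμ (Gr.li u) J u s).sub_const _
  have h3 := H663.taylor_le h1 h2 (by simp) (by simp) (K := C) fun s hs => by
    have := hC s hs
    rwa [H789.qf_Cm hμ] at this
  simpa using h3

/-- `(SG)` from the covariance in every source -/
theorem sg_Cm (hμ : EM μ) (A : Matrix K V ℝ) {S : Matrix K K ℝ}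
    (hC : ∀ (J : V → ℝ) (φ : K → ℝ), qf (Cm μ J) (Aᵀ *ᵥ φ) ≤ qf S φ) (J : V → ℝ) (φ : K → ℝ) :
    Lg μ (J + Aᵀ *ᵥ φ) - Lg μ J - (Aᵀ *ᵥ φ) ⬝ᵥ mn μ J ≤ 0 + qf S φ / 2 := by
  rw [dot_mn hμ, zero_add]
  exact Lg_taylor hμ J _ fun s _ => hC _ _

/-- **Chernoff in every source** (LOW part): `P_J (|A (h - E_J h)|² ≥ a) ≤ exp (θ tr S - θ a/2)` -/
theorem ht_Cm (hμ : EM μ) (A : Matrix K V ℝ) {S : Matrix K K ℝ} (hS : Sᵀ = S)
    (hC : ∀ (J : V → ℝ) (φ : K → ℝ), qf (Cm μ J) (Aᵀ *ᵥ φ) ≤ qf S φ)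
    {θ : ℝ} (hθ : 0 ≤ θ) (h1 : ∀ φ : K → ℝ, θ * qf S φ ≤ (∑ k, φ k ^ 2) / 2) (J : V → ℝ) (a : ℝ) :
    Ex μ J ({h : V → ℤ | a ≤ ∑ k, (A *ᵥ (re h - mn μ J)) k ^ 2}.indicator fun _ => (1 : ℝ)) ≤
      Real.exp (θ * S.trace - θ * a / 2) := by
  have h := htS hμ J (mn μ J) A hS
    (fun φ => (H114.qf_Cm_nonneg hμ J (Aᵀ *ᵥ φ)).trans (hC J φ)) (sg_Cm hμ A hC J) hθ h1 a
  rwa [zero_add] at h

end every

/-! ### domination at source `0`, positivity of `Rs` -/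

section base

variable {V K : Type*} [Fintype V] [Fintype K] {μ : (V → ℤ) → ℝ}

lemma Lg_Rs (μ : (V → ℤ) → ℝ) (J : V → ℝ) : Lg μ J = Lg μ 0 + qf (Gm μ) J / 2 + Rs μ J := by
  unfold Rs
  ring

/-- the offset `c + <J,(H-G) J>/2` -/
def cB (μ : (V → ℤ) → ℝ) (H : Matrix V V ℝ) (c : ℝ) (J : V → ℝ) : ℝ := c + qf (H - Gm μ) J / 2

/-- `(SG)` at the source `J`, centre `H J`, from the domination of `Lg (J+u) - Lg 0` -/
theorem sg_base {H : Matrix V V ℝ} (hH : Hᵀ = H) {J u : V → ℝ} {c : ℝ} (hR : 0 ≤ Rs μ J)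
    (hd : Lg μ (J + u) - Lg μ 0 ≤ c + qf H (J + u) / 2) :
    Lg μ (J + u) - Lg μ J - u ⬝ᵥ (H *ᵥ J) ≤ cB μ H c J + qf H u / 2 := by
  unfold cB
  have e : bf H J u = u ⬝ᵥ (H *ᵥ J) := by rw [bf_comm hH, bf_eq]
  rw [Lg_Rs μ J, H663.qf_sub_mat]
  rw [qf_add_vec hH, e] at hd
  linarith

/-- **FINE part**: sharp domination of `Lg (J+u) - Lg 0` for `u ∈ U`, crude for all `u`;
centre `H J`. The matrix `H'` of the crude domination only needs `H ≤ H'`. -/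
theorem ht_base (hμ : EM μ) {J : V → ℝ} (hR : 0 ≤ Rs μ J) {H H' : Matrix V V ℝ} {c c' : ℝ}
    (hH : Hᵀ = H) (h0 : ∀ u : V → ℝ, 0 ≤ qf H u) (hH' : H'ᵀ = H')
    (hHH : ∀ u : V → ℝ, qf H u ≤ qf H' u) {U : Set (V → ℝ)} (hU : MeasurableSet U)
    (hd : ∀ u ∈ U, Lg μ (J + u) - Lg μ 0 ≤ c + qf H (J + u) / 2)
    (hd' : ∀ u, Lg μ (J + u) - Lg μ 0 ≤ c' + qf H' (J + u) / 2)
    (A : Matrix K V ℝ) {θ : ℝ} (hθ : 0 ≤ θ)
    (h1 : ∀ φ : K → ℝ, θ * qf H (Aᵀ *ᵥ φ) ≤ (∑ k, φ k ^ 2) / 2)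
    (h1' : ∀ φ : K → ℝ, θ * qf H' (Aᵀ *ᵥ φ) ≤ (∑ k, φ k ^ 2) / 8) (a : ℝ) :
    Ex μ J ({h : V → ℤ | a ≤ ∑ k, (A *ᵥ (re h - H *ᵥ J)) k ^ 2}.indicator fun _ => (1 : ℝ)) ≤
      (Real.exp (cB μ H c J + θ * (A * H * Aᵀ).trace) +
        √((gau K).real {g | √θ • (Aᵀ *ᵥ g) ∉ U}) *
          Real.exp (c' + 3 * qf H' J + θ * (A * ((2 : ℝ) • H') * Aᵀ).trace)) *
        Real.exp (-(θ * a / 2)) := by
  have hn : ∀ u : V → ℝ, 0 ≤ qf H' u := fun u => (h0 u).trans (hHH u)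
  -- crude domination around `J`
  have hcr : ∀ u, Lg μ (J + u) - Lg μ J - u ⬝ᵥ (H *ᵥ J) ≤
      (c' + 3 * qf H' J) + qf ((2 : ℝ) • H') u / 2 := by
    intro u
    have h2 := hd' u
    rw [Lg_Rs μ J]
    have h3 : 0 ≤ qf (Gm μ) J := H114.qf_Cm_nonneg hμ 0 J
    -- `qf H' (J+u) ≤ qf H' J + 2 bf + qf H' u`
    rw [qf_add_vec hH'] at h2
    have h4 : 2 * bf H' J u ≤ 2 * qf H' J + qf H' u / 2 := by
      have h5 := hn ((2 : ℝ) • J - u)
      rw [qf_sub_vec hH', bf_smul_left, qf_smul] at h5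
      linarith
    have e : bf H J u = u ⬝ᵥ (H *ᵥ J) := by rw [bf_comm hH, bf_eq]
    have h6 : -(u ⬝ᵥ (H *ᵥ J)) ≤ qf H J + qf H u / 4 := by
      have h5 := h0 (J + (1 / 2 : ℝ) • u)
      rw [qf_add_vec hH, bf_smul_right, qf_smul, e] at h5
      linarith
    have h7 := hHH J
    have h8 := hHH u
    have h9 := hn J
    have h10 := hn u
    rw [qf_smul_mat]
    linarith
  refine ht2 hμ J (H *ᵥ J) hH h0 (by rw [transpose_smul, hH'])
    (fun u => by rw [qf_smul_mat]; exact mul_nonneg zero_le_two (hn u)) hU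
    (fun u hu => sg_base hH hR (hd u hu)) hcr A hθ h1 (fun φ => ?_) a
  rw [qf_smul_mat]
  have := h1' φ
  linarith

end base

/-! ### sub-Gaussian increments at every source from convexity of `Rs` -/

section conv

variable {V : Type*} [Fintype V] {μ : (V → ℤ) → ℝ}

/-- the constant `c₀ = (1-d) R(J/(1-d)) - R(J)` -/
def c0 (μ : (V → ℤ) → ℝ) (d : ℝ) (J : V → ℝ) : ℝ := (1 - d) * Rs μ ((1 - d)⁻¹ • J) - Rs μ J

/-- `(SG)` for one increment: `R(u/d) ≤ <u/d,(H-G) u/d>/2` -/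
theorem sg_one (hμ : EM μ) (he : Ev μ) (hK : PK μ) {d : ℝ} (hd : 0 < d) (hd1 : d < 1)
    (J u : V → ℝ) {H : Matrix V V ℝ}
    (hH : Lg μ (d⁻¹ • u) - Lg μ 0 ≤ qf H (d⁻¹ • u) / 2) :
    Lg μ (J + u) - Lg μ J - u ⬝ᵥ (Gm μ *ᵥ J) ≤
      c0 μ d J + qf (Gm μ + d⁻¹ • (H - Gm μ)) u / 2 := by
  have hc := (H789.Rs_convex hμ he hK).2 (Set.mem_univ ((1 - d)⁻¹ • J)) (Set.mem_univ (d⁻¹ • u))
    (by linarith : (0 : ℝ) ≤ 1 - d) hd.le (by ring)
  rw [smul_smul, smul_smul, mul_inv_cancel₀ (by linarith : (1 : ℝ) - d ≠ 0),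
    mul_inv_cancel₀ hd.ne', one_smul, one_smul] at hc
  simp only [smul_eq_mul] at hc
  have hR : Rs μ (d⁻¹ • u) ≤ qf (H - Gm μ) (d⁻¹ • u) / 2 := by
    rw [Lg_Rs μ (d⁻¹ • u)] at hH
    rw [H663.qf_sub_mat]
    linarith
  have hR2 : d * Rs μ (d⁻¹ • u) ≤ d⁻¹ * qf (H - Gm μ) u / 2 := by
    rw [qf_smul] at hR
    have := mul_le_mul_of_nonneg_left hR hd.le
    refine this.trans (le_of_eq ?_)
    field_simp
  rw [Lg_Rs μ (J + u), Lg_Rs μ J, qf_add_vec (H663.Gm_symm μ), qf_add_mat, qf_smul_mat]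
  unfold c0
  have e : bf (Gm μ) J u = u ⬝ᵥ (Gm μ *ᵥ J) := by
    rw [bf_comm (H663.Gm_symm μ), bf_eq]
  rw [e]
  linarith

/-- `(SG)` for every increment -/
theorem sg_conv (hμ : EM μ) (he : Ev μ) (hK : PK μ) {d : ℝ} (hd : 0 < d) (hd1 : d < 1)
    {H : Matrix V V ℝ} (hH : ∀ v : V → ℝ, Lg μ v - Lg μ 0 ≤ qf H v / 2) (J u : V → ℝ) :
    Lg μ (J + u) - Lg μ J - u ⬝ᵥ (Gm μ *ᵥ J) ≤
      c0 μ d J + qf (Gm μ + d⁻¹ • (H - Gm μ)) u / 2 :=
  sg_one hμ he hK hd hd1 J u (hH _)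

lemma c0_half_le (hμ : EM μ) (he : Ev μ) (hK : PK μ) (J : V → ℝ) :
    c0 μ (1 / 2) J ≤ Rs μ ((2 : ℝ) • J) / 2 := by
  unfold c0
  have h1 := H789.Rs_nonneg hμ he hK J
  have h2 : ((1 : ℝ) - 1 / 2)⁻¹ = 2 := by norm_num
  rw [h2]
  linarith

end conv

end

end Vale.Agent.P159.H816
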