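import Vale.Agent.P159.H816.Ty5

/-!
P159 / numbers in `Ev` form (helper816).

* `ev_num` : facts true eventually in `e`, given `th ≤ thp ≤ x1 ≤ x0`, `c0 ≤ C0`;
* `fam_M`, `ev_M` : `2 ^ (r - n) ≤ e ^ (-(6 x1))`, `r - n ≤ 1 + log2 (1/e)` on `TT n e`.
-/

namespace Vale.Agent.P159.H816

open Filter Topology
open Vale.Agent.P159.H972 (Par lg tn one_le_logb GP AP RNG FL)
open Vale.Agent.P159.H239 (Fam Sel TypE)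
open Vale.Agent.P159.H801 (Ev PS)

noncomputable section

/-- numeric facts in `Ev` form -/
theorem ev_num {b1 b2 pf : ℝ} (Q : ℕ) {F : Par → ℝ → Prop} {x0 : ℝ} (c0 : ℝ) (hx0 : 0 < x0)
    (hF : ∀ x1 thp th C0 : ℝ, 0 < th → th ≤ thp → thp ≤ x1 → x1 ≤ x0 → c0 ≤ C0 →
      ∀ᶠ e in 𝓝[>] (0 : ℝ), ∀ P : Par, P.th = th → P.thp = thp → P.x1 = x1 → P.C0 = C0 →
        P.pf = pf → F P e) :
    Ev b1 b2 pf Q fun P _ => ∀ e, 0 < e → e ≤ P.es → F P e := by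
  refine H801.Ev.of ⟨0, fun W _ => ⟨1, one_pos, fun ys _ _ => ⟨0, fun X0 _ => ⟨x0, hx0,
    fun x1 hx1 hx1' => ⟨x1, hx1, fun thp ht1 ht2 => ⟨thp, ht1, fun th hth1 hth2 =>
    ⟨c0, fun C0 hC0 => ⟨1, one_pos, fun c1 _ _ => ?_⟩⟩⟩⟩⟩⟩⟩⟩
  obtain ⟨E, hE, h⟩ := mem_nhdsGT_iff_exists_Ioc_subset.1
    (hF x1 thp th C0 hth1 hth2 ht2 hx1' hC0)
  have hE' : (0 : ℝ) < E := hE
  refine ⟨E, hE', fun P hP e he hee => ?_⟩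
  exact h ⟨he, hee.trans hP.ees⟩ P hP.eth hP.ethp hP.ex1 hP.eC0 hP.epf

/-- the bound of the number of blocks, family form -/
theorem fam_M {b1 b2 pf : ℝ} : Fam b1 b2 pf fun P _ => ∀ (n : ℕ) (e : ℝ) (r : ℕ), 0 < e →
    e ≤ P.es → P.TT n e r → (2 : ℝ) ^ (r - n) ≤ e ^ (-(6 * P.x1)) ∧
      ((r - n : ℕ) : ℝ) ≤ 1 + Real.logb 2 (1 / e) := by
  refine ⟨0, fun W _ => ⟨1, one_pos, fun ys _ _ => ⟨0, fun X0 _ => ⟨1 / 6, by norm_num,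
    fun x1 hx1 hx1' => ⟨0, fun Q _ => ⟨x1 / (8 * ((Q : ℝ) + 3)), by positivity,
    fun thp ht1 ht2 => ⟨x1 / 8, by positivity, fun th ht3 ht4 => ⟨0, fun C0 _ _ => ?_⟩⟩⟩⟩⟩⟩⟩⟩
  have hthp : ((Q : ℝ) + 3) * thp ≤ x1 / 8 := by
    rw [le_div_iff₀ (by positivity)] at ht2
    linarith
  have ev := M_ev (b1 := b1) (b2 := b2) (pf := pf) (W := W) (ys := ys) (X0 := X0) (C0 := C0)
    (Q := Q) (thp := thp) (th := th) hx1 (by linarith) ht1 ht4 hthp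
  obtain ⟨E, hE, h⟩ := mem_nhdsGT_iff_exists_Ioc_subset.1 ev
  have hE' : (0 : ℝ) < E := hE
  refine ⟨E, hE', fun P hP hes => ⟨0, fun N0 _ => ?_⟩⟩
  intro n e r he hee hr
  have h2 := h ⟨he, hee.trans hes⟩ P hP n r hr
  rw [hP.hx1]
  exact h2

theorem ev_M {b1 b2 pf : ℝ} (Q : ℕ) : Ev b1 b2 pf Q fun P _ => ∀ (n : ℕ) (e : ℝ) (r : ℕ), 0 < e →
    e ≤ P.es → P.TT n e r → (2 : ℝ) ^ (r - n) ≤ e ^ (-(6 * P.x1)) ∧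
      ((r - n : ℕ) : ℝ) ≤ 1 + Real.logb 2 (1 / e) := ev_of_fam fam_M Q

end

end Vale.Agent.P159.H816
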