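import Vale.Agent.P159.H552.GauHS2
import Vale.Agent.P159.H37.Spec0L

/-!
P159 / module HT (helper816): quadratic Chernoff bound under `Ex μ J` at ONE source `J`,
any centre `m₀`, any matrix `A : K × V`, `S : K × K` symmetric, `θ S ≤ 1/2`:

`(SG)`  `∀ φ, Lg μ (J + Aᵀφ) - Lg μ J - <Aᵀφ,m₀> ≤ c₀ + <φ,S φ>/2`   implies
        `E_J exp (θ |A (h-m₀)|²/2) ≤ exp (c₀ + θ tr S)`.

* `gau_exp_qf`  : `∫ exp (<g,S g>/2) dγ ≤ exp (tr S)` for `0 ≤ S ≤ 1/2`;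
* `htS_exp`, `htS` : exponential moment and tail, letters `S`;
* `ht_exp`, `ht`   : `S = A G₀ Aᵀ`;
* `ht_exp2`, `ht2` : sharp domination only for `u ∈ U`, crude domination for every `u`.
-/

set_option linter.unusedSectionVars false

namespace Vale.Agent.P159.H816

open Finset Matrix MeasureTheory ProbabilityTheory
open Vale.Agent.P159.TM.H104 (EM Ex Cv K3 Lg li nh Gr)
open Vale.Agent.P159.H37
open Vale.Agent.P159.H552 (spec_real gau_int_eq gau_integrable_iff integrable_exp_sq int_exp_sq)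

noncomputable section

/-! ### Gaussian quadratic exponential moments -/

section gaussian

variable {K : Type*} [Fintype K]

/-- `(1-x)^(-1/2) ≤ e^x` for `0 ≤ x ≤ 1/2` -/
lemma inv_sqrt_le {x : ℝ} (h0 : 0 ≤ x) (h1 : x ≤ 1 / 2) : (√(1 - x))⁻¹ ≤ Real.exp x := by
  have h2 : 0 < 1 - x := by linarith
  have h3 : 0 < √(1 - x) := Real.sqrt_pos.2 h2
  rw [inv_le_comm₀ h3 (Real.exp_pos _), ← Real.exp_neg]
  refine Real.le_sqrt_of_sq_le ?_
  rw [← Real.exp_nat_mul]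
  -- `exp (-2x) ≤ 1 - x`
  have e : ((2 : ℕ) : ℝ) * -x = -(2 * x) := by push_cast; ring
  rw [e]
  -- convexity: on `[0,1]` in `y = 2x`: `exp (-y) ≤ 1 - y/2`
  have hy0 : 0 ≤ 2 * x := by linarith
  have hy1 : 2 * x ≤ 1 := by linarith
  have h4 := Real.exp_bound_div_one_sub_of_interval (x := 2 * x) hy0
  have hconv := convexOn_exp.2 (Set.mem_univ (0 : ℝ)) (Set.mem_univ (-1 : ℝ))
    (show 0 ≤ 1 - 2 * x by linarith) hy0 (by ring)
  simp only [smul_eq_mul, mul_zero, zero_add, Real.exp_zero, mul_one] at hconv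
  have e2 : 2 * x * -1 = -(2 * x) := by ring
  rw [e2] at hconv
  have h5 : Real.exp (-1) ≤ 1 / 2 := by
    have h6 : (2 : ℝ) ≤ Real.exp 1 := by
      have := Real.add_one_le_exp (1 : ℝ)
      linarith
    rw [Real.exp_neg, inv_le_comm₀ (Real.exp_pos _) (by norm_num)]
    simpa using h6
  nlinarith

lemma diag_qf [DecidableEq K] {S O : Matrix K K ℝ} {a : K → ℝ} (hS : S = O * diagonal a * Oᵀ)
    (g : K → ℝ) : qf S g = ∑ i, a i * (Oᵀ *ᵥ g) i ^ 2 := by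
  rw [qf_eq, hS, ← mulVec_mulVec, ← mulVec_mulVec, dotProduct_mulVec, ← mulVec_transpose]
  unfold dotProduct
  refine Finset.sum_congr rfl fun i _ => ?_
  rw [mulVec_diagonal]
  ring

/-- `∫ exp (<g, S g>/2) dγ ≤ exp (tr S)` for `0 ≤ S ≤ 1/2` -/
theorem gau_exp_qf {S : Matrix K K ℝ} (hS : Sᵀ = S) (h0 : ∀ u : K → ℝ, 0 ≤ qf S u)
    (h1 : ∀ u : K → ℝ, qf S u ≤ (∑ i, u i ^ 2) / 2) :
    Integrable (fun g : K → ℝ => Real.exp (qf S g / 2)) (gau K) ∧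
      ∫ g, Real.exp (qf S g / 2) ∂(gau K) ≤ Real.exp S.trace := by
  classical
  obtain ⟨O, a, hO1, hO2, hSO, -⟩ := spec_real hS
  have ha : ∀ i, qf S (O *ᵥ Pi.single i 1) = a i := by
    intro i
    rw [diag_qf hSO, mulVec_mulVec, hO2, one_mulVec]
    rw [Finset.sum_eq_single i]
    · simp
    · intro j _ hj
      simp [hj]
    · intro h
      exact absurd (Finset.mem_univ i) h
  have hn : ∀ i, ∑ k, (O *ᵥ Pi.single i (1 : ℝ)) k ^ 2 = 1 := by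
    intro i
    have : ∑ k, (O *ᵥ Pi.single i (1 : ℝ)) k ^ 2 =
        (O *ᵥ Pi.single i (1 : ℝ)) ⬝ᵥ (O *ᵥ Pi.single i (1 : ℝ)) := by
      unfold dotProduct
      exact Finset.sum_congr rfl fun k _ => by ring
    rw [this, dotProduct_mulVec, ← mulVec_transpose, mulVec_mulVec, hO2, one_mulVec]
    simp
  have ha0 : ∀ i, 0 ≤ a i := fun i => by rw [← ha i]; exact h0 _
  have ha1 : ∀ i, a i ≤ 1 / 2 := fun i => by
    rw [← ha i]
    refine (h1 _).trans ?_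
    rw [hn i]
  have htr : S.trace = ∑ i, a i := by
    rw [hSO, Matrix.trace_mul_comm, ← Matrix.mul_assoc, hO2, Matrix.one_mul, trace_diagonal]
  set f : (K → ℝ) → ℝ := fun v => Real.exp (∑ i, a i * (v i ^ 2 / 2)) with hf
  have hfm : Measurable f := by
    rw [hf]
    fun_prop
  have e1 : (fun g : K → ℝ => Real.exp (qf S g / 2)) = fun g => f (Oᵀ *ᵥ g) := by
    funext g
    rw [hf]
    simp only
    rw [diag_qf hSO, Finset.sum_div]
    congr 1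
    exact Finset.sum_congr rfl fun i _ => by ring
  have hAB : Oᵀ * Oᵀᵀ = (1 : Matrix K K ℝ) * (1 : Matrix K K ℝ)ᵀ := by
    rw [transpose_transpose, hO2, transpose_one, Matrix.one_mul]
  have e2 : ∀ v : K → ℝ, f v = ∏ i, Real.exp (a i * (v i ^ 2 / 2)) := by
    intro v
    rw [hf]
    simp only
    rw [Real.exp_sum]
  have hint : Integrable f (gau K) := by
    have : f = fun v => ∏ i, Real.exp (a i * (v i ^ 2 / 2)) := by funext v; exact e2 v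
    rw [this]
    unfold gau
    exact Integrable.fintype_prod (f := fun i x => Real.exp (a i * (x ^ 2 / 2))) fun i =>
      integrable_exp_sq (by linarith [ha1 i])
  constructor
  · rw [e1, gau_integrable_iff hAB hfm]
    simpa only [one_mulVec] using hint
  · rw [e1, gau_int_eq hAB hfm]
    simp only [one_mulVec]
    simp only [e2]
    unfold gau
    rw [integral_fintype_prod_eq_prod (𝕜 := ℝ) (fun (i : K) (x : ℝ) => Real.exp (a i * (x ^ 2 / 2)))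
      (μ := fun _ => gaussianReal 0 1), htr, Real.exp_sum]
    refine Finset.prod_le_prod (fun i _ => integral_nonneg fun x => (Real.exp_pos _).le)
      fun i _ => ?_
    rw [int_exp_sq (by linarith [ha1 i])]
    exact inv_sqrt_le (ha0 i) (ha1 i)

end gaussian

/-! ### the Chernoff bound -/

section chernoff

variable {V K : Type*} [Fintype V] [Fintype K] {μ : (V → ℤ) → ℝ}

/-- linearisation of the square -/
lemma lin_sq {θ : ℝ} (hθ : 0 ≤ θ) (v : K → ℝ) :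
    ∫ g, Real.exp (∑ k, (√θ * v k) * g k) ∂(gau K) = Real.exp (θ * (∑ k, v k ^ 2) / 2) := by
  rw [gau_exp]
  congr 2
  rw [Finset.mul_sum]
  refine Finset.sum_congr rfl fun k _ => ?_
  rw [mul_pow, Real.sq_sqrt hθ]

lemma pair_eq {θ : ℝ} (A : Matrix K V ℝ) (m0 : V → ℝ) (g : K → ℝ) (h : V → ℤ) :
    ∑ k, (√θ * (A *ᵥ (re h - m0)) k) * g k =
      li (√θ • (Aᵀ *ᵥ g)) h - (√θ • (Aᵀ *ᵥ g)) ⬝ᵥ m0 := by
  have h1 : ∑ k, (√θ * (A *ᵥ (re h - m0)) k) * g k = √θ * (g ⬝ᵥ A *ᵥ (re h - m0)) := by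
    unfold dotProduct
    rw [Finset.mul_sum]
    exact Finset.sum_congr rfl fun k _ => by ring
  rw [h1, dotProduct_mulVec, ← mulVec_transpose, li_re, smul_dotProduct, smul_dotProduct,
    dotProduct_sub]
  simp only [smul_eq_mul]
  ring

/-- the partial sums of the exponential moment -/
lemma part_le (hμ : EM μ) (J m0 : V → ℝ) (A : Matrix K V ℝ) {θ : ℝ} (hθ : 0 ≤ θ) {Φ : (K → ℝ) → ℝ}
    (hΦi : Integrable Φ (gau K))
    (hΦ : ∀ g : K → ℝ, Real.exp (Lg μ (J + √θ • (Aᵀ *ᵥ g)) - Lg μ J - (√θ • (Aᵀ *ᵥ g)) ⬝ᵥ m0) ≤ Φ g)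
    (s : Finset (V → ℤ)) :
    ∑ h ∈ s, Real.exp (θ * (∑ k, (A *ᵥ (re h - m0)) k ^ 2) / 2) * μ h * Real.exp (li J h) ≤
      (TM.H104.T μ J fun _ => 1) * ∫ g, Φ g ∂(gau K) := by
  have hi : ∀ h : V → ℤ, Integrable (fun g : K → ℝ =>
      Real.exp (∑ k, (√θ * (A *ᵥ (re h - m0)) k) * g k) * (μ h * Real.exp (li J h))) (gau K) :=
    fun h => (integrable_exp_lin _).mul_const _
  have e1 : ∑ h ∈ s, Real.exp (θ * (∑ k, (A *ᵥ (re h - m0)) k ^ 2) / 2) * μ h * Real.exp (li J h) =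
      ∫ g, ∑ h ∈ s, Real.exp (∑ k, (√θ * (A *ᵥ (re h - m0)) k) * g k) *
        (μ h * Real.exp (li J h)) ∂(gau K) := by
    rw [integral_finsetSum s fun h _ => hi h]
    refine Finset.sum_congr rfl fun h _ => ?_
    rw [integral_mul_const, lin_sq hθ, mul_assoc]
  rw [e1, ← integral_const_mul]
  refine integral_mono (integrable_finsetSum s fun h _ => hi h) (hΦi.const_mul _) fun g => ?_
  simp only
  refine le_trans ?_ (mul_le_mul_of_nonneg_left (hΦ g) (TM.H104.T_one_pos hμ J).le)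
  set u : V → ℝ := √θ • (Aᵀ *ᵥ g) with hu
  have h2 : ∀ h : V → ℤ, Real.exp (∑ k, (√θ * (A *ᵥ (re h - m0)) k) * g k) *
      (μ h * Real.exp (li J h)) =
      Real.exp (-(u ⬝ᵥ m0)) * ((1 : ℝ) * μ h * Real.exp (li (J + u) h)) := by
    intro h
    rw [pair_eq, ← hu, TM.H104.li_add, sub_eq_add_neg, Real.exp_add, Real.exp_add]
    ring
  simp only [h2]
  rw [← Finset.mul_sum]
  have h3 : ∑ h ∈ s, (1 : ℝ) * μ h * Real.exp (li (J + u) h) ≤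
      TM.H104.T μ (J + u) fun _ => 1 := by
    unfold TM.H104.T
    exact (hμ.summ (Gr.const 1) (J + u)).sum_le_tsum s fun h _ =>
      mul_nonneg (mul_nonneg zero_le_one (hμ.nn h)) (Real.exp_pos _).le
  have h4 : Real.exp (Lg μ (J + u) - Lg μ J - u ⬝ᵥ m0) =
      Real.exp (-(u ⬝ᵥ m0)) * ((TM.H104.T μ (J + u) fun _ => 1) / TM.H104.T μ J fun _ => 1) := by
    have hp1 := TM.H104.T_one_pos hμ (J + u)
    have hp2 := TM.H104.T_one_pos hμ J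
    unfold Lg
    rw [sub_eq_add_neg, Real.exp_add, Real.exp_sub, Real.exp_log hp1, Real.exp_log hp2]
    ring
  rw [h4]
  have hp2 := TM.H104.T_one_pos hμ J
  calc Real.exp (-(u ⬝ᵥ m0)) * ∑ h ∈ s, (1 : ℝ) * μ h * Real.exp (li (J + u) h)
      ≤ Real.exp (-(u ⬝ᵥ m0)) * TM.H104.T μ (J + u) fun _ => 1 :=
        mul_le_mul_of_nonneg_left h3 (Real.exp_pos _).le
    _ = _ := by
        field_simp

/-- general form: any integrable majorant `Φ` of the exponential of the increments -/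
theorem ht_gen (hμ : EM μ) (J m0 : V → ℝ) (A : Matrix K V ℝ) {θ : ℝ} (hθ : 0 ≤ θ)
    {Φ : (K → ℝ) → ℝ} (hΦi : Integrable Φ (gau K))
    (hΦ : ∀ g : K → ℝ,
      Real.exp (Lg μ (J + √θ • (Aᵀ *ᵥ g)) - Lg μ J - (√θ • (Aᵀ *ᵥ g)) ⬝ᵥ m0) ≤ Φ g) :
    (Summable fun h : V → ℤ =>
      Real.exp (θ * (∑ k, (A *ᵥ (re h - m0)) k ^ 2) / 2) * μ h * Real.exp (li J h)) ∧
    Ex μ J (fun h => Real.exp (θ * (∑ k, (A *ᵥ (re h - m0)) k ^ 2) / 2)) ≤ ∫ g, Φ g ∂(gau K) := by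
  have h1 := part_le hμ J m0 A hθ hΦi hΦ
  have h0 : ∀ h : V → ℤ, 0 ≤
      Real.exp (θ * (∑ k, (A *ᵥ (re h - m0)) k ^ 2) / 2) * μ h * Real.exp (li J h) := fun h =>
    mul_nonneg (mul_nonneg (Real.exp_pos _).le (hμ.nn h)) (Real.exp_pos _).le
  have hs : Summable fun h : V → ℤ =>
      Real.exp (θ * (∑ k, (A *ᵥ (re h - m0)) k ^ 2) / 2) * μ h * Real.exp (li J h) :=
    summable_of_sum_le h0 h1
  refine ⟨hs, ?_⟩
  unfold Ex
  rw [div_le_iff₀ (TM.H104.T_one_pos hμ J), mul_comm]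
  exact hs.tsum_le_of_sum_le h1

/-- Markov inequality in the library letters -/
theorem markov (hμ : EM μ) (J m0 : V → ℝ) (A : Matrix K V ℝ) {θ : ℝ} (hθ : 0 ≤ θ) (a : ℝ)
    (hs : Summable fun h : V → ℤ =>
      Real.exp (θ * (∑ k, (A *ᵥ (re h - m0)) k ^ 2) / 2) * μ h * Real.exp (li J h)) {B : ℝ}
    (hB : Ex μ J (fun h => Real.exp (θ * (∑ k, (A *ᵥ (re h - m0)) k ^ 2) / 2)) ≤ B) :
    Ex μ J ({h : V → ℤ | a ≤ ∑ k, (A *ᵥ (re h - m0)) k ^ 2}.indicator fun _ => (1 : ℝ)) ≤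
      B * Real.exp (-(θ * a / 2)) := by
  classical
  have hZ := TM.H104.T_one_pos hμ J
  have h1 : Ex μ J ({h : V → ℤ | a ≤ ∑ k, (A *ᵥ (re h - m0)) k ^ 2}.indicator fun _ => (1 : ℝ)) ≤
      Real.exp (-(θ * a / 2)) *
        Ex μ J (fun h => Real.exp (θ * (∑ k, (A *ᵥ (re h - m0)) k ^ 2) / 2)) := by
    rw [← TM.H104.Ex_cmul]
    unfold Ex
    refine div_le_div_of_nonneg_right ?_ hZ.le
    have hg : Gr ({h : V → ℤ | a ≤ ∑ k, (A *ᵥ (re h - m0)) k ^ 2}.indicator fun _ => (1 : ℝ)) := by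
      refine Gr.of_bdd (C := 1) fun h => ?_
      by_cases hh : h ∈ {h : V → ℤ | a ≤ ∑ k, (A *ᵥ (re h - m0)) k ^ 2}
      · rw [Set.indicator_of_mem hh]; norm_num
      · rw [Set.indicator_of_notMem hh]; norm_num
    have hs' : Summable fun h : V → ℤ => Real.exp (-(θ * a / 2)) *
        Real.exp (θ * (∑ k, (A *ᵥ (re h - m0)) k ^ 2) / 2) * μ h * Real.exp (li J h) := by
      refine (hs.mul_left (Real.exp (-(θ * a / 2)))).congr fun h => ?_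
      ring
    refine (hμ.summ hg J).tsum_le_tsum (fun h => ?_) hs'
    refine mul_le_mul_of_nonneg_right (mul_le_mul_of_nonneg_right ?_ (hμ.nn h)) (Real.exp_pos _).le
    by_cases hh : h ∈ {h : V → ℤ | a ≤ ∑ k, (A *ᵥ (re h - m0)) k ^ 2}
    · rw [Set.indicator_of_mem hh]
      beta_reduce
      rw [← Real.exp_add]
      refine Real.one_le_exp ?_
      have : a ≤ ∑ k, (A *ᵥ (re h - m0)) k ^ 2 := hh
      nlinarith [mul_le_mul_of_nonneg_left this hθ]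
    · rw [Set.indicator_of_notMem hh]
      beta_reduce
      positivity
  refine h1.trans ?_
  rw [mul_comm B]
  exact mul_le_mul_of_nonneg_left hB (Real.exp_pos _).le

lemma qf_congr_mul (A : Matrix K V ℝ) (G : Matrix V V ℝ) (φ : K → ℝ) :
    qf (A * G * Aᵀ) φ = qf G (Aᵀ *ᵥ φ) := by
  rw [qf_eq, qf_eq, ← mulVec_mulVec, ← mulVec_mulVec, dotProduct_mulVec, ← mulVec_transpose]

lemma qf_smul_mat (θ : ℝ) (G : Matrix V V ℝ) (u : V → ℝ) : qf (θ • G) u = θ * qf G u := by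
  rw [qf_eq, qf_eq, smul_mulVec, dotProduct_smul, smul_eq_mul]

/-- `∫ exp (θ <Aᵀ g, G Aᵀ g>/2) dγ ≤ exp (θ tr (A G Aᵀ))` -/
lemma gau_exp_AGA (A : Matrix K V ℝ) {G : Matrix V V ℝ} (hG : Gᵀ = G)
    (h0 : ∀ u : V → ℝ, 0 ≤ qf G u) {θ : ℝ} (hθ : 0 ≤ θ)
    (h1 : ∀ φ : K → ℝ, θ * qf G (Aᵀ *ᵥ φ) ≤ (∑ k, φ k ^ 2) / 2) :
    Integrable (fun g : K → ℝ => Real.exp (θ * qf G (Aᵀ *ᵥ g) / 2)) (gau K) ∧
      ∫ g, Real.exp (θ * qf G (Aᵀ *ᵥ g) / 2) ∂(gau K) ≤ Real.exp (θ * (A * G * Aᵀ).trace) := by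
  have e : ∀ g : K → ℝ, qf (θ • (A * G * Aᵀ)) g = θ * qf G (Aᵀ *ᵥ g) := fun g => by
    rw [qf_smul_mat, qf_congr_mul]
  have hS : (θ • (A * G * Aᵀ))ᵀ = θ • (A * G * Aᵀ) := by
    rw [transpose_smul, transpose_mul, transpose_mul, transpose_transpose, hG, Matrix.mul_assoc]
  have h := gau_exp_qf hS (fun u => by rw [e]; exact mul_nonneg hθ (h0 _))
    (fun u => by rw [e]; exact h1 u)
  simp only [e] at h
  rw [trace_smul, smul_eq_mul] at h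
  exact h

/-- **matrix Chernoff, exponential moment** (domination needed only on the range of `Aᵀ`) -/
theorem htS_exp (hμ : EM μ) (J m0 : V → ℝ) (A : Matrix K V ℝ) {c0 : ℝ} {S : Matrix K K ℝ}
    (hS : Sᵀ = S) (h0 : ∀ φ : K → ℝ, 0 ≤ qf S φ)
    (hSG : ∀ φ : K → ℝ, Lg μ (J + Aᵀ *ᵥ φ) - Lg μ J - (Aᵀ *ᵥ φ) ⬝ᵥ m0 ≤ c0 + qf S φ / 2)
    {θ : ℝ} (hθ : 0 ≤ θ) (h1 : ∀ φ : K → ℝ, θ * qf S φ ≤ (∑ k, φ k ^ 2) / 2) :
    (Summable fun h : V → ℤ =>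
      Real.exp (θ * (∑ k, (A *ᵥ (re h - m0)) k ^ 2) / 2) * μ h * Real.exp (li J h)) ∧
    Ex μ J (fun h => Real.exp (θ * (∑ k, (A *ᵥ (re h - m0)) k ^ 2) / 2)) ≤
      Real.exp (c0 + θ * S.trace) := by
  have hS' : (θ • S)ᵀ = θ • S := by rw [transpose_smul, hS]
  obtain ⟨hi, hb⟩ := gau_exp_qf hS' (fun u => by rw [qf_smul_mat]; exact mul_nonneg hθ (h0 _))
    (fun u => by rw [qf_smul_mat]; exact h1 u)
  simp only [qf_smul_mat, trace_smul, smul_eq_mul] at hi hb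
  have h := ht_gen hμ J m0 A hθ (Φ := fun g => Real.exp c0 * Real.exp (θ * qf S g / 2))
    (hi.const_mul _) fun g => by
      rw [← Real.exp_add]
      have h2 := hSG (√θ • g)
      rw [mulVec_smul, qf_smul, Real.sq_sqrt hθ] at h2
      exact Real.exp_le_exp.2 h2
  refine ⟨h.1, h.2.trans ?_⟩
  rw [integral_const_mul, Real.exp_add]
  exact mul_le_mul_of_nonneg_left hb (Real.exp_pos _).le

/-- **matrix Chernoff, tail** -/
theorem htS (hμ : EM μ) (J m0 : V → ℝ) (A : Matrix K V ℝ) {c0 : ℝ} {S : Matrix K K ℝ}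
    (hS : Sᵀ = S) (h0 : ∀ φ : K → ℝ, 0 ≤ qf S φ)
    (hSG : ∀ φ : K → ℝ, Lg μ (J + Aᵀ *ᵥ φ) - Lg μ J - (Aᵀ *ᵥ φ) ⬝ᵥ m0 ≤ c0 + qf S φ / 2)
    {θ : ℝ} (hθ : 0 ≤ θ) (h1 : ∀ φ : K → ℝ, θ * qf S φ ≤ (∑ k, φ k ^ 2) / 2) (a : ℝ) :
    Ex μ J ({h : V → ℤ | a ≤ ∑ k, (A *ᵥ (re h - m0)) k ^ 2}.indicator fun _ => (1 : ℝ)) ≤
      Real.exp (c0 + θ * S.trace - θ * a / 2) := by
  obtain ⟨hs, hb⟩ := htS_exp hμ J m0 A hS h0 hSG hθ h1
  refine (markov hμ J m0 A hθ a hs hb).trans (le_of_eq ?_)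
  rw [← Real.exp_add]
  congr 1

/-- **HT, exponential moment** -/
theorem ht_exp (hμ : EM μ) (J m0 : V → ℝ) {c0 : ℝ} {G0 : Matrix V V ℝ} (hG : G0ᵀ = G0)
    (h0 : ∀ u : V → ℝ, 0 ≤ qf G0 u)
    (hSG : ∀ u : V → ℝ, Lg μ (J + u) - Lg μ J - u ⬝ᵥ m0 ≤ c0 + qf G0 u / 2)
    (A : Matrix K V ℝ) {θ : ℝ} (hθ : 0 ≤ θ)
    (h1 : ∀ φ : K → ℝ, θ * qf G0 (Aᵀ *ᵥ φ) ≤ (∑ k, φ k ^ 2) / 2) :
    (Summable fun h : V → ℤ =>
      Real.exp (θ * (∑ k, (A *ᵥ (re h - m0)) k ^ 2) / 2) * μ h * Real.exp (li J h)) ∧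
    Ex μ J (fun h => Real.exp (θ * (∑ k, (A *ᵥ (re h - m0)) k ^ 2) / 2)) ≤
      Real.exp (c0 + θ * (A * G0 * Aᵀ).trace) := by
  obtain ⟨hi, hb⟩ := gau_exp_AGA A hG h0 hθ h1
  have h := ht_gen hμ J m0 A hθ (Φ := fun g => Real.exp c0 * Real.exp (θ * qf G0 (Aᵀ *ᵥ g) / 2))
    (hi.const_mul _) fun g => by
      rw [← Real.exp_add]
      refine Real.exp_le_exp.2 ((hSG _).trans (le_of_eq ?_))
      rw [qf_smul, Real.sq_sqrt hθ]
  refine ⟨h.1, h.2.trans ?_⟩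
  rw [integral_const_mul, Real.exp_add]
  exact mul_le_mul_of_nonneg_left hb (Real.exp_pos _).le

/-- **HT, tail** -/
theorem ht (hμ : EM μ) (J m0 : V → ℝ) {c0 : ℝ} {G0 : Matrix V V ℝ} (hG : G0ᵀ = G0)
    (h0 : ∀ u : V → ℝ, 0 ≤ qf G0 u)
    (hSG : ∀ u : V → ℝ, Lg μ (J + u) - Lg μ J - u ⬝ᵥ m0 ≤ c0 + qf G0 u / 2)
    (A : Matrix K V ℝ) {θ : ℝ} (hθ : 0 ≤ θ)
    (h1 : ∀ φ : K → ℝ, θ * qf G0 (Aᵀ *ᵥ φ) ≤ (∑ k, φ k ^ 2) / 2) (a : ℝ) :
    Ex μ J ({h : V → ℤ | a ≤ ∑ k, (A *ᵥ (re h - m0)) k ^ 2}.indicator fun _ => (1 : ℝ)) ≤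
      Real.exp (c0 + θ * (A * G0 * Aᵀ).trace - θ * a / 2) := by
  obtain ⟨hs, hb⟩ := ht_exp hμ J m0 hG h0 hSG A hθ h1
  refine (markov hμ J m0 A hθ a hs hb).trans (le_of_eq ?_)
  rw [← Real.exp_add]
  congr 1

/-- **HT with an exceptional set**: sharp domination for `u ∈ U`, crude domination for all `u` -/
theorem ht_exp2 (hμ : EM μ) (J m0 : V → ℝ) {c0 c1 : ℝ} {G0 G1 : Matrix V V ℝ}
    (hG : G0ᵀ = G0) (h0 : ∀ u : V → ℝ, 0 ≤ qf G0 u)
    (hG' : G1ᵀ = G1) (h0' : ∀ u : V → ℝ, 0 ≤ qf G1 u) {U : Set (V → ℝ)} (hU : MeasurableSet U)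
    (hSG : ∀ u ∈ U, Lg μ (J + u) - Lg μ J - u ⬝ᵥ m0 ≤ c0 + qf G0 u / 2)
    (hSG' : ∀ u, Lg μ (J + u) - Lg μ J - u ⬝ᵥ m0 ≤ c1 + qf G1 u / 2)
    (A : Matrix K V ℝ) {θ : ℝ} (hθ : 0 ≤ θ)
    (h1 : ∀ φ : K → ℝ, θ * qf G0 (Aᵀ *ᵥ φ) ≤ (∑ k, φ k ^ 2) / 2)
    (h1' : ∀ φ : K → ℝ, θ * qf G1 (Aᵀ *ᵥ φ) ≤ (∑ k, φ k ^ 2) / 4) :
    (Summable fun h : V → ℤ =>
      Real.exp (θ * (∑ k, (A *ᵥ (re h - m0)) k ^ 2) / 2) * μ h * Real.exp (li J h)) ∧
    Ex μ J (fun h => Real.exp (θ * (∑ k, (A *ᵥ (re h - m0)) k ^ 2) / 2)) ≤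
      Real.exp (c0 + θ * (A * G0 * Aᵀ).trace) +
        √((gau K).real {g | √θ • (Aᵀ *ᵥ g) ∉ U}) * Real.exp (c1 + θ * (A * G1 * Aᵀ).trace) := by
  classical
  obtain ⟨hi, hb⟩ := gau_exp_AGA A hG h0 hθ h1
  obtain ⟨hi', hb'⟩ := gau_exp_AGA A hG' h0' (θ := 2 * θ) (by positivity) (fun φ => by
    have := h1' φ
    linarith)
  set W : Set (K → ℝ) := {g | √θ • (Aᵀ *ᵥ g) ∉ U} with hW
  have hWm : MeasurableSet W := by
    have hm : Measurable fun g : K → ℝ => √θ • (Aᵀ *ᵥ g) := by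
      have h3 := H552.meas_mulVec (I := K) Aᵀ
      exact h3.const_smul (√θ)
    exact (hm hU).compl
  -- the crude exponential and its square
  set ψ : (K → ℝ) → ℝ := fun g => Real.exp (θ * qf G1 (Aᵀ *ᵥ g) / 2) with hψ
  have hψ2 : ∀ g, ψ g ^ 2 = Real.exp (2 * θ * qf G1 (Aᵀ *ᵥ g) / 2) := fun g => by
    rw [hψ]
    simp only
    rw [← Real.exp_nat_mul]
    congr 1
    push_cast
    ring
  have hψm : Measurable ψ := by
    rw [hψ]
    have : Measurable fun g : K → ℝ => qf G1 (Aᵀ *ᵥ g) := by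
      unfold qf
      have hm := H552.meas_mulVec (I := K) Aᵀ
      refine Finset.measurable_sum _ fun x _ => Finset.measurable_sum _ fun y _ => ?_
      exact (((measurable_pi_iff.1 hm x).mul_const _)).mul (measurable_pi_iff.1 hm y)
    fun_prop
  have hψ2i : Integrable (fun g => ψ g ^ 2) (gau K) := by
    simp only [hψ2]
    exact hi'
  set χ : (K → ℝ) → ℝ := W.indicator fun _ => (1 : ℝ) with hχ
  have hχm : Measurable χ := measurable_const.indicator hWm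
  have hχ2 : ∀ g, χ g ^ 2 = χ g := fun g => by
    by_cases hg : g ∈ W
    · rw [hχ, Set.indicator_of_mem hg]; norm_num
    · rw [hχ, Set.indicator_of_notMem hg]; norm_num
  have hχ1 : ∀ g, |χ g| ≤ 1 := fun g => by
    by_cases hg : g ∈ W
    · rw [hχ, Set.indicator_of_mem hg]; norm_num
    · rw [hχ, Set.indicator_of_notMem hg]; norm_num
  have hχi : Integrable χ (gau K) :=
    Integrable.of_bound hχm.aestronglyMeasurable 1 (Filter.Eventually.of_forall hχ1)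
  have hψi : Integrable ψ (gau K) := by
    refine ((integrable_const (1 : ℝ)).add hψ2i).mono' hψm.aestronglyMeasurable
      (Filter.Eventually.of_forall fun g => ?_)
    rw [Real.norm_eq_abs, Pi.add_apply]
    nlinarith [sq_nonneg (1 - |ψ g|), sq_abs (ψ g)]
  have hpi : Integrable (fun g => χ g * ψ g) (gau K) := by
    refine hψi.mono' (hχm.mul hψm).aestronglyMeasurable (Filter.Eventually.of_forall fun g => ?_)
    rw [Real.norm_eq_abs, abs_mul]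
    have h2 : 0 ≤ ψ g := (Real.exp_pos _).le
    rw [abs_of_nonneg h2]
    exact mul_le_of_le_one_left h2 (hχ1 g)
  have h := ht_gen hμ J m0 A hθ (Φ := fun g => Real.exp c0 * Real.exp (θ * qf G0 (Aᵀ *ᵥ g) / 2) +
      Real.exp c1 * (χ g * ψ g)) ((hi.const_mul _).add (hpi.const_mul _)) fun g => by
      by_cases hg : g ∈ W
      · refine le_trans ?_ (le_add_of_nonneg_left (by positivity))
        rw [hχ, Set.indicator_of_mem hg, one_mul, hψ]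
        simp only
        rw [← Real.exp_add]
        refine Real.exp_le_exp.2 ((hSG' _).trans (le_of_eq ?_))
        rw [qf_smul, Real.sq_sqrt hθ]
      · have hgU : √θ • (Aᵀ *ᵥ g) ∈ U := by
          by_contra hc
          exact hg hc
        rw [hχ, Set.indicator_of_notMem hg, zero_mul, mul_zero, add_zero, ← Real.exp_add]
        refine Real.exp_le_exp.2 ((hSG _ hgU).trans (le_of_eq ?_))
        rw [qf_smul, Real.sq_sqrt hθ]
  refine ⟨h.1, h.2.trans ?_⟩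
  rw [integral_add (hi.const_mul _) (hpi.const_mul _), integral_const_mul, integral_const_mul]
  have hcs := H552.int_cs (m := gau K) (u := χ) (v := ψ) (by simp only [hχ2]; exact hχi) hψ2i hpi
  simp only [hχ2] at hcs
  have hW1 : ∫ g, χ g ∂(gau K) = (gau K).real W := by
    rw [hχ, integral_indicator hWm]
    simp
  have hW0 : 0 ≤ (gau K).real W := measureReal_nonneg
  have hψb : ∫ g, ψ g ^ 2 ∂(gau K) ≤ Real.exp (θ * (A * G1 * Aᵀ).trace) ^ 2 := by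
    simp only [hψ2]
    refine hb'.trans (le_of_eq ?_)
    rw [← Real.exp_nat_mul]
    congr 1
    push_cast
    ring
  have hfin : ∫ g, χ g * ψ g ∂(gau K) ≤
      √((gau K).real W) * Real.exp (θ * (A * G1 * Aᵀ).trace) := by
    refine le_of_sq_le_sq ?_ (by positivity)
    rw [mul_pow, Real.sq_sqrt hW0, ← hW1]
    refine hcs.trans (mul_le_mul_of_nonneg_left hψb ?_)
    rw [hW1]
    exact hW0
  refine add_le_add ?_ ?_
  · rw [Real.exp_add]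
    exact mul_le_mul_of_nonneg_left hb (Real.exp_pos _).le
  · refine (mul_le_mul_of_nonneg_left hfin (Real.exp_pos c1).le).trans (le_of_eq ?_)
    rw [Real.exp_add]
    ring

/-- **HT with an exceptional set, tail** -/
theorem ht2 (hμ : EM μ) (J m0 : V → ℝ) {c0 c1 : ℝ} {G0 G1 : Matrix V V ℝ}
    (hG : G0ᵀ = G0) (h0 : ∀ u : V → ℝ, 0 ≤ qf G0 u)
    (hG' : G1ᵀ = G1) (h0' : ∀ u : V → ℝ, 0 ≤ qf G1 u) {U : Set (V → ℝ)} (hU : MeasurableSet U)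
    (hSG : ∀ u ∈ U, Lg μ (J + u) - Lg μ J - u ⬝ᵥ m0 ≤ c0 + qf G0 u / 2)
    (hSG' : ∀ u, Lg μ (J + u) - Lg μ J - u ⬝ᵥ m0 ≤ c1 + qf G1 u / 2)
    (A : Matrix K V ℝ) {θ : ℝ} (hθ : 0 ≤ θ)
    (h1 : ∀ φ : K → ℝ, θ * qf G0 (Aᵀ *ᵥ φ) ≤ (∑ k, φ k ^ 2) / 2)
    (h1' : ∀ φ : K → ℝ, θ * qf G1 (Aᵀ *ᵥ φ) ≤ (∑ k, φ k ^ 2) / 4) (a : ℝ) :
    Ex μ J ({h : V → ℤ | a ≤ ∑ k, (A *ᵥ (re h - m0)) k ^ 2}.indicator fun _ => (1 : ℝ)) ≤
      (Real.exp (c0 + θ * (A * G0 * Aᵀ).trace) +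
        √((gau K).real {g | √θ • (Aᵀ *ᵥ g) ∉ U}) * Real.exp (c1 + θ * (A * G1 * Aᵀ).trace)) *
        Real.exp (-(θ * a / 2)) := by
  obtain ⟨hs, hb⟩ := ht_exp2 hμ J m0 hG h0 hG' h0' hU hSG hSG' A hθ h1 h1'
  exact markov hμ J m0 A hθ a hs hb

end chernoff

end

end Vale.Agent.P159.H816
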