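import Vale.Agent.P159.H816.HtSG
import Vale.Agent.P159.H114.Joint

/-!
P159 / module HT (helper816): the quadratic Chernoff bound when the domination is known only for
SMALL increments (the exponential moment of `|A (h-m₀)|²` may be infinite).

* `ball_low`  : `1/2 e^{θa/2} ≤ ∫_{|g|²≤R} exp (√θ <g,x>) dγ` for `|x|² ≥ a`, `R ≥ 2 (θ a + 2 #K)`;
* `htB`       : `(SG)` for `|φ|² ≤ ρ`, `ρ ≥ 2 θ (θ a + 2 #K)` ⟹ tail `≤ 2 exp (c₀ + θ tr S - θ a/2)`;
* `htB_base`  : domination of `Lg (J + Aᵀφ) - Lg 0` for `|φ|² ≤ ρ` only; centre `H J`.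
-/

set_option linter.unusedSectionVars false

namespace Vale.Agent.P159.H816

open Finset Matrix MeasureTheory ProbabilityTheory
open Vale.Agent.P159.TM.H104 (EM Ex Cv K3 Lg li nh Gr)
open Vale.Agent.P159.H37

noncomputable section

variable {V K : Type*} [Fintype V] [Fintype K] {μ : (V → ℤ) → ℝ}

/-- the ball `|g|² ≤ R` -/
def bl (K : Type*) [Fintype K] (R : ℝ) : Set (K → ℝ) := {g | ∑ k, g k ^ 2 ≤ R}

lemma meas_bl (R : ℝ) : MeasurableSet (bl K R) := by
  have : Measurable fun g : K → ℝ => ∑ k, g k ^ 2 := by fun_prop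
  exact measurableSet_le this measurable_const

lemma bl_neg {R : ℝ} {g : K → ℝ} : -g ∈ bl K R ↔ g ∈ bl K R := by
  unfold bl
  simp

lemma integrable_sq_coord (k : K) : Integrable (fun g : K → ℝ => g k ^ 2) (gau K) := by
  refine ((integrable_exp_norm (I := K) 1).const_mul 2).mono'
    (Measurable.aestronglyMeasurable (by fun_prop)) (Filter.Eventually.of_forall fun g => ?_)
  rw [Real.norm_eq_abs, abs_of_nonneg (sq_nonneg _), one_mul]
  have h1 : |g k| ≤ ∑ i, |g i| :=
    Finset.single_le_sum (f := fun i => |g i|) (fun i _ => abs_nonneg _) (Finset.mem_univ k)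
  have h2 : |g k| ^ 2 / 2 ≤ Real.exp |g k| := by
    have := Real.quadratic_le_exp_of_nonneg (abs_nonneg (g k))
    linarith [abs_nonneg (g k)]
  have h3 : Real.exp |g k| ≤ Real.exp (∑ i, |g i|) := Real.exp_le_exp.2 h1
  rw [sq_abs] at h2
  linarith

lemma int_sq_coord (k : K) : ∫ g, g k ^ 2 ∂(gau K) = 1 := by
  classical
  have h := H114.gau_one_sq (I := K) k k
  rw [if_pos rfl] at h
  rw [← h]
  refine integral_congr_ae (Filter.Eventually.of_forall fun g => ?_)
  beta_reduce
  ring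

/-- `γ (|g|² ≤ 2 #K) ≥ 1/2` -/
lemma gau_bl : 1 / 2 ≤ (gau K).real (bl K (2 * Fintype.card K)) := by
  classical
  rcases isEmpty_or_nonempty K with hK | hK
  · have : bl K (2 * Fintype.card K) = Set.univ := by
      ext g
      simp [bl]
    rw [this]
    simp
    norm_num
  have hc : (0 : ℝ) < Fintype.card K := by exact_mod_cast Fintype.card_pos
  have hi : Integrable (fun g : K → ℝ => ∑ k, g k ^ 2) (gau K) :=
    integrable_finsetSum _ fun k _ => integrable_sq_coord k
  have h1 : ∫ g, ∑ k, g k ^ 2 ∂(gau K) = Fintype.card K := by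
    rw [integral_finsetSum _ fun k _ => integrable_sq_coord k]
    simp only [int_sq_coord]
    simp
  have h2 := mul_meas_ge_le_integral_of_nonneg (μ := gau K) (f := fun g : K → ℝ => ∑ k, g k ^ 2)
    (Filter.Eventually.of_forall fun g => Finset.sum_nonneg fun k _ => sq_nonneg _) hi
    (2 * Fintype.card K)
  rw [h1] at h2
  have h3 : (gau K).real {g | 2 * (Fintype.card K : ℝ) ≤ ∑ k, g k ^ 2} ≤ 1 / 2 := by
    have : 2 * (Fintype.card K : ℝ) * (gau K).real {g | 2 * (Fintype.card K : ℝ) ≤ ∑ k, g k ^ 2}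
        ≤ 2 * (Fintype.card K : ℝ) * (1 / 2) := by
      refine h2.trans (le_of_eq ?_)
      ring
    exact le_of_mul_le_mul_left this (by positivity)
  have h4 : (bl K (2 * Fintype.card K))ᶜ ⊆ {g : K → ℝ | 2 * (Fintype.card K : ℝ) ≤ ∑ k, g k ^ 2} := by
    intro g hg
    simp only [bl, Set.mem_compl_iff, Set.mem_ofPred_eq, not_le] at hg
    exact hg.le
  have h5 := probReal_add_probReal_compl (μ := gau K) (meas_bl (K := K) (2 * Fintype.card K))
  have h6 := measureReal_mono (μ := gau K) h4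
  linarith

/-- lower bound of the truncated Laplace transform -/
lemma ball_low {θ a R : ℝ} (hθ : 0 ≤ θ) (ha : 0 ≤ a) (hR : 2 * (θ * a + 2 * Fintype.card K) ≤ R)
    {x : K → ℝ} (hx : a ≤ ∑ k, x k ^ 2) :
    1 / 2 * Real.exp (θ * a / 2) ≤
      ∫ g, (bl K R).indicator (fun g => Real.exp (∑ k, (√θ * x k) * g k)) g ∂(gau K) := by
  classical
  have hi : ∀ y : K → ℝ, Integrable
      ((bl K R).indicator (fun g => Real.exp (∑ k, (√θ * y k) * g k))) (gau K) := fun y =>
    (integrable_exp_lin _).indicator (meas_bl R)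
  -- symmetrisation
  have hsym : ∀ y : K → ℝ,
      ∫ g, (bl K R).indicator (fun g => Real.exp (∑ k, (√θ * y k) * g k)) g ∂(gau K) =
      ∫ g, (bl K R).indicator (fun g => Real.cosh (∑ k, (√θ * y k) * g k)) g ∂(gau K) := by
    intro y
    have h1 : ∫ g, (bl K R).indicator (fun g => Real.exp (∑ k, (√θ * y k) * g k)) g ∂(gau K) =
        ∫ g, (bl K R).indicator (fun g => Real.exp (-(∑ k, (√θ * y k) * g k))) g ∂(gau K) := by
      have hemb : MeasurableEmbedding (fun g : K → ℝ => -g) := (MeasurableEquiv.neg (K → ℝ)).measurableEmbedding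
      rw [← (gau_neg (I := K)).integral_comp hemb]
      refine integral_congr_ae (Filter.Eventually.of_forall fun g => ?_)
      beta_reduce
      by_cases hg : g ∈ bl K R
      · rw [Set.indicator_of_mem hg, Set.indicator_of_mem (bl_neg.2 hg)]
        simp [Finset.sum_neg_distrib]
      · rw [Set.indicator_of_notMem hg, Set.indicator_of_notMem (fun h => hg (bl_neg.1 h))]
    have h2 : ∀ g : K → ℝ, (bl K R).indicator (fun g => Real.cosh (∑ k, (√θ * y k) * g k)) g =
        1 / 2 * ((bl K R).indicator (fun g => Real.exp (∑ k, (√θ * y k) * g k)) g +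
          (bl K R).indicator (fun g => Real.exp (-(∑ k, (√θ * y k) * g k))) g) := by
      intro g
      by_cases hg : g ∈ bl K R
      · rw [Set.indicator_of_mem hg, Set.indicator_of_mem hg, Set.indicator_of_mem hg,
          Real.cosh_eq]
        ring
      · rw [Set.indicator_of_notMem hg, Set.indicator_of_notMem hg, Set.indicator_of_notMem hg]
        ring
    have hi2 : Integrable
        ((bl K R).indicator (fun g => Real.exp (-(∑ k, (√θ * y k) * g k)))) (gau K) := by
      have h3 := hi (-y)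
      refine h3.congr (Filter.Eventually.of_forall fun g => ?_)
      have e : (∑ k, √θ * (-y) k * g k) = -∑ k, √θ * y k * g k := by
        rw [← Finset.sum_neg_distrib]
        exact Finset.sum_congr rfl fun k _ => by simp
      by_cases hg : g ∈ bl K R
      · rw [Set.indicator_of_mem hg, Set.indicator_of_mem hg]
        simp only [e]
      · rw [Set.indicator_of_notMem hg, Set.indicator_of_notMem hg]
    simp only [h2]
    rw [integral_const_mul, integral_add (hi y) hi2, ← h1]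
    ring
  -- the scaled vector
  obtain ⟨lam, hl0, hl1, hl⟩ : ∃ lam : ℝ, 0 ≤ lam ∧ lam ≤ 1 ∧ ∑ k, (lam * x k) ^ 2 = a := by
    rcases ha.eq_or_lt with h0 | h0
    · exact ⟨0, le_rfl, zero_le_one, by simp [← h0]⟩
    · have hs : 0 < ∑ k, x k ^ 2 := h0.trans_le hx
      refine ⟨√(a / ∑ k, x k ^ 2), Real.sqrt_nonneg _, ?_, ?_⟩
      · refine Real.sqrt_le_one.2 ?_
        rw [div_le_one hs]
        exact hx
      · have : ∑ k, (√(a / ∑ k, x k ^ 2) * x k) ^ 2 = (a / ∑ k, x k ^ 2) * ∑ k, x k ^ 2 := by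
          rw [Finset.mul_sum]
          refine Finset.sum_congr rfl fun k _ => ?_
          rw [mul_pow, Real.sq_sqrt (by positivity)]
        rw [this, div_mul_cancel₀ _ hs.ne']
  set y : K → ℝ := fun k => lam * x k with hy
  have hstep : ∫ g, (bl K R).indicator (fun g => Real.exp (∑ k, (√θ * y k) * g k)) g ∂(gau K) ≤
      ∫ g, (bl K R).indicator (fun g => Real.exp (∑ k, (√θ * x k) * g k)) g ∂(gau K) := by
    rw [hsym x, hsym y]
    have hic : ∀ y : K → ℝ, Integrable
        ((bl K R).indicator (fun g => Real.cosh (∑ k, (√θ * y k) * g k))) (gau K) := by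
      intro y
      refine Integrable.indicator ?_ (meas_bl R)
      have h3 := ((integrable_exp_lin (I := K) fun k => √θ * y k).add
        (integrable_exp_lin (I := K) fun k => √θ * (-y) k)).div_const 2
      refine h3.congr (Filter.Eventually.of_forall fun g => ?_)
      have e : (∑ k, √θ * (-y) k * g k) = -∑ k, √θ * y k * g k := by
        rw [← Finset.sum_neg_distrib]
        exact Finset.sum_congr rfl fun k _ => by simp
      simp only [Pi.add_apply, e, Real.cosh_eq]
    refine integral_mono (hic y) (hic x) fun g => ?_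
    refine Set.indicator_le_indicator ?_
    rw [Real.cosh_le_cosh]
    have e : ∑ k, √θ * y k * g k = lam * ∑ k, √θ * x k * g k := by
      rw [Finset.mul_sum]
      exact Finset.sum_congr rfl fun k _ => by rw [hy]; ring
    rw [e, abs_mul, abs_of_nonneg hl0]
    exact mul_le_of_le_one_left (abs_nonneg _) hl1
  refine le_trans ?_ hstep
  -- Cameron-Martin
  have hz : ∑ k, (√θ * y k) ^ 2 = θ * a := by
    rw [← hl, Finset.mul_sum]
    refine Finset.sum_congr rfl fun k _ => ?_
    rw [mul_pow, Real.sq_sqrt hθ]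
  have hcm : ∫ g, (bl K R).indicator (fun g => Real.exp (∑ k, (√θ * y k) * g k)) g ∂(gau K) =
      Real.exp (θ * a / 2) * ∫ g, (bl K R).indicator (fun _ => (1 : ℝ))
        (g + fun k => √θ * y k) ∂(gau K) := by
    have h3 := gau_exp_mul (I := K) (fun k => √θ * y k) ((bl K R).indicator fun _ => (1 : ℝ))
    rw [hz] at h3
    rw [← h3]
    refine integral_congr_ae (Filter.Eventually.of_forall fun g => ?_)
    beta_reduce
    by_cases hg : g ∈ bl K R
    · rw [Set.indicator_of_mem hg, Set.indicator_of_mem hg, mul_one]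
    · rw [Set.indicator_of_notMem hg, Set.indicator_of_notMem hg, mul_zero]
  rw [hcm, mul_comm]
  refine mul_le_mul_of_nonneg_left ?_ (Real.exp_pos _).le
  have hsub : bl K (2 * Fintype.card K) ⊆ {g | (g + fun k => √θ * y k) ∈ bl K R} := by
    intro g hg
    simp only [bl, Set.mem_ofPred_eq, Pi.add_apply] at hg ⊢
    have h4 : ∑ k, (g k + √θ * y k) ^ 2 ≤ ∑ k, (2 * g k ^ 2 + 2 * (√θ * y k) ^ 2) :=
      Finset.sum_le_sum fun k _ => by nlinarith [sq_nonneg (g k - √θ * y k)]
    rw [Finset.sum_add_distrib, ← Finset.mul_sum, ← Finset.mul_sum, hz] at h4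
    linarith
  have hmeas : MeasurableSet {g : K → ℝ | (g + fun k => √θ * y k) ∈ bl K R} :=
    (measurable_id.add_const (fun k => √θ * y k)) (meas_bl R)
  have h5 : ∫ g, (bl K R).indicator (fun _ => (1 : ℝ)) (g + fun k => √θ * y k) ∂(gau K) =
      (gau K).real {g | (g + fun k => √θ * y k) ∈ bl K R} := by
    have : (fun g : K → ℝ => (bl K R).indicator (fun _ => (1 : ℝ)) (g + fun k => √θ * y k)) =
        {g : K → ℝ | (g + fun k => √θ * y k) ∈ bl K R}.indicator fun _ => (1 : ℝ) := by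
      funext g
      by_cases hg : (g + fun k => √θ * y k) ∈ bl K R
      · rw [Set.indicator_of_mem hg, Set.indicator_of_mem (show g ∈ {g : K → ℝ |
          (g + fun k => √θ * y k) ∈ bl K R} from hg)]
      · rw [Set.indicator_of_notMem hg, Set.indicator_of_notMem (show g ∉ {g : K → ℝ |
          (g + fun k => √θ * y k) ∈ bl K R} from hg)]
    rw [this, integral_indicator hmeas]
    simp
  rw [h5]
  exact gau_bl.trans (measureReal_mono hsub)

/-- **Chernoff with domination of small increments only** -/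
theorem htB (hμ : EM μ) (J m0 : V → ℝ) (A : Matrix K V ℝ) {c0 : ℝ} {S : Matrix K K ℝ}
    (hS : Sᵀ = S) (h0 : ∀ φ : K → ℝ, 0 ≤ qf S φ) {θ a ρ : ℝ} (hθ : 0 ≤ θ) (ha : 0 ≤ a)
    (hρ : 2 * θ * (θ * a + 2 * Fintype.card K) ≤ ρ)
    (hSG : ∀ φ : K → ℝ, ∑ k, φ k ^ 2 ≤ ρ →
      Lg μ (J + Aᵀ *ᵥ φ) - Lg μ J - (Aᵀ *ᵥ φ) ⬝ᵥ m0 ≤ c0 + qf S φ / 2)
    (h1 : ∀ φ : K → ℝ, θ * qf S φ ≤ (∑ k, φ k ^ 2) / 2) :
    Ex μ J ({h : V → ℤ | a ≤ ∑ k, (A *ᵥ (re h - m0)) k ^ 2}.indicator fun _ => (1 : ℝ)) ≤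
      2 * Real.exp (c0 + θ * S.trace - θ * a / 2) := by
  classical
  set R : ℝ := 2 * (θ * a + 2 * Fintype.card K) with hR
  have hZ := TM.H104.T_one_pos hμ J
  have hS' : (θ • S)ᵀ = θ • S := by rw [transpose_smul, hS]
  obtain ⟨hgi, hgb⟩ := gau_exp_qf hS' (fun u => by rw [qf_smul_mat]; exact mul_nonneg hθ (h0 _))
    (fun u => by rw [qf_smul_mat]; exact h1 u)
  simp only [qf_smul_mat, trace_smul, smul_eq_mul] at hgi hgb
  -- truncated kernel
  set E : (V → ℤ) → (K → ℝ) → ℝ := fun h g =>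
    (bl K R).indicator (fun g => Real.exp (∑ k, (√θ * (A *ᵥ (re h - m0)) k) * g k)) g with hE
  have hEi : ∀ h, Integrable (E h) (gau K) := fun h =>
    (integrable_exp_lin _).indicator (meas_bl R)
  have hE0 : ∀ h g, 0 ≤ E h g := fun h g =>
    Set.indicator_nonneg (fun _ _ => (Real.exp_pos _).le) _
  -- pointwise bound of the indicator
  have hind : ∀ h : V → ℤ,
      ({h : V → ℤ | a ≤ ∑ k, (A *ᵥ (re h - m0)) k ^ 2}.indicator fun _ => (1 : ℝ)) h ≤
        2 * Real.exp (-(θ * a / 2)) * ∫ g, E h g ∂(gau K) := by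
    intro h
    by_cases hh : h ∈ {h : V → ℤ | a ≤ ∑ k, (A *ᵥ (re h - m0)) k ^ 2}
    · rw [Set.indicator_of_mem hh]
      have h2 := ball_low (R := R) hθ ha le_rfl (show a ≤ ∑ k, (A *ᵥ (re h - m0)) k ^ 2 from hh)
      have h3 := mul_le_mul_of_nonneg_left h2 (show 0 ≤ 2 * Real.exp (-(θ * a / 2)) by positivity)
      refine le_trans (le_of_eq ?_) h3
      have : Real.exp (-(θ * a / 2)) * Real.exp (θ * a / 2) = 1 := by
        rw [← Real.exp_add]
        simp
      linear_combination -this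
    · rw [Set.indicator_of_notMem hh]
      exact mul_nonneg (by positivity) (integral_nonneg fun g => hE0 h g)
  -- partial sums
  have hpart : ∀ s : Finset (V → ℤ),
      ∑ h ∈ s, (∫ g, E h g ∂(gau K)) * μ h * Real.exp (li J h) ≤
        (TM.H104.T μ J fun _ => 1) * Real.exp (c0 + θ * S.trace) := by
    intro s
    have hi : ∀ h : V → ℤ, Integrable (fun g : K → ℝ => E h g * (μ h * Real.exp (li J h))) (gau K) :=
      fun h => (hEi h).mul_const _
    have e1 : ∑ h ∈ s, (∫ g, E h g ∂(gau K)) * μ h * Real.exp (li J h) =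
        ∫ g, ∑ h ∈ s, E h g * (μ h * Real.exp (li J h)) ∂(gau K) := by
      rw [integral_finsetSum s fun h _ => hi h]
      refine Finset.sum_congr rfl fun h _ => ?_
      rw [integral_mul_const, mul_assoc]
    have e2 : Real.exp (c0 + θ * S.trace) = Real.exp c0 * Real.exp (θ * S.trace) := Real.exp_add _ _
    rw [e1, e2]
    have h3 : ∫ g, ∑ h ∈ s, E h g * (μ h * Real.exp (li J h)) ∂(gau K) ≤
        ∫ g, (TM.H104.T μ J fun _ => 1) * (Real.exp c0 * Real.exp (θ * qf S g / 2)) ∂(gau K) := by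
      refine integral_mono (integrable_finsetSum s fun h _ => hi h)
        ((hgi.const_mul _).const_mul _) fun g => ?_
      beta_reduce
      by_cases hg : g ∈ bl K R
      · set φ : K → ℝ := √θ • g with hφ
        set u : V → ℝ := Aᵀ *ᵥ φ with hu
        have hφR : ∑ k, φ k ^ 2 ≤ ρ := by
          have : ∑ k, φ k ^ 2 = θ * ∑ k, g k ^ 2 := by
            rw [Finset.mul_sum]
            refine Finset.sum_congr rfl fun k _ => ?_
            rw [hφ, Pi.smul_apply, smul_eq_mul, mul_pow, Real.sq_sqrt hθ]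
          rw [this]
          have h4 : ∑ k, g k ^ 2 ≤ R := hg
          refine le_trans (mul_le_mul_of_nonneg_left h4 hθ) (le_trans (le_of_eq ?_) hρ)
          rw [hR]
          ring
        have h5 := hSG φ hφR
        rw [← hu] at h5
        have huu : u = √θ • (Aᵀ *ᵥ g) := by rw [hu, hφ, mulVec_smul]
        have h2 : ∀ h : V → ℤ, E h g * (μ h * Real.exp (li J h)) =
            Real.exp (-(u ⬝ᵥ m0)) * ((1 : ℝ) * μ h * Real.exp (li (J + u) h)) := by
          intro h
          rw [hE]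
          beta_reduce
          rw [Set.indicator_of_mem hg, pair_eq, ← huu, TM.H104.li_add, sub_eq_add_neg,
            Real.exp_add, Real.exp_add]
          ring
        simp only [h2]
        rw [← Finset.mul_sum]
        have h3 : ∑ h ∈ s, (1 : ℝ) * μ h * Real.exp (li (J + u) h) ≤
            TM.H104.T μ (J + u) fun _ => 1 := by
          unfold TM.H104.T
          exact (hμ.summ (Gr.const 1) (J + u)).sum_le_tsum s fun h _ =>
            mul_nonneg (mul_nonneg zero_le_one (hμ.nn h)) (Real.exp_pos _).le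
        have h4 : Real.exp (Lg μ (J + u) - Lg μ J - u ⬝ᵥ m0) =
            Real.exp (-(u ⬝ᵥ m0)) *
              ((TM.H104.T μ (J + u) fun _ => 1) / TM.H104.T μ J fun _ => 1) := by
          have hp1 := TM.H104.T_one_pos hμ (J + u)
          unfold Lg
          rw [sub_eq_add_neg, Real.exp_add, Real.exp_sub, Real.exp_log hp1, Real.exp_log hZ]
          ring
        have h6 : Real.exp (Lg μ (J + u) - Lg μ J - u ⬝ᵥ m0) ≤
            Real.exp c0 * Real.exp (θ * qf S g / 2) := by
          rw [← Real.exp_add]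
          refine Real.exp_le_exp.2 (h5.trans (le_of_eq ?_))
          rw [hφ, qf_smul, Real.sq_sqrt hθ]
        rw [h4] at h6
        calc Real.exp (-(u ⬝ᵥ m0)) * ∑ h ∈ s, (1 : ℝ) * μ h * Real.exp (li (J + u) h)
            ≤ Real.exp (-(u ⬝ᵥ m0)) * TM.H104.T μ (J + u) fun _ => 1 :=
              mul_le_mul_of_nonneg_left h3 (Real.exp_pos _).le
          _ = (TM.H104.T μ J fun _ => 1) * (Real.exp (-(u ⬝ᵥ m0)) *
              ((TM.H104.T μ (J + u) fun _ => 1) / TM.H104.T μ J fun _ => 1)) := by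
              field_simp
          _ ≤ _ := mul_le_mul_of_nonneg_left h6 hZ.le
      · have h2 : ∀ h : V → ℤ, E h g * (μ h * Real.exp (li J h)) = 0 := by
          intro h
          rw [hE]
          beta_reduce
          rw [Set.indicator_of_notMem hg, zero_mul]
        simp only [h2, Finset.sum_const_zero]
        positivity
    refine h3.trans ?_
    rw [integral_const_mul, integral_const_mul]
    exact mul_le_mul_of_nonneg_left (mul_le_mul_of_nonneg_left hgb (Real.exp_pos _).le) hZ.le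
  have h00 : ∀ h : V → ℤ, 0 ≤ (∫ g, E h g ∂(gau K)) * μ h * Real.exp (li J h) := fun h =>
    mul_nonneg (mul_nonneg (integral_nonneg fun g => hE0 h g) (hμ.nn h)) (Real.exp_pos _).le
  have hs : Summable fun h : V → ℤ => (∫ g, E h g ∂(gau K)) * μ h * Real.exp (li J h) :=
    summable_of_sum_le h00 hpart
  have hg : Gr ({h : V → ℤ | a ≤ ∑ k, (A *ᵥ (re h - m0)) k ^ 2}.indicator fun _ => (1 : ℝ)) := by
    refine Gr.of_bdd (C := 1) fun h => ?_
    by_cases hh : h ∈ {h : V → ℤ | a ≤ ∑ k, (A *ᵥ (re h - m0)) k ^ 2}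
    · rw [Set.indicator_of_mem hh]; norm_num
    · rw [Set.indicator_of_notMem hh]; norm_num
  have hs' : Summable fun h : V → ℤ => 2 * Real.exp (-(θ * a / 2)) *
      ((∫ g, E h g ∂(gau K)) * μ h * Real.exp (li J h)) := hs.mul_left _
  unfold Ex
  rw [div_le_iff₀ hZ]
  have h7 : (TM.H104.T μ J
      ({h : V → ℤ | a ≤ ∑ k, (A *ᵥ (re h - m0)) k ^ 2}.indicator fun _ => (1 : ℝ))) ≤
      ∑' h : V → ℤ, 2 * Real.exp (-(θ * a / 2)) *
        ((∫ g, E h g ∂(gau K)) * μ h * Real.exp (li J h)) := by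
    refine (hμ.summ hg J).tsum_le_tsum (fun h => ?_) hs'
    have h8 := mul_le_mul_of_nonneg_right (mul_le_mul_of_nonneg_right (hind h) (hμ.nn h))
      (Real.exp_pos (li J h)).le
    refine h8.trans (le_of_eq ?_)
    ring
  refine h7.trans ?_
  rw [tsum_mul_left]
  have h9 : ∑' h : V → ℤ, (∫ g, E h g ∂(gau K)) * μ h * Real.exp (li J h) ≤
      (TM.H104.T μ J fun _ => 1) * Real.exp (c0 + θ * S.trace) := hs.tsum_le_of_sum_le hpart
  refine (mul_le_mul_of_nonneg_left h9 (by positivity)).trans (le_of_eq ?_)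
  have e3 : Real.exp (c0 + θ * S.trace - θ * a / 2) =
      Real.exp (c0 + θ * S.trace) * Real.exp (-(θ * a / 2)) := by
    rw [← Real.exp_add]
    congr 1
  rw [e3]
  ring

/-- **FINE part**: domination of `Lg (J + Aᵀφ) - Lg 0` for `|φ|² ≤ ρ` only, centre `H J` -/
theorem htB_base (hμ : EM μ) {J : V → ℝ} (hR : 0 ≤ Rs μ J) {H : Matrix V V ℝ} {c : ℝ}
    (hH : Hᵀ = H) (A : Matrix K V ℝ) (h0 : ∀ φ : K → ℝ, 0 ≤ qf H (Aᵀ *ᵥ φ))
    {θ a ρ : ℝ} (hθ : 0 ≤ θ) (ha : 0 ≤ a)
    (hρ : 2 * θ * (θ * a + 2 * Fintype.card K) ≤ ρ)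
    (hd : ∀ φ : K → ℝ, ∑ k, φ k ^ 2 ≤ ρ →
      Lg μ (J + Aᵀ *ᵥ φ) - Lg μ 0 ≤ c + qf H (J + Aᵀ *ᵥ φ) / 2)
    (h1 : ∀ φ : K → ℝ, θ * qf H (Aᵀ *ᵥ φ) ≤ (∑ k, φ k ^ 2) / 2) :
    Ex μ J ({h : V → ℤ | a ≤ ∑ k, (A *ᵥ (re h - H *ᵥ J)) k ^ 2}.indicator fun _ => (1 : ℝ)) ≤
      2 * Real.exp (cB μ H c J + θ * (A * H * Aᵀ).trace - θ * a / 2) := by
  have e : ∀ φ : K → ℝ, qf (A * H * Aᵀ) φ = qf H (Aᵀ *ᵥ φ) := qf_congr_mul A H
  refine htB hμ J (H *ᵥ J) A (S := A * H * Aᵀ) ?_ (fun φ => by rw [e]; exact h0 φ) hθ ha hρ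
    (fun φ hφ => ?_) (fun φ => by rw [e]; exact h1 φ)
  · rw [transpose_mul, transpose_mul, transpose_transpose, hH, Matrix.mul_assoc]
  · rw [e]
    exact sg_base hH hR (hd φ hφ)

end

end Vale.Agent.P159.H816
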