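import Vale.Agent.P159.H816.Ev0
import Vale.Agent.P159.H896.Rq8
import Vale.Agent.P159.H145.Nu2
import Vale.Agent.P159.H375.AclE

/-!
P159 / **Rq9: the numbers of RF2b** (helper816, for helper896), part 1: one state.

`q = e^(-th/16)`, `m = e^(-6 x1)`, `L = 1 + log2 (1/e)`.
-/

set_option linter.unusedSectionVars false

namespace Vale.Agent.P159.H816

open Finset Matrix MeasureTheory
open Vale.Agent.P159.TM.H764 (EE)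
open Vale.Agent.P159.H37
open Vale.Agent.P159.H864 (sym)
open Vale.Agent.P159.H963 (nwt)
open Vale.Agent.P159.H896 (q1 rf3 typ_exact_q one_le_q1)
open Vale.Agent.P159.H447 (SN K4S)
open Vale.Agent.P159.H239 (TypE)
open Vale.Agent.P159.H972 (tn DN)

noncomputable section

/-- the numbers of RF2b -/
structure RfN (b C c σ : ℝ) (J j k : ℕ) (q m L e C0 : ℝ) : Prop where
  e0 : 0 < e
  e1 : e ≤ 1 / 4
  q1 : 1 ≤ q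
  m1 : 1 ≤ m
  qJ : (2 : ℝ) ^ (J + 1) ≤ q
  qk : (2 : ℝ) ^ (j + k) / 2 ≤ q
  y0 : 16 * (1 + b) ^ 2 * m ^ 6 * q ^ 2 * e ≤ e ^ (1 - σ / 8)
  sum : 8 * e ^ (1 - σ / 4) + 2 * e ^ 2 ≤ e ^ (1 - σ / 3)
  M0 : 2 * (1 + b) * b * m ^ 4 * ((C0 + 4) * L) ≤ e ^ (-1 : ℝ)
  y1 : 2 + 2 * e ^ (-1 : ℝ) * (q ^ 2 + 1 / 2) ≤ e ^ (-2 : ℝ)
  m2 : 4 * m ^ 2 ≤ e ^ (-1 : ℝ)
  a1 : q ^ 2 * ((1 + b) * m ^ 2) ≤ e ^ (-1 : ℝ)
  C1 : 2 * C * e ^ (-13 : ℝ) * e ^ (c * C0) ≤ e ^ 2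
  p1 : 12 * Real.exp (-(q / 20)) ≤ e ^ 2
  fin : 288 * 16 ^ j * e ^ (1 - σ / 2) + e ^ 2 / 2 ≤ e ^ (1 - σ)

lemma tn_N2 {n r : ℕ} (h : n ≤ r) : tn n * (((2 : ℕ) ^ r : ℕ) : ℝ) ^ 2 = ((2 : ℝ) ^ (r - n)) ^ 2 := by
  unfold H972.tn
  push_cast
  have h1 : (2 : ℝ) ^ r = 2 ^ (r - n) * 2 ^ n := by rw [← pow_add, Nat.sub_add_cancel h]
  have h2 : (4 : ℝ) ^ n = (2 ^ n) ^ 2 := by rw [← pow_mul, mul_comm, pow_mul]; norm_num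
  rw [h1, h2]
  field_simp

lemma rpow_pow_nat {e a : ℝ} (he : 0 < e) (k : ℕ) : (e ^ a) ^ k = e ^ (k * a) := rpow_pow' he k

/-- the closure number -/
lemma cl_le {e σ y : ℝ} {J : ℕ} (he : 0 < e) (he1 : e ≤ 1) (hσ : 0 < σ) (_hσ1 : σ ≤ 1)
    (hJ : (1 / 2 : ℝ) ^ J ≤ σ / 8) (hy : y ≤ e ^ (1 - σ / 8)) :
    H447.cl J y ≤ 8 * e ^ (1 - σ / 4) := by
  have J0 : (0 : ℝ) < (1 / 2) ^ J := by positivity
  unfold H447.cl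
  have h2 : √y ≤ e ^ ((1 - σ / 8) / 2) := by
    refine (Real.sqrt_le_sqrt hy).trans (le_of_eq ?_)
    rw [Real.sqrt_eq_rpow, ← Real.rpow_mul he.le]
    congr 1
    ring
  have h3 : √y ^ (2 - 2 * (1 / 2 : ℝ) ^ J) ≤
      (e ^ ((1 - σ / 8) / 2)) ^ (2 - 2 * (1 / 2 : ℝ) ^ J) :=
    Real.rpow_le_rpow (Real.sqrt_nonneg _) h2 (H447.cl_exp J)
  have h5 : (e ^ ((1 - σ / 8) / 2)) ^ (2 - 2 * (1 / 2 : ℝ) ^ J) ≤ e ^ (1 - σ / 4) := by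
    rw [← Real.rpow_mul he.le]
    refine Real.rpow_le_rpow_of_exponent_ge he he1 ?_
    nlinarith
  linarith

lemma pow_fin {e σ X : ℝ} {k : ℕ} (he : 0 < e) (he1 : e ≤ 1) (hσ : 0 < σ) (hσ1 : σ ≤ 1)
    (hk : (1 / 2 : ℝ) ^ k ≤ σ / 8) (hX0 : 0 ≤ X) (hX : X ≤ e ^ (1 - σ / 3)) :
    X ^ (1 - (1 / 2 : ℝ) ^ k) ≤ e ^ (1 - σ / 2) := by
  have k0 : (0 : ℝ) < (1 / 2) ^ k := by positivity
  have hk1 : (0 : ℝ) ≤ 1 - (1 / 2) ^ k := by linarith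
  refine (Real.rpow_le_rpow hX0 hX hk1).trans ?_
  rw [← Real.rpow_mul he.le]
  refine Real.rpow_le_rpow_of_exponent_ge he he1 ?_
  nlinarith

lemma S_pow {e C0 c T : ℝ} {n S : ℕ} (he : 0 < e) (hc : 0 < c) (hc1 : c ≤ 1)
    (hG : (2 : ℝ) ^ S ≤ 2 ^ n * e ^ C0) (hT : T ≤ 4 * tn n) :
    ((2 : ℝ) ^ S * √T) ^ c ≤ 2 * e ^ (c * C0) := by
  have P : ∀ a : ℝ, 0 < e ^ a := fun a => Real.rpow_pos_of_pos he a
  have h2 : √T ≤ 2 * (2 ^ n : ℝ)⁻¹ := by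
    have h3 : √T ≤ √(4 * tn n) := Real.sqrt_le_sqrt hT
    rw [Real.sqrt_mul (by norm_num), sqrt_tn, show √(4 : ℝ) = 2 by
      rw [show (4 : ℝ) = 2 ^ 2 by norm_num, Real.sqrt_sq two_pos.le]] at h3
    exact h3
  have h3 : (2 : ℝ) ^ S * √T ≤ 2 * e ^ C0 := by
    have h5 : (0 : ℝ) < 2 ^ n := by positivity
    calc (2 : ℝ) ^ S * √T ≤ (2 ^ n * e ^ C0) * (2 * (2 ^ n : ℝ)⁻¹) :=
          mul_le_mul hG h2 (Real.sqrt_nonneg _) (by have := P C0; positivity)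
      _ = 2 * e ^ C0 := by field_simp
  have h5 : ((2 : ℝ) ^ S * √T) ^ c ≤ (2 * e ^ C0) ^ c :=
    Real.rpow_le_rpow (by positivity) h3 hc.le
  refine h5.trans ?_
  rw [Real.mul_rpow two_pos.le (P C0).le, ← Real.rpow_mul he.le, mul_comm C0 c]
  have h6 : (2 : ℝ) ^ c ≤ 2 := by
    calc (2 : ℝ) ^ c ≤ 2 ^ (1 : ℝ) := Real.rpow_le_rpow_of_exponent_le one_le_two hc1
      _ = 2 := Real.rpow_one 2
  exact mul_le_mul_of_nonneg_right h6 (P _).le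

lemma log_cell {C0 L : ℝ} {r S : ℕ} (hSr : S ≤ r) (hL1 : 1 ≤ L)
    (hrS : ((r - S : ℕ) : ℝ) ≤ (C0 + 2) * L) :
    0 ≤ Real.log ((2 ^ r / 2 ^ S : ℕ) : ℝ) ∧
      2 + Real.log ((2 ^ r / 2 ^ S : ℕ) : ℝ) ≤ (C0 + 4) * L := by
  have h2 : (2 ^ r / 2 ^ S : ℕ) = 2 ^ (r - S) := Nat.pow_div hSr two_pos
  have h3 : Real.log ((2 ^ r / 2 ^ S : ℕ) : ℝ) ≤ ((r - S : ℕ) : ℝ) := by
    rw [h2]
    push_cast
    rw [Real.log_pow]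
    have h5 := Real.log_two_lt_d9
    have h6 : (0 : ℝ) ≤ ((r - S : ℕ) : ℝ) := Nat.cast_nonneg _
    nlinarith
  refine ⟨?_, by linarith⟩
  rw [h2]
  exact Real.log_nonneg (by
    push_cast
    exact one_le_pow₀ one_le_two)

lemma q1_le {b m T : ℝ} {n r : ℕ} (hb : 0 < b) (hm : 1 ≤ m) (hnr : n ≤ r)
    (hM : (2 : ℝ) ^ (r - n) ≤ m) (hT : T ≤ 4 * tn n) : q1 (2 ^ r) b T ≤ (1 + b) * m ^ 2 := by
  have hMM : ((2 : ℝ) ^ (r - n)) ^ 2 ≤ m ^ 2 := pow_le_pow_left₀ (by positivity) hM 2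
  have m21 : 1 ≤ m ^ 2 := one_le_pow₀ hm
  unfold H896.q1
  have h2 : T * (((2 : ℕ) ^ r : ℕ) : ℝ) ^ 2 ≤ 4 * ((2 : ℝ) ^ (r - n)) ^ 2 := by
    have h2 := mul_le_mul_of_nonneg_right hT (sq_nonneg (((2 : ℕ) ^ r : ℕ) : ℝ))
    rw [mul_assoc, tn_N2 hnr] at h2
    exact h2
  have h5 : b * T * (((2 : ℕ) ^ r : ℕ) : ℝ) ^ 2 = b * (T * (((2 : ℕ) ^ r : ℕ) : ℝ) ^ 2) := by
    ring
  rw [h5]
  have h6 : b * (T * (((2 : ℕ) ^ r : ℕ) : ℝ) ^ 2) ≤ b * (4 * m ^ 2) :=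
    mul_le_mul_of_nonneg_left (h2.trans (by linarith)) hb.le
  have h7 : 0 ≤ b * m ^ 2 := by positivity
  linarith

lemma M_fin {b C c σ C0 q m L e : ℝ} {J j k n r S : ℕ} (hb : 0 < b)
    (nm : RfN b C c σ J j k q m L e C0) (hL1 : 1 ≤ L) (hnr : n ≤ r) (hSr : S ≤ r)
    (hM : (2 : ℝ) ^ (r - n) ≤ m) (hrS : ((r - S : ℕ) : ℝ) ≤ (C0 + 2) * L) :
    q1 (2 ^ r) b (tn n) * tn n * (2 * b * (((2 : ℕ) ^ r : ℕ) : ℝ) ^ 2 *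
      (2 + Real.log ((2 ^ r / 2 ^ S : ℕ) : ℝ))) ≤ e ^ (-1 : ℝ) := by
  have m0 : 0 < m := by linarith [nm.m1]
  have ht : 0 < tn n := tn_pos n
  have hMM : ((2 : ℝ) ^ (r - n)) ^ 2 ≤ m ^ 2 := pow_le_pow_left₀ (by positivity) hM 2
  have hq1t := q1_le hb nm.m1 hnr hM (by linarith : tn n ≤ 4 * tn n)
  obtain ⟨h0, h5⟩ := log_cell hSr hL1 hrS
  have h6 : q1 (2 ^ r) b (tn n) * tn n * (2 * b * (((2 : ℕ) ^ r : ℕ) : ℝ) ^ 2 *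
      (2 + Real.log ((2 ^ r / 2 ^ S : ℕ) : ℝ))) = q1 (2 ^ r) b (tn n) *
      (2 * b * (tn n * (((2 : ℕ) ^ r : ℕ) : ℝ) ^ 2) *
      (2 + Real.log ((2 ^ r / 2 ^ S : ℕ) : ℝ))) := by ring
  rw [h6, tn_N2 hnr]
  calc q1 (2 ^ r) b (tn n) * (2 * b * ((2 : ℝ) ^ (r - n)) ^ 2 *
        (2 + Real.log ((2 ^ r / 2 ^ S : ℕ) : ℝ)))
      ≤ ((1 + b) * m ^ 2) * (2 * b * m ^ 2 * ((C0 + 4) * L)) :=
        mul_le_mul hq1t (mul_le_mul (mul_le_mul_of_nonneg_left hMM (by positivity)) h5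
          (by positivity) (by positivity)) (by positivity) (by positivity)
    _ = 2 * (1 + b) * b * m ^ 4 * ((C0 + 4) * L) := by ring
    _ ≤ _ := nm.M0

lemma C_fin {b C c σ C0 q m L e : ℝ} {J j k n S : ℕ} (hC : 0 ≤ C) (hc : 0 < c) (hc1 : c ≤ 1)
    (nm : RfN b C c σ J j k q m L e C0) (hG : (2 : ℝ) ^ S ≤ 2 ^ n * e ^ C0) {X T : ℝ}
    (hX : X ≤ e ^ (-13 : ℝ)) (hT : T ≤ 4 * tn n) :
    C * X * ((2 : ℝ) ^ S * √T) ^ c ≤ e ^ 2 := by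
  have he := nm.e0
  have h2 := S_pow he hc hc1 hG hT
  have h3 : 0 < e ^ (-13 : ℝ) := Real.rpow_pos_of_pos he _
  have h4 : 0 < e ^ (c * C0) := Real.rpow_pos_of_pos he _
  calc C * X * ((2 : ℝ) ^ S * √T) ^ c ≤ C * e ^ (-13 : ℝ) * (2 * e ^ (c * C0)) :=
        mul_le_mul (mul_le_mul_of_nonneg_left hX hC) h2
          (Real.rpow_nonneg (by positivity) _) (by positivity)
    _ = 2 * C * e ^ (-13 : ℝ) * e ^ (c * C0) := by ring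
    _ ≤ _ := nm.C1

lemma E_fin {b C c σ C0 q m L e τ : ℝ} {J j k n r S : ℕ} (hb : 0 < b) (hC : 0 ≤ C) (hc : 0 < c)
    (hc1 : c ≤ 1) (nm : RfN b C c σ J j k q m L e C0) (hG : (2 : ℝ) ^ S ≤ 2 ^ n * e ^ C0)
    (hnr : n ≤ r) (hM : (2 : ℝ) ^ (r - n) ≤ m) (hτ : 0 < τ) (h4 : τ ≤ 4 * tn n) :
    C * ((2 + 2 * e ^ (-1 : ℝ) * (q ^ 2 + 1 / 2)) ^ 6 *
      (τ * (((2 : ℕ) ^ r : ℕ) : ℝ) ^ 2)) * ((2 : ℝ) ^ S * √τ) ^ c ≤ e ^ 2 ∧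
    C * ((tn n * (((2 : ℕ) ^ r : ℕ) : ℝ) ^ 2) * (q ^ 2 * q1 (2 ^ r) b (tn n)) ^ 3) *
      ((2 : ℝ) ^ S * √(tn n)) ^ c ≤ e ^ 2 := by
  have he := nm.e0
  have he1 : e ≤ 1 := by linarith [nm.e1]
  have P : ∀ a : ℝ, 0 < e ^ a := fun a => Real.rpow_pos_of_pos he a
  have ht : 0 < tn n := tn_pos n
  have hMM : ((2 : ℝ) ^ (r - n)) ^ 2 ≤ m ^ 2 := pow_le_pow_left₀ (by positivity) hM 2
  have htN := tn_N2 hnr
  have hτN : τ * (((2 : ℕ) ^ r : ℕ) : ℝ) ^ 2 ≤ 4 * m ^ 2 := by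
    have h2 := mul_le_mul_of_nonneg_right h4 (sq_nonneg (((2 : ℕ) ^ r : ℕ) : ℝ))
    rw [mul_assoc, htN] at h2
    linarith
  have hq1t := q1_le hb nm.m1 hnr hM (by linarith : tn n ≤ 4 * tn n)
  have q1t0 : 1 ≤ q1 (2 ^ r) b (tn n) := one_le_q1 _ hb.le ht.le
  have e1p := P (-1)
  constructor
  · refine C_fin hC hc hc1 nm hG ?_ h4
    have h2 : (2 + 2 * e ^ (-1 : ℝ) * (q ^ 2 + 1 / 2)) ^ 6 ≤ (e ^ (-2 : ℝ)) ^ 6 :=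
      pow_le_pow_left₀ (by positivity) nm.y1 6
    have h3 : τ * (((2 : ℕ) ^ r : ℕ) : ℝ) ^ 2 ≤ e ^ (-1 : ℝ) := hτN.trans nm.m2
    calc (2 + 2 * e ^ (-1 : ℝ) * (q ^ 2 + 1 / 2)) ^ 6 * (τ * (((2 : ℕ) ^ r : ℕ) : ℝ) ^ 2)
        ≤ (e ^ (-2 : ℝ)) ^ 6 * e ^ (-1 : ℝ) :=
          mul_le_mul h2 h3 (by positivity) (by have := P (-2); positivity)
      _ = e ^ (-13 : ℝ) := by
        rw [rpow_pow' he, ← Real.rpow_add he]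
        congr 1
        push_cast
        norm_num
  · refine C_fin hC hc hc1 nm hG ?_ (by linarith : tn n ≤ 4 * tn n)
    have h2 : (q ^ 2 * q1 (2 ^ r) b (tn n)) ^ 3 ≤ (e ^ (-1 : ℝ)) ^ 3 := by
      refine pow_le_pow_left₀ (by positivity) ?_ 3
      exact (mul_le_mul_of_nonneg_left hq1t (sq_nonneg q)).trans nm.a1
    have h3 : tn n * (((2 : ℕ) ^ r : ℕ) : ℝ) ^ 2 ≤ e ^ (-1 : ℝ) := by
      rw [htN]
      have := nm.m2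
      have h5 : 0 ≤ m ^ 2 := sq_nonneg m
      linarith
    calc tn n * (((2 : ℕ) ^ r : ℕ) : ℝ) ^ 2 * (q ^ 2 * q1 (2 ^ r) b (tn n)) ^ 3
        ≤ e ^ (-1 : ℝ) * (e ^ (-1 : ℝ)) ^ 3 := mul_le_mul h3 h2 (by positivity) e1p.le
      _ = e ^ (-4 : ℝ) := by
        rw [rpow_pow' he, ← Real.rpow_add he]
        congr 1
        push_cast
        norm_num
      _ ≤ e ^ (-13 : ℝ) := Real.rpow_le_rpow_of_exponent_ge he he1 (by norm_num)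

lemma tau_S {τ : ℝ} {n S : ℕ} (h4 : τ ≤ 4 * tn n) (hSn : S + 2 ≤ n) :
    τ * ((2 : ℝ) ^ S) ^ 2 ≤ 1 / 4 := by
  have hS2 : ((2 : ℝ) ^ S) ^ 2 = 4 ^ S := by rw [← pow_mul, mul_comm, pow_mul]; norm_num
  have h2 : τ * ((2 : ℝ) ^ S) ^ 2 ≤ 4 * tn n * 4 ^ S := by
    rw [hS2]
    exact mul_le_mul_of_nonneg_right h4 (by positivity)
  refine h2.trans ?_
  unfold H972.tn
  have h3 : (4 : ℝ) ^ (S + 2) ≤ 4 ^ n := pow_le_pow_right₀ (by norm_num) hSn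
  have h5 : (0 : ℝ) < 4 ^ n := by positivity
  rw [pow_add] at h3
  have e1 : 4 * ((4 : ℝ) ^ n)⁻¹ * 4 ^ S = 4 * 4 ^ S / 4 ^ n := by
    field_simp
  rw [e1, div_le_iff₀ h5]
  linarith

/-- the probability of the exceptional set at the large cells -/
lemma pr_fin {b C c σ C0 q m L e : ℝ} {J j k : ℕ} (nm : RfN b C c σ J j k q m L e C0) :
    2 * √(18 * Real.exp (-q) + 17 * Real.exp (-(q / 10))) ≤ e ^ 2 ∧
    √(18 * Real.exp (-q) + 17 * Real.exp (-(q / 10))) ≤ 6 * Real.exp (-(q / 20)) ∧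
    18 * Real.exp (-q) + 17 * Real.exp (-(q / 10)) ≤ 1 / 4 := by
  have q0 : 0 < q := by linarith [nm.q1]
  have he := nm.e0
  set pr : ℝ := 18 * Real.exp (-q) + 17 * Real.exp (-(q / 10)) with hprd
  have hq20 : Real.exp (-(q / 20)) ^ 2 = Real.exp (-(q / 10)) := by
    rw [← Real.exp_nat_mul]
    congr 1
    push_cast
    ring
  have hqq : Real.exp (-q) ≤ Real.exp (-(q / 10)) := Real.exp_le_exp.2 (by linarith)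
  have hpr36 : pr ≤ (6 * Real.exp (-(q / 20))) ^ 2 := by
    rw [mul_pow, hq20, hprd]
    have := Real.exp_pos (-(q / 10))
    linarith
  have hspr : √pr ≤ 6 * Real.exp (-(q / 20)) := by
    rw [Real.sqrt_le_left (by positivity)]
    exact hpr36
  have hp1 := nm.p1
  have he2 : e ^ 2 ≤ 1 / 16 := by
    have := pow_le_pow_left₀ he.le nm.e1 2
    norm_num at this
    linarith
  refine ⟨by linarith, hspr, ?_⟩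
  have h2 : 6 * Real.exp (-(q / 20)) ≤ 1 / 32 := by linarith
  have h3 := pow_le_pow_left₀ (by positivity) h2 2
  norm_num at h3
  linarith

lemma K_fin {b m e τ : ℝ} {n r S : ℕ} (hb : 0 < b) (he : 0 < e) (hm : 1 ≤ m) (hnr : n ≤ r)
    (hM : (2 : ℝ) ^ (r - n) ≤ m) (hτ : 0 < τ) (h4 : τ ≤ 4 * tn n) (hD : DN b n r S τ ≤ e) :
    (1 : ℝ) ^ 4 * ((q1 (2 ^ r) b τ * τ) ^ 2 *
      K4S (nwt (2 ^ r) b τ 0) (SN (2 ^ r) (2 ^ S)) (SN (2 ^ r) (2 ^ S))) ≤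
      ((1 + b) * m ^ 2) ^ 2 * (2 * m ^ 2 * e) := by
  have hMM : ((2 : ℝ) ^ (r - n)) ^ 2 ≤ m ^ 2 := pow_le_pow_left₀ (by positivity) hM 2
  have hq1τ := q1_le hb hm hnr hM h4
  have q1τ0 : 1 ≤ q1 (2 ^ r) b τ := one_le_q1 _ hb.le hτ.le
  have hK4 := H145.K4_le hnr hD
  rw [one_pow, one_mul, mul_pow, mul_assoc]
  have h2 : q1 (2 ^ r) b τ ^ 2 ≤ ((1 + b) * m ^ 2) ^ 2 :=
    pow_le_pow_left₀ (by linarith) hq1τ 2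
  calc q1 (2 ^ r) b τ ^ 2 * (τ ^ 2 *
        K4S (nwt (2 ^ r) b τ 0) (SN (2 ^ r) (2 ^ S)) (SN (2 ^ r) (2 ^ S)))
      ≤ q1 (2 ^ r) b τ ^ 2 * (2 * ((2 : ℝ) ^ (r - n)) ^ 2 * e) :=
        mul_le_mul_of_nonneg_left hK4 (sq_nonneg _)
    _ ≤ ((1 + b) * m ^ 2) ^ 2 * (2 * m ^ 2 * e) :=
      mul_le_mul h2 (mul_le_mul_of_nonneg_right (by linarith) he.le) (by positivity)
        (by positivity)

lemma lev_fin {b C c σ C0 q m L e X : ℝ} {J j k : ℕ} (nm : RfN b C c σ J j k q m L e C0)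
    (hσ : 0 < σ) (hσ1 : σ ≤ 1) (hk : (1 / 2 : ℝ) ^ k ≤ σ / 8) (hX0 : 0 ≤ X)
    (hX : X ≤ e ^ (1 - σ / 3)) :
    1 / 2 * (576 * 16 ^ j * X ^ (1 - (1 / 2 : ℝ) ^ k)) + 1 / 2 * e ^ 2 ≤ e ^ (1 - σ) := by
  have h2 := pow_fin nm.e0 (by linarith [nm.e1]) hσ hσ1 hk hX0 hX
  have h3 : (0 : ℝ) ≤ 576 * 16 ^ j := by positivity
  have h5 := mul_le_mul_of_nonneg_left h2 h3
  have h6 := nm.fin
  linarith

lemma pr2_fin {q s : ℝ} (hq : 1 ≤ q) (hs : s ≤ 6 * Real.exp (-(q / 20))) :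
    Real.exp (-q) + 3 * (2 * (6 * s + 12 * Real.exp (-q) + Real.exp (-(q ^ 2))) +
      Real.exp (-(q ^ 2 / 7))) ≤ 320 * Real.exp (-(q / 20)) := by
  have h2 : Real.exp (-q) ≤ Real.exp (-(q / 20)) := Real.exp_le_exp.2 (by linarith)
  have h3 : Real.exp (-(q ^ 2)) ≤ Real.exp (-(q / 20)) := Real.exp_le_exp.2 (by nlinarith)
  have h5 : Real.exp (-(q ^ 2 / 7)) ≤ Real.exp (-(q / 20)) :=
    Real.exp_le_exp.2 (by nlinarith)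
  have := Real.exp_pos (-(q / 20))
  linarith

lemma four_t (n : ℕ) : 1 < tn n * 4 ^ (n + 1) := by
  unfold H972.tn
  have h5 : (0 : ℝ) < 4 ^ n := by positivity
  rw [pow_succ, ← mul_assoc, inv_mul_cancel₀ h5.ne']
  norm_num

lemma exp_q {q : ℝ} (hq : 1 ≤ q) : Real.exp (-q) ≤ 1 / 2 := by
  have h2 : Real.exp (-q) ≤ Real.exp (-1) := Real.exp_le_exp.2 (by linarith)
  have h3 := Real.exp_neg_one_lt_d9
  linarith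

lemma rho_fin {b C c σ C0 q m L e : ℝ} {J j k : ℕ} (nm : RfN b C c σ J j k q m L e C0)
    (hσ : 0 < σ) (hσ1 : σ ≤ 1) (hJ : (1 / 2 : ℝ) ^ J ≤ σ / 8) :
    H447.cl J (8 * (q ^ 2 * (((1 + b) * m ^ 2) ^ 2 * (2 * m ^ 2 * e)))) ≤ 8 * e ^ (1 - σ / 4) := by
  refine cl_le nm.e0 (by linarith [nm.e1]) hσ hσ1 hJ ?_
  refine le_trans (le_of_eq ?_) nm.y0
  ring

/-- **RF2b, one state** -/
theorem rf_state {b : ℝ} (hb : 0 < b) : ∃ C c : ℝ, 0 ≤ C ∧ 0 < c ∧ c ≤ 1 ∧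
    ∀ (σ C0 q m L e : ℝ) (J j k : ℕ), 0 < σ → σ ≤ 1 → (1 / 2 : ℝ) ^ J ≤ σ / 8 →
      (1 / 2 : ℝ) ^ k ≤ σ / 8 → 4 * √(1 + 20 * b) ≤ 2 ^ j → 1 ≤ L →
      RfN b C c σ J j k q m L e C0 →
    ∀ (n r S s : ℕ), n ≤ r → S + 2 ≤ n → s ≤ S → (2 : ℝ) ^ (r - n) ≤ m →
      ((r - S : ℕ) : ℝ) ≤ (C0 + 2) * L → (2 : ℝ) ^ S ≤ 2 ^ n * e ^ C0 →
    ∀ τ a : ℝ, tn n ≤ τ → τ ≤ 4 * tn n → DN b n r S τ ≤ e → 0 < a → a < tn n →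
    ∀ [NeZero (2 ^ r / 2 ^ S)] [NeZero (2 ^ r / 2 ^ s)],
      (∀ k : TM.Spec.V (2 ^ r / 2 ^ S), sym (H363.acl (2 ^ r) (2 ^ S) b τ τ) k ≤ 10 * EE k) →
      TypE (2 ^ r) (2 ^ S) b τ a q (1 / 2) (Real.exp (-q)) →
      TypE (2 ^ r) (2 ^ S) b (tn n) a q 1 (Real.exp (-q)) →
      TypE (2 ^ r) (2 ^ s) b (tn n) a q 1 (Real.exp (-q)) →
      TypE (2 ^ r) (2 ^ s) b (tn n) a 1 (e ^ (1 - σ)) (320 * Real.exp (-(q / 20))) := by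
  obtain ⟨C, c, hC, hc, hc1, H⟩ := rf3 hb
  refine ⟨C, c, hC, hc, hc1, ?_⟩
  intro σ C0 q m L e J j k hσ hσ1 hJ hk hj hL1 nm n r S s hnr hSn hsS hM hrS hG τ a h1 h4
    hD ha haT _ _ hsym T1 T2 T3
  have he := nm.e0
  have he1 : e ≤ 1 := by linarith [nm.e1]
  have hq1 := nm.q1
  have q0 : 0 < q := by linarith
  have m0 : 0 < m := by linarith [nm.m1]
  have ht : 0 < tn n := tn_pos n
  have hτ : 0 < τ := ht.trans_le h1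
  have hSr : S ≤ r := by omega
  have dS : 2 ^ S ∣ 2 ^ r := pow_dvd_pow 2 hSr
  have ds : 2 ^ s ∣ 2 ^ r := pow_dvd_pow 2 (hsS.trans hSr)
  have hexp1 := exp_q hq1
  have one_b : 0 < 1 + b := by linarith
  have hK := K_fin (S := S) hb he nm.m1 hnr hM hτ h4 hD
  have hρ := rho_fin nm hσ hσ1 hJ
  obtain ⟨hp1, hspr, hpr4⟩ := pr_fin nm
  have hMfin := M_fin hb nm hL1 hnr hSr hM hrS
  have hτS := tau_S (S := S) h4 hSn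
  obtain ⟨hE, hr5⟩ := E_fin hb hC hc hc1 nm hG hnr hM hτ h4
  have hE0 : 0 ≤ C * ((2 + 2 * e ^ (-1 : ℝ) * (q ^ 2 + 1 / 2)) ^ 6 *
      (τ * (((2 : ℕ) ^ r : ℕ) : ℝ) ^ 2)) * ((2 : ℝ) ^ S * √τ) ^ c :=
    mul_nonneg (mul_nonneg hC (by positivity)) (Real.rpow_nonneg (by positivity) _)
  generalize hDg : ((1 + b) * m ^ 2) ^ 2 * (2 * m ^ 2 * e) = D at hK hρ
  have D0 : 0 < D := by rw [← hDg]; positivity
  have E1 := typ_exact_q hb dS ha (haT.trans_le h1) T1 (κ := 1) (D := D) (lam := q ^ 2) (n := J)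
    zero_le_one (by rw [mul_one]; exact nm.qJ) hq1 (by norm_num) hexp1 D0 hK (sq_nonneg q)
  rw [Real.sqrt_sq q0.le] at E1
  have hρ0 : 0 ≤ H447.cl J (8 * (q ^ 2 * D)) := H447.cl_nonneg _ _
  have hpr0 : 0 < 18 * Real.exp (-q) + 17 * Real.exp (-(q / 10)) := by positivity
  generalize H447.cl J (8 * (q ^ 2 * D)) = ρ at E1 hρ hρ0
  generalize 18 * Real.exp (-q) + 17 * Real.exp (-(q / 10)) = pr at E1 hp1 hspr hpr4 hpr0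
  have hσ3 : e ^ (1 - σ / 3) ≤ 1 := Real.rpow_le_one he.le he1 (by linarith)
  have hs0 := nm.sum
  have e2p : 0 < e ^ 2 := by positivity
  have key := H (2 ^ r) S s n hsS dS (pow_dvd_pow 2 hnr) τ (tn n) a ha haT h1
    (hτS.trans (by norm_num)) (four_t n) ρ pr q (Real.exp (-q)) (e ^ (-1 : ℝ)) (q ^ 2) E1 hpr0
    hpr4 (by linarith) T2 hq1 hexp1 hMfin (Real.rpow_pos_of_pos he _) (sq_nonneg q) j k nm.qk hj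
    hsym (e ^ 2) q (Real.exp (-q)) hq1 e2p hr5
    (T3.mono hb.le ds ha haT.le zero_le_one hq1 le_rfl le_rfl)
  refine key.mono hb.le ds ha haT.le zero_le_one le_rfl ?_ (pr2_fin hq1 hspr)
  refine lev_fin nm hσ hσ1 hk ?_ ?_
  · have := Real.sqrt_nonneg pr
    linarith
  · linarith

end

end Vale.Agent.P159.H816
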