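import Vale.Agent.P159.H816.St1
import Vale.Agent.P159.H859.Idl5

/-!
P159 / **smooth real fields: helper859's `SmT` in `Ev` form** (helper816, for 770, 686, 859), part 1.

* `PinC_flat` : `l² PinC k ≤ (a + 3 η + 20 t l²) EE k` for `EE k ≤ t l²`, from the flat profile;
* `SmP P b c1 δ k` and `ev_smt` : `SmT` at the finest V cells of every state.
-/

set_option linter.unusedSectionVars false

namespace Vale.Agent.P159.H816

open Finset Matrix Filter Topology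
open Vale.Agent.P159.TM.H764 (EE)
open Vale.Agent.P159.TM.Spec (V)
open Vale.Agent.P159.H963 (Pin PinC)
open Vale.Agent.P159.H864 (cen rd)
open Vale.Agent.P159.H375 (FU FU_of_FL lap_cen PinC_up EE_ge_min top_arith)
open Vale.Agent.P159.H972 (Par lg tn one_le_logb GP AP RNG FL Good)
open Vale.Agent.P159.H239 (Fam Sel TypE)
open Vale.Agent.P159.H801 (Ev PS)
open Vale.Agent.P159.H859.Idl (SmT)

noncomputable section

/-- **low cell stiffness from the flat profile** -/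
theorem PinC_flat {N l : ℕ} [NeZero N] [NeZero (N / l)] {b t : ℝ} (hb : 0 < b) (hl : l ∣ N)
    (ht : 0 < t) {a η : ℝ} (ha1 : 1 ≤ a) (ha2 : a ≤ 2) (hη0 : 0 ≤ η) (hη : η ≤ 1)
    (hν : t * (l : ℝ) ^ 2 ≤ 1 / 4) (hF : FU b t a η N) {k : V (N / l)} (hk : k ≠ 0)
    (hEν : EE k ≤ t * (l : ℝ) ^ 2) :
    (l : ℝ) ^ 2 * PinC N l b t t k ≤ (a + 3 * η + 20 * (t * (l : ℝ) ^ 2)) * EE k := by
  have hlp : (0 : ℝ) < l := by exact_mod_cast H864.l_pos hl
  have hN : (0 : ℝ) < N := by exact_mod_cast NeZero.pos N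
  obtain ⟨z, a1, hz0, hz1, ha, hP⟩ := hF
  set ν : ℝ := t * (l : ℝ) ^ 2 with hνd
  have hν0 : 0 < ν := by positivity
  have hE0 := TM.H764.EE_nonneg k
  set E : ℝ := EE k with hEd
  obtain ⟨p, hp, hpk⟩ := H864.exists_cen (N := N) hl k
  have hp0 : p ≠ 0 := by
    rintro rfl
    exact hk (by rw [← hpk, H864.rd_zero hl])
  have hEp := TM.H764.EE_nonneg p
  have hlap := lap_cen (N := N) hl hp (by rw [hpk]; linarith)
  rw [hpk, ← hEd] at hlap
  set x : ℝ := (l : ℝ) ^ 2 * EE p with hxd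
  have hx0 : 0 ≤ x := by positivity
  have hx1 : x ≤ E * (1 + ν / 2) := hlap.trans (mul_le_mul_of_nonneg_left (by linarith) hE0)
  have hx2 : x ≤ 9 / 8 * ν := by
    have : E * (1 + ν / 2) ≤ ν * (9 / 8) := mul_le_mul hEν (by linarith) (by positivity) hν0.le
    linarith
  have hup := PinC_up (N := N) hb hl ht hp hp0 (by rw [← hxd]; linarith)
  rw [← hxd] at hup
  have hPp' := hP p hp0
  have hmin := EE_ge_min (N := N) hp0
  have hzz : (l : ℝ) ^ 2 * z ≤ η / 16 * x := by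
    have h1 : z ≤ η / (N : ℝ) ^ 2 := by
      rw [le_div_iff₀ (by positivity)]
      exact hz1
    have h2 : η / (N : ℝ) ^ 2 ≤ η / 16 * EE p := by
      have h3 := mul_le_mul_of_nonneg_left hmin (show 0 ≤ η / 16 by positivity)
      refine le_trans (le_of_eq ?_) h3
      field_simp
    have h4 := mul_le_mul_of_nonneg_left (h1.trans h2) (sq_nonneg (l : ℝ))
    refine h4.trans (le_of_eq ?_)
    rw [hxd]
    ring
  have hquad : (l : ℝ) ^ 2 * (η * EE p ^ 2 / t) ≤ 9 / 8 * η * x := by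
    have e1 : (l : ℝ) ^ 2 * (η * EE p ^ 2 / t) = η * x * (x / ν) := by
      rw [hxd, hνd]
      field_simp
    rw [e1]
    have h1 : x / ν ≤ 9 / 8 := by
      rw [div_le_iff₀ hν0]
      exact hx2
    have h2 := mul_le_mul_of_nonneg_left h1 (show 0 ≤ η * x by positivity)
    linarith
  have hPin : (l : ℝ) ^ 2 * Pin N b t p ≤ x * (a + 9 / 4 * η) := by
    have h1 : Pin N b t p ≤ z + a1 * EE p + η * EE p ^ 2 / t := by linarith
    have h2 := mul_le_mul_of_nonneg_left h1 (sq_nonneg (l : ℝ))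
    have e1 : (l : ℝ) ^ 2 * (z + a1 * EE p + η * EE p ^ 2 / t) =
        (l : ℝ) ^ 2 * z + a1 * x + (l : ℝ) ^ 2 * (η * EE p ^ 2 / t) := by
      rw [hxd]
      ring
    rw [e1] at h2
    have h3 : a1 * x ≤ (a + η) * x := mul_le_mul_of_nonneg_right (by linarith) hx0
    nlinarith
  have hPin0 := H963.Pin_nonneg (N := N) hb ht hp0
  rw [hpk] at hup
  have hup2 : (l : ℝ) ^ 2 * PinC N l b t t k ≤
      (l : ℝ) ^ 2 * Pin N b t p + 2 * x * (ν + (l : ℝ) ^ 2 * Pin N b t p) := by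
    have h1 : PinC N l b t t k ≤ Pin N b t p + 2 * x * (t + Pin N b t p) := by linarith
    have h2 := mul_le_mul_of_nonneg_left h1 (sq_nonneg (l : ℝ))
    refine h2.trans (le_of_eq ?_)
    rw [hνd]
    ring
  exact hup2.trans (top_arith hη0 hη ha1 ha2 hν0 hν hE0 hx0 hx1 hx2 hPin)

/-- **`SmT` at the finest V cells of every state** -/
def SmP (P : Par) (b c1 δ : ℝ) : Prop :=
  ∀ (n : ℕ) (e : ℝ), 0 < e → e ≤ P.es → Good P b n e → 2 * e ^ (-(2 * c1)) ≤ n →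
    ∀ a0 : ℝ, 1 ≤ a0 → a0 ≤ 8 / 5 → ∀ r, P.TT n e r → FL b (tn n) a0 (17 * e ^ P.pf) (2 ^ r) →
    ∀ [NeZero (2 ^ r / 2 ^ sF c1 n e)], ∀ j k : ℕ, (2 : ℝ) ^ (j + k) ≤ e ^ (-(P.th / 16)) →
      SmT (2 ^ r) (2 ^ sF c1 n e) b (tn n) (e ^ (-(P.th / 16))) (e ^ (1 - δ))
        (Real.exp (-(e ^ (-(P.th / 16))))) (Real.exp (-(e ^ (-(P.th / 40))))) 3 j k

theorem ev_smt {b b1 b2 pf : ℝ} (hb1 : 0 < b1) (h1 : b1 ≤ b) (hpf : 0 < pf) (Q : ℕ) {δ : ℝ}
    (hδ : 0 < δ) (hδ1 : δ ≤ 1) : Ev b1 b2 pf Q fun P c1 => SmP P b c1 δ := by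
  have hb : 0 < b := hb1.trans_le h1
  refine (((ev_typS (b2 := b2) hb1 h1 hpf Q).and (ev_rf (b2 := b2) hb1 h1 hpf Q hδ)).and
    (ev_numc (b1 := b1) (b2 := b2) (pf := pf) Q
      (F := fun P c1 e => SitN 1 1 P.x1 P.th P.C0 c1 e ∧ 0 < P.x1 ∧ 2 ≤ ⌊e ^ (-(2 * c1))⌋₊ ∧
        e ^ P.pf ≤ 1 / 200 ∧ 8 ≤ e ^ (-(P.th / 40)) ∧ 20 * (1 / 4 : ℝ) ^ ⌊e ^ (-(2 * c1))⌋₊ ≤ 1)
      (x0 := 1) (k := 1 / 100) 1 (by norm_num) (by norm_num)
      fun x1 thp th C0 c1 hth htt htx hx hC0 hc1 hk => by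
        filter_upwards [sitN_ev (C := 1) (c := 1) (x1 := x1) (C0 := C0) one_pos hth hc1 hk,
          ev_ge hpf 200, ev_ge (show (0 : ℝ) < th / 40 by positivity) 8,
          ev_ge (show (0 : ℝ) < 2 * c1 by linarith) 4, ev_pos] with e g g2 g3 g4 he
        intro P e1 e2 e3 e4 e5
        rw [e1, e3, e4, e5]
        have f4 : 4 ≤ ⌊e ^ (-(2 * c1))⌋₊ := Nat.le_floor (by exact_mod_cast g4)
        refine ⟨g, by linarith, by omega, ?_, g3, ?_⟩
        · rw [Real.rpow_neg he.le] at g2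
          have h := inv_anti₀ (by norm_num : (0 : ℝ) < 200) g2
          rw [inv_inv] at h
          refine h.trans (by norm_num)
        · have h5 : (1 / 4 : ℝ) ^ ⌊e ^ (-(2 * c1))⌋₊ ≤ (1 / 4) ^ 4 :=
            pow_le_pow_of_le_one (by norm_num) (by norm_num) f4
          norm_num at h5
          linarith)).mono fun P c1 hadm hT => ?_
  obtain ⟨⟨hT, hR⟩, hc10, hc1k, hN⟩ := hT
  intro n e he hes hG hn a0 ha1 ha2 r hr F0 _ j k hjk
  obtain ⟨⟨_, he4, s1, -, -, -⟩, hx1, f2, hpf2, h8, h20⟩ := hN e he hes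
  obtain ⟨τ, a, h1τ, h4τ, hGP⟩ := hG
  have hGe := hGP e le_rfl hes
  have he1 : e ≤ 1 := by linarith
  have P' : ∀ a : ℝ, 0 < e ^ a := fun a => Real.rpow_pos_of_pos he a
  have hth := P.th0
  set s : ℕ := sF c1 n e with hs
  have hsn := sF_le c1 n e
  rw [← hs] at hsn
  have hsE : s ≤ P.sE n e := by
    have h2 : lg P.C0 e ≤ ⌊e ^ (-(2 * c1))⌋₊ := by exact_mod_cast s1
    have h3 := sF_g he hn
    have hnE := hGe.nE
    unfold Par.sE
    rw [hs]
    unfold sF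
    omega
  have hnr : n + 3 ≤ r := by
    have h6 : 3 ≤ P.kE e := hadm.hk.trans (H972.lg_anti P.th0.le he hes)
    have := hr.1
    omega
  have ht0 := tn_pos n
  have hdiv : 2 ^ s ∣ 2 ^ r := pow_dvd_pow 2 (by omega)
  -- the cells
  have hcell : tn n * (((2 ^ s : ℕ)) : ℝ) ^ 2 = (1 / 4 : ℝ) ^ ⌊e ^ (-(2 * c1))⌋₊ := by
    have h3 := sF_g he hn
    have e2 : n - s = ⌊e ^ (-(2 * c1))⌋₊ := by
      rw [hs]
      unfold sF
      omega
    rw [← e2]
    unfold H972.tn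
    have h4 : (4 : ℝ) ^ n = 4 ^ s * 4 ^ (n - s) := by
      rw [← pow_add]
      congr 1
      omega
    push_cast
    rw [h4, ← pow_mul, mul_comm s 2, pow_mul, one_div, inv_pow]
    norm_num
  have hν : tn n * (((2 ^ s : ℕ)) : ℝ) ^ 2 ≤ 1 / 4 := by
    rw [hcell]
    have := h20
    linarith
  have hη : 17 * e ^ P.pf ≤ 17 / 200 := by linarith
  have hη0 : 0 ≤ 17 * e ^ P.pf := by have := P' P.pf; positivity
  refine ⟨hdiv, ?_, hjk, ?_, ?_, by norm_num, fun k hk hE => ?_⟩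
  · filter_upwards [Ioo_mem_nhdsGT ht0] with a' ha'
    refine ⟨(hT n e τ a he hes hGe r hr s hsE (sF_two he hn) (sF_hi he hn) (tn n) le_rfl
      (by linarith) a' ha'.1 ha'.2).mono hb.le hdiv ha'.1 ha'.2.le (P' _).le le_rfl
      (Real.rpow_le_one he.le he1 hx1.le) le_rfl, ?_⟩
    exact hR n e τ a he hes h1τ h4τ hGe a0 ha1 ha2 r hr F0 s hsE (sF_two he hn) (sF_hi he hn)
      a' ha'.1 ha'.2
  · exact Real.rpow_le_one he.le he1 (by linarith)
  · have h3 : Real.exp (-(e ^ (-(P.th / 16)))) ≤ Real.exp (-8) := by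
      refine Real.exp_le_exp.2 ?_
      have : e ^ (-(P.th / 40)) ≤ e ^ (-(P.th / 16)) :=
        Real.rpow_le_rpow_of_exponent_ge he he1 (by linarith)
      linarith
    have h4 : Real.exp (-(e ^ (-(P.th / 40)))) ≤ Real.exp (-8) := Real.exp_le_exp.2 (by linarith)
    have h5 : Real.exp (-8) ≤ 1 / 360 := by
      have h6 : Real.exp (-8) = (Real.exp (-1)) ^ 8 := by
        rw [← Real.exp_nat_mul]
        congr 1
        push_cast
        ring
      have h7 := Real.exp_neg_one_lt_d9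
      have h9 : (Real.exp (-1)) ^ 8 ≤ (0.3679 : ℝ) ^ 8 :=
        pow_le_pow_left₀ (Real.exp_pos _).le (by linarith) 8
      rw [h6]
      norm_num at h9
      linarith
    linarith
  · have key := PinC_flat (a := a0) hb hdiv ht0 ha1 (by linarith) hη0 (by linarith) hν
      (FU_of_FL hb ht0 le_rfl F0) hk hE
    refine key.trans (mul_le_mul_of_nonneg_right ?_ (TM.H764.EE_nonneg k))
    rw [hcell]
    linarith

end

end Vale.Agent.P159.H816
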