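import Vale.Agent.P159.H816.Rf2
import Vale.Agent.P159.H447.Sit11

/-!
P159 / **typical sources at sites: numbers in `Ev` form** (helper816, (E3) of 8263), part 1.

* `sF c1 n e = n - ⌊e^(-2 c1)⌋` : the finest V cells of a level;
* `ev_numc` : numeric facts in `Ev` form, `c1` included;
* `SitP P b c1` and `ev_sit` : `ν {2 e^x1 < RF (Y F)} ≤ exp (- e^(-7/4 c1))` for `2 Y ≤ e^(-th/16)`,
  every state `Good P b n e`, every torus of `TT n e`.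
-/

set_option linter.unusedSectionVars false

namespace Vale.Agent.P159.H816

open Filter Topology MeasureTheory
open Vale.Agent.P159.H972 (Par lg tn one_le_logb GP AP RNG FL Good)
open Vale.Agent.P159.H239 (Fam Sel TypE)
open Vale.Agent.P159.H801 (Ev PS)
open Vale.Agent.P159.H447 (nuS src sit_typ_scal RF_src src_smul prob_nuS)
open Vale.Agent.P159.H963.Core (RF)
open Vale.Agent.P159.TM.Spec (V)

noncomputable section

/-! ### the finest V cells -/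

/-- the finest V cells of a level -/
def sF (c1 : ℝ) (n : ℕ) (e : ℝ) : ℕ := n - ⌊e ^ (-(2 * c1))⌋₊

lemma sF_g {c1 e : ℝ} {n : ℕ} (he : 0 < e) (hn : 2 * e ^ (-(2 * c1)) ≤ n) :
    2 * ⌊e ^ (-(2 * c1))⌋₊ ≤ n := by
  have h0 : 0 ≤ e ^ (-(2 * c1)) := (Real.rpow_pos_of_pos he _).le
  have h1 : (⌊e ^ (-(2 * c1))⌋₊ : ℝ) ≤ e ^ (-(2 * c1)) := Nat.floor_le h0
  have h2 : ((2 * ⌊e ^ (-(2 * c1))⌋₊ : ℕ) : ℝ) ≤ n := by
    push_cast
    linarith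
  exact_mod_cast h2

lemma sF_two {c1 e : ℝ} {n : ℕ} (he : 0 < e) (hn : 2 * e ^ (-(2 * c1)) ≤ n) :
    n ≤ 2 * sF c1 n e := by
  have := sF_g he hn
  unfold sF
  omega

lemma sF_le (c1 : ℝ) (n : ℕ) (e : ℝ) : sF c1 n e ≤ n := Nat.sub_le _ _

lemma sF_cast {c1 e : ℝ} {n : ℕ} (he : 0 < e) (hn : 2 * e ^ (-(2 * c1)) ≤ n) :
    (n : ℝ) - sF c1 n e = ⌊e ^ (-(2 * c1))⌋₊ := by
  have := sF_g he hn
  unfold sF
  rw [Nat.cast_sub (by omega)]
  ring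

lemma sF_hi {c1 e : ℝ} {n : ℕ} (he : 0 < e) (hn : 2 * e ^ (-(2 * c1)) ≤ n) :
    (n : ℝ) - sF c1 n e ≤ e ^ (-(2 * c1)) := by
  rw [sF_cast he hn]
  exact Nat.floor_le (Real.rpow_pos_of_pos he _).le

lemma sF_lo {c1 e : ℝ} {n : ℕ} (he : 0 < e) (hn : 2 * e ^ (-(2 * c1)) ≤ n) :
    e ^ (-(2 * c1)) - 1 ≤ ((n - sF c1 n e : ℕ) : ℝ) := by
  rw [Nat.cast_sub (sF_le c1 n e), sF_cast he hn]
  have := Nat.lt_floor_add_one (e ^ (-(2 * c1)))
  linarith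

/-! ### numbers -/

/-- numeric facts in `Ev` form, with the last constant `c1` -/
theorem ev_numc {b1 b2 pf : ℝ} (Q : ℕ) {F : Par → ℝ → ℝ → Prop} {x0 k : ℝ} (c0 : ℝ) (hx0 : 0 < x0)
    (hk : 0 < k)
    (hF : ∀ x1 thp th C0 c1 : ℝ, 0 < th → th ≤ thp → thp ≤ x1 → x1 ≤ x0 → c0 ≤ C0 → 0 < c1 →
      c1 ≤ th * k → ∀ᶠ e in 𝓝[>] (0 : ℝ), ∀ P : Par, P.th = th → P.thp = thp → P.x1 = x1 →
        P.C0 = C0 → P.pf = pf → F P c1 e) :
    Ev b1 b2 pf Q fun P c1 => 0 < c1 ∧ c1 ≤ P.th * k ∧ ∀ e, 0 < e → e ≤ P.es → F P c1 e := by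
  refine H801.Ev.of ⟨0, fun W _ => ⟨1, one_pos, fun ys _ _ => ⟨0, fun X0 _ => ⟨x0, hx0,
    fun x1 hx1 hx1' => ⟨x1, hx1, fun thp ht1 ht2 => ⟨thp, ht1, fun th hth1 hth2 =>
    ⟨c0, fun C0 hC0 => ⟨th * k, by positivity, fun c1 hc hc' => ?_⟩⟩⟩⟩⟩⟩⟩⟩
  obtain ⟨E, hE, h⟩ := mem_nhdsGT_iff_exists_Ioc_subset.1
    (hF x1 thp th C0 c1 hth1 hth2 ht2 hx1' hC0 hc hc')
  have hE' : (0 : ℝ) < E := hE
  refine ⟨E, hE', fun P hP => ⟨hc, by rw [hP.eth]; exact hc', fun e he hee => ?_⟩⟩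
  exact h ⟨he, hee.trans hP.ees⟩ P hP.eth hP.ethp hP.ex1 hP.eC0 hP.epf

/-- the numbers of one state -/
structure SitN (C c x1 th C0 c1 e : ℝ) : Prop where
  e0 : 0 < e
  e1 : e ≤ 1 / 4
  s1 : (lg C0 e : ℝ) ≤ ⌊e ^ (-(2 * c1))⌋₊
  s2 : 2 * Real.exp (-(e ^ (-(th / 16)))) ≤ 1 / 2 * Real.exp (-(e ^ (-(7 / 4 * c1))))
  s3 : 2 * C * e ^ (-3 : ℝ) * Real.exp c * Real.exp (-(c / 2 * e ^ (-(2 * c1)))) ≤
    1 / 2 * Real.exp (-(e ^ (-(7 / 4 * c1))))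
  s4 : 2 ≤ e ^ (-(th / 16))

lemma sitN_ev {C c x1 th C0 c1 : ℝ} (hc : 0 < c) (hth : 0 < th) (hc1 : 0 < c1)
    (h : c1 ≤ th * (1 / 100)) : ∀ᶠ e in 𝓝[>] (0 : ℝ), SitN C c x1 th C0 c1 e := by
  filter_upwards [ev_pos, ev_le (show (0 : ℝ) < 1 / 4 by norm_num),
    ev_small (show (0 : ℝ) < 2 * c1 by linarith) (|C0| + 2) 1,
    ev_pow (show 7 / 4 * c1 < th / 16 by linarith) 2,
    ev_ge (show (0 : ℝ) < 7 / 4 * c1 by linarith) 2,
    ev_exp hc1 3 (4 * C * Real.exp c) one_pos,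
    ev_pow (show 7 / 4 * c1 < 2 * c1 by linarith) (4 / c),
    ev_ge (show (0 : ℝ) < th / 16 by positivity) 2]
    with e he he4 g1 g2 g3 g4 g5 g6
  have he1 : e ≤ 1 := by linarith
  have hl := one_le_logb he (by linarith)
  refine ⟨he, he4, ?_, ?_, ?_, g6⟩
  · rw [neg_zero, Real.rpow_zero, mul_one, pow_one] at g1
    have h1 : (lg C0 e : ℝ) ≤ |C0| * Real.logb 2 (1 / e) + 1 := by
      have h2 : lg C0 e ≤ lg |C0| e := by
        unfold H972.lg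
        exact Nat.ceil_mono (mul_le_mul_of_nonneg_right (le_abs_self _) (by linarith))
      have h3 : (lg |C0| e : ℝ) ≤ |C0| * Real.logb 2 (1 / e) + 1 :=
        (Nat.ceil_lt_add_one (by positivity)).le
      exact (Nat.cast_le.2 h2).trans h3
    have h2 : (lg C0 e : ℝ) ≤ e ^ (-(2 * c1)) - 1 := by
      have h3 := abs_nonneg C0
      nlinarith
    have h3 := Nat.lt_floor_add_one (e ^ (-(2 * c1)))
    have h4 : (lg C0 e : ℝ) < ((⌊e ^ (-(2 * c1))⌋₊ : ℕ) : ℝ) := by linarith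
    exact h4.le
  · have h1 : Real.exp (-(e ^ (-(th / 16)))) ≤
        Real.exp (-(e ^ (-(7 / 4 * c1)))) * Real.exp (-2) := by
      rw [← Real.exp_add]
      exact Real.exp_le_exp.2 (by linarith)
    have h2 : Real.exp (-2) ≤ 1 / 4 := by
      have h5 : Real.exp (-2) = (Real.exp (-1)) ^ 2 := by
        rw [← Real.exp_nat_mul]
        congr 1
        push_cast
        ring
      have h6 := Real.exp_neg_one_lt_d9
      have h7 : (Real.exp (-1)) ^ 2 ≤ (0.3679 : ℝ) ^ 2 :=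
        pow_le_pow_left₀ (Real.exp_pos _).le (by linarith) 2
      rw [h5]
      norm_num at h7
      linarith
    have h3 := Real.exp_pos (-(e ^ (-(7 / 4 * c1))))
    nlinarith
  · rw [div_one] at g4
    have h1 : e ^ (-c1) ≤ e ^ (-(7 / 4 * c1)) :=
      Real.rpow_le_rpow_of_exponent_ge he he1 (by linarith)
    have h2 : c / 2 * (4 / c * e ^ (-(7 / 4 * c1))) ≤ c / 2 * e ^ (-(2 * c1)) :=
      mul_le_mul_of_nonneg_left g5 (by positivity)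
    have h3 : c / 2 * (4 / c * e ^ (-(7 / 4 * c1))) = 2 * e ^ (-(7 / 4 * c1)) := by
      field_simp
      ring
    rw [h3] at h2
    have h4 : 2 * C * e ^ (-3 : ℝ) * Real.exp c ≤ 1 / 2 * Real.exp (e ^ (-c1)) := by
      have : 4 * C * Real.exp c * e ^ (-3 : ℝ) ≤ Real.exp (e ^ (-c1)) := g4
      linarith
    calc 2 * C * e ^ (-3 : ℝ) * Real.exp c * Real.exp (-(c / 2 * e ^ (-(2 * c1))))
        ≤ 1 / 2 * Real.exp (e ^ (-c1)) * Real.exp (-(c / 2 * e ^ (-(2 * c1)))) :=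
          mul_le_mul_of_nonneg_right h4 (Real.exp_pos _).le
      _ = 1 / 2 * Real.exp (e ^ (-c1) - c / 2 * e ^ (-(2 * c1))) := by
          rw [mul_assoc, ← Real.exp_add]
          congr 2
      _ ≤ _ := by
          refine mul_le_mul_of_nonneg_left (Real.exp_le_exp.2 ?_) (by norm_num)
          linarith

/-- the power of the cells -/
lemma sF_pow {c c1 e : ℝ} {n : ℕ} (hc : 0 < c) (he : 0 < e) (hn : 2 * e ^ (-(2 * c1)) ≤ n) :
    ((2 : ℝ) ^ sF c1 n e * √(tn n)) ^ c ≤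
      Real.exp c * Real.exp (-(c / 2 * e ^ (-(2 * c1)))) := by
  have hs := sF_le c1 n e
  have h1 : (2 : ℝ) ^ sF c1 n e * √(tn n) = Real.exp (-(Real.log 2 * ((n - sF c1 n e : ℕ) : ℝ))) := by
    rw [sqrt_tn]
    have h2 : (2 : ℝ) ^ n = 2 ^ sF c1 n e * 2 ^ (n - sF c1 n e) := by
      rw [← pow_add]
      congr 1
      omega
    have h3 : (2 : ℝ) ^ (n - sF c1 n e) = Real.exp (Real.log 2 * ((n - sF c1 n e : ℕ) : ℝ)) := by
      rw [mul_comm, Real.exp_nat_mul, Real.exp_log two_pos]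
    have h4 : (0 : ℝ) < 2 ^ sF c1 n e := by positivity
    rw [h2, Real.exp_neg, ← h3]
    field_simp
  rw [h1, ← Real.exp_mul, ← Real.exp_add]
  refine Real.exp_le_exp.2 ?_
  have h2 := sF_lo he hn
  have h5 := Real.log_two_gt_d9
  have h6 : (0 : ℝ) ≤ ((n - sF c1 n e : ℕ) : ℝ) := Nat.cast_nonneg _
  have h7 : 1 / 2 * (e ^ (-(2 * c1)) - 1) ≤ Real.log 2 * ((n - sF c1 n e : ℕ) : ℝ) := by
    nlinarith
  have h8 := mul_le_mul_of_nonneg_left h7 hc.le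
  nlinarith

/-- **typical sources at the sites, every state** -/
def SitP (P : Par) (b c1 : ℝ) : Prop :=
  ∀ (n : ℕ) (e : ℝ), 0 < e → e ≤ P.es → Good P b n e → 2 * e ^ (-(2 * c1)) ≤ n →
    ∀ r, P.TT n e r → ∀ Y : ℝ, 1 ≤ Y → 2 * Y ≤ e ^ (-(P.th / 16)) →
    (nuS (2 ^ r) b (tn n)).real {F | 2 * e ^ P.x1 < RF (2 ^ r) b (tn n) (Y • F)} ≤
      Real.exp (-(e ^ (-(7 / 4 * c1))))

theorem ev_sit {b b1 b2 pf : ℝ} (hb1 : 0 < b1) (h1 : b1 ≤ b) (hpf : 0 < pf) (Q : ℕ) :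
    Ev b1 b2 pf Q fun P c1 => SitP P b c1 := by
  have hb : 0 < b := hb1.trans_le h1
  obtain ⟨C, c, hC, hc, hc1, H⟩ := sit_typ_scal hb
  refine (((ev_typS (b2 := b2) hb1 h1 hpf Q).and (ev_M (b1 := b1) (b2 := b2) (pf := pf) Q)).and
    (ev_numc (b1 := b1) (b2 := b2) (pf := pf) Q
      (F := fun P c1 e => SitN C c P.x1 P.th P.C0 c1 e ∧ P.x1 ≤ 1 / 48 ∧ P.th ≤ 1)
      (x0 := 1 / 48) (k := 1 / 100) 1 (by norm_num) (by norm_num)
      fun x1 thp th C0 c1 hth htt htx hx hC0 hc1 hk => by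
        filter_upwards [sitN_ev (C := C) (x1 := x1) (C0 := C0) hc hth hc1 hk] with e g
        intro P e1 e2 e3 e4 e5
        rw [e1, e3, e4]
        exact ⟨g, hx, by linarith⟩)).mono fun P c1 hadm hT => ?_
  obtain ⟨⟨hT, hM⟩, hc10, hc1k, hN⟩ := hT
  intro n e he hes hG hn r hr Y hY hYq
  obtain ⟨⟨_, he4, s1, s2, s3, s4⟩, hx, hth1⟩ := hN e he hes
  obtain ⟨τ, a, h1τ, h4τ, hGP⟩ := hG
  have hGe := hGP e le_rfl hes
  obtain ⟨hM1, -⟩ := hM n e r he hes hr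
  have he1 : e ≤ 1 := by linarith
  have P' : ∀ a : ℝ, 0 < e ^ a := fun a => Real.rpow_pos_of_pos he a
  set s : ℕ := sF c1 n e with hs
  have hsn := sF_le c1 n e
  rw [← hs] at hsn
  have hsE : s ≤ P.sE n e := by
    have h2 : lg P.C0 e ≤ ⌊e ^ (-(2 * c1))⌋₊ := by exact_mod_cast s1
    have h3 := sF_g he hn
    have hnE := hGe.nE
    unfold Par.sE
    rw [hs]
    unfold sF
    omega
  have hnr : n + 3 ≤ r := by
    have h6 : 3 ≤ P.kE e := hadm.hk.trans (H972.lg_anti P.th0.le he hes)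
    have := hr.1
    omega
  have ht0 := tn_pos n
  have hne : NeZero (2 ^ r / 2 ^ s) := ⟨by
    rw [Nat.pow_div (by omega) two_pos]
    positivity⟩
  have htn1 : tn n * ((2 : ℝ) ^ n) ^ 2 = 1 := by rw [four_pow', tn_mul]
  have hts : tn n * ((2 : ℝ) ^ s) ^ 2 ≤ 1 := by
    refine le_trans (mul_le_mul_of_nonneg_left ?_ ht0.le) htn1.le
    exact pow_le_pow_left₀ (by positivity) (pow_le_pow_right₀ one_le_two hsn) 2
  have htN2 := tn_N2 (n := n) (r := r) (by omega)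
  have htN : 9 ≤ tn n * (((2 ^ r : ℕ)) : ℝ) ^ 2 := by
    have h2 : (2 : ℝ) ^ 3 ≤ 2 ^ (r - n) := pow_le_pow_right₀ one_le_two (by omega)
    have h3 := pow_le_pow_left₀ (by positivity) h2 2
    rw [htN2]
    norm_num at h3
    linarith
  have hρ : 0 < e ^ P.x1 := P' _
  have key := H (2 ^ r) s n (pow_dvd_pow 2 (by omega)) (pow_dvd_pow 2 (by omega)) (tn n) ht0 hts
    htn1.le (four_t n) htN Y (e ^ P.x1) (Real.exp (-(e ^ (-(P.th / 16))))) hY hρ (by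
      filter_upwards [Ioo_mem_nhdsGT ht0] with a' ha'
      exact (hT n e τ a he hes hGe r hr s hsE (sF_two he hn) (sF_hi he hn) (tn n) le_rfl
        (by linarith) a' ha'.1 ha'.2).mono hb.le (pow_dvd_pow 2 (by omega)) ha'.1 ha'.2.le
        (by linarith) hYq le_rfl le_rfl)
  have e1 : {F : V (2 ^ r) → ℝ | 2 * e ^ P.x1 < RF (2 ^ r) b (tn n) (Y • F)} =
      {F | 2 * e ^ P.x1 < H37.Rs (H963.nwt (2 ^ r) b (tn n) 0) (Y • src (2 ^ r) (tn n) F)} := by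
    ext F
    rw [Set.mem_ofPred_eq, Set.mem_ofPred_eq, RF_src, src_smul]
  rw [e1]
  refine key.trans ?_
  -- the numbers
  have hX : ((2 : ℝ) ^ s * √(tn n)) ^ c ≤
      Real.exp c * Real.exp (-(c / 2 * e ^ (-(2 * c1)))) := sF_pow hc he hn
  have a1 : (tn n * (((2 ^ r : ℕ)) : ℝ) ^ 2) ^ 4 ≤ e ^ (-1 : ℝ) := by
    rw [htN2]
    have h2 := pow_le_pow_left₀ (by positivity) hM1 8
    calc (((2 : ℝ) ^ (r - n)) ^ 2) ^ 4 = ((2 : ℝ) ^ (r - n)) ^ 8 := by rw [← pow_mul]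
      _ ≤ (e ^ (-(6 * P.x1))) ^ 8 := h2
      _ = e ^ (-(48 * P.x1)) := by
        rw [rpow_pow' he]
        congr 1
        push_cast
        ring
      _ ≤ e ^ (-1 : ℝ) := Real.rpow_le_rpow_of_exponent_ge he he1 (by linarith)
  have a2 : Y ^ 6 ≤ e ^ (-1 : ℝ) := by
    have h2 : Y ≤ e ^ (-(P.th / 16)) := by linarith
    have h3 := pow_le_pow_left₀ (by linarith) h2 6
    refine h3.trans ?_
    rw [rpow_pow' he]
    refine Real.rpow_le_rpow_of_exponent_ge he he1 ?_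
    push_cast
    linarith
  have a3 : 1 + 1 / e ^ P.x1 ≤ 2 * e ^ (-1 : ℝ) := by
    have h2 : 1 / e ^ P.x1 = e ^ (-P.x1) := by rw [Real.rpow_neg he.le, one_div]
    have h3 : e ^ (-P.x1) ≤ e ^ (-1 : ℝ) := Real.rpow_le_rpow_of_exponent_ge he he1 (by linarith)
    have h4 : 1 ≤ e ^ (-1 : ℝ) := Real.one_le_rpow_of_pos_of_le_one_of_nonpos he he1 (by norm_num)
    rw [h2]
    linarith
  have e1p := P' (-1)
  have hX0 : 0 ≤ ((2 : ℝ) ^ s * √(tn n)) ^ c := Real.rpow_nonneg (by positivity) _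
  have hY0 : 0 ≤ Y := by linarith
  have b1' : (tn n * (((2 ^ r : ℕ)) : ℝ) ^ 2) ^ 4 * Y ^ 6 ≤ e ^ (-1 : ℝ) * e ^ (-1 : ℝ) :=
    mul_le_mul a1 a2 (by positivity) e1p.le
  have h3 : C * ((tn n * (((2 ^ r : ℕ)) : ℝ) ^ 2) ^ 4 * Y ^ 6) * ((2 : ℝ) ^ s * √(tn n)) ^ c *
      (1 + 1 / e ^ P.x1) ≤ C * (e ^ (-1 : ℝ) * e ^ (-1 : ℝ)) *
        (Real.exp c * Real.exp (-(c / 2 * e ^ (-(2 * c1))))) * (2 * e ^ (-1 : ℝ)) := by
    refine mul_le_mul (mul_le_mul (mul_le_mul_of_nonneg_left b1' hC.le) hX hX0 (by positivity)) a3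
      (by positivity) (by positivity)
  have h4 : C * (e ^ (-1 : ℝ) * e ^ (-1 : ℝ)) *
        (Real.exp c * Real.exp (-(c / 2 * e ^ (-(2 * c1))))) * (2 * e ^ (-1 : ℝ)) =
      2 * C * e ^ (-3 : ℝ) * Real.exp c * Real.exp (-(c / 2 * e ^ (-(2 * c1)))) := by
    have h5 : e ^ (-3 : ℝ) = e ^ (-1 : ℝ) * e ^ (-1 : ℝ) * e ^ (-1 : ℝ) := by
      rw [← Real.rpow_add he, ← Real.rpow_add he]
      norm_num
    rw [h5]
    ring
  rw [h4] at h3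
  linarith

end

end Vale.Agent.P159.H816
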