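import Vale.Agent.P159.H816.Ty0
import Vale.Agent.P159.H730.Apt3

/-!
P159 / (A) TypE in the letters of `Good` (helper816), part 1: all numbers of `AptN` and `ZsN`.

`q = e^(-th/16)`, `m = e^(-6 x1)` (bound of `2^(r-n)`), `G = e^(-C0)` (`2^(n-s) <= 2 G`),
`R = 1 + log2 (1/e)`; amplitude `Q = q`, AP amplitude `X = q^4/72`, exponent `Y = 2q`, Lipschitz
number `L = q`, `u = 1/(4 q^2)`, radius `Λ = G/e`.
-/

set_option linter.unusedSectionVars false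

namespace Vale.Agent.P159.H816

open Filter Topology
open Vale.Agent.P159.H972 (Par lg tn one_le_logb)
open Vale.Agent.P159.H730 (QD AptN ZsN)

noncomputable section

/-- the level data -/
structure Lv (q m G R e C0 : ℝ) (n r s : ℕ) : Prop where
  M : (2 : ℝ) ^ (r - n) ≤ m
  rn : ((r - n : ℕ) : ℝ) ≤ R
  rs : ((r - s : ℕ) : ℝ) ≤ (C0 + 2) * R
  ns : (2 : ℝ) ^ (n - s) ≤ 2 * G
  sn : s ≤ n
  nr : n ≤ r
  n4 : (2 : ℝ) ^ n * G ^ 4 ≤ 4 ^ n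
  s4 : (2 : ℝ) ^ n * G ^ 2 ≤ 4 ^ s
  Rn : R ≤ n + 1

section num

variable {B q m G R e cp C0 : ℝ} {n r s : ℕ}

lemma Lv.r3 (h : Lv q m G R e C0 n r s) : (3 : ℝ) + r ≤ 4 * (n + 1) := by
  have h1 : (r : ℝ) = n + ((r - n : ℕ) : ℝ) := by
    have := h.nr
    have h2 : r = n + (r - n) := by omega
    exact_mod_cast h2
  have h2 := h.rn
  have h3 := h.Rn
  linarith

lemma Lv.M0 (_h : Lv q m G R e C0 n r s) : (0 : ℝ) < 2 ^ (r - n) := by positivity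

lemma Lv.rs2 (h : Lv q m G R e C0 n r s) (hm : 0 ≤ m) (hG : 0 ≤ G) :
    ((2 : ℝ) ^ (r - s)) ^ 2 ≤ 4 * m ^ 2 * G ^ 2 := by
  have h1 : (2 : ℝ) ^ (r - s) = 2 ^ (r - n) * 2 ^ (n - s) := by
    rw [← pow_add]
    congr 1
    have := h.sn
    have := h.nr
    omega
  rw [h1]
  have h2 : (2 : ℝ) ^ (r - n) * 2 ^ (n - s) ≤ m * (2 * G) :=
    mul_le_mul h.M h.ns (by positivity) hm
  calc ((2 : ℝ) ^ (r - n) * 2 ^ (n - s)) ^ 2 ≤ (m * (2 * G)) ^ 2 :=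
        pow_le_pow_left₀ (by positivity) h2 2
    _ = _ := by ring

lemma QD_le {D : ℕ} {k : ℝ} (hD : 4 * (D : ℝ) + 1 ≤ k * R) : QD D ≤ 8 * (k * R) ^ 2 := by
  unfold H730.QD
  have h0 : (0 : ℝ) ≤ 4 * (D : ℝ) + 1 := by positivity
  have := pow_le_pow_left₀ h0 hD 2
  linarith

lemma one_le_QD (D : ℕ) : 1 ≤ QD D := by
  unfold H730.QD
  have h0 : (0 : ℝ) ≤ (D : ℝ) := Nat.cast_nonneg _
  nlinarith

/-- the constants -/
structure Cs (B Cz C k C0 : ℝ) : Prop where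
  B1 : 1 ≤ B
  Cz0 : 0 ≤ Cz
  C00 : 0 < C
  k1 : 1 ≤ k
  C01 : 0 ≤ C0
  c1 : 5184 * (256 * (Cz * k ^ 4 * (C0 + 5))) ≤ B
  c2 : 3 * (Cz * (C0 + 3)) ≤ B
  c3 : 2304 * k ^ 3 ≤ B
  c4 : 24 * (Cz * C) ≤ B
  c5 : 8 * (Cz * (C0 + 5)) ≤ B
  c6 : 24 * Cz ≤ B
  c7 : 4 * Cz * (6 + 1 / C) ≤ B
  c8 : 13 ≤ B

section lem

variable {Cz C k : ℝ} {Q₁ : ℝ} {D : ℕ}

lemma n_X2 (S : Sm B q m G R e cp) (c : Cs B Cz C k C0) (h : Lv q m G R e C0 n r s)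
    (hD : 4 * (D : ℝ) + 1 ≤ k * R) (hQ0 : 0 ≤ Q₁) (hQ1 : Q₁ ≤ 2 * q * QD D) :
    Cz * Q₁ ^ 2 * (2 * q + 1 + ((r - s : ℕ) : ℝ)) ≤ (q ^ 4 / 72) ^ 2 := by
  have q0 : 0 ≤ q := by linarith [S.q1]
  have R0 : 0 ≤ R := by linarith [S.R1]
  have g1 : Q₁ ≤ 2 * q * (8 * (k * R) ^ 2) :=
    hQ1.trans (mul_le_mul_of_nonneg_left (QD_le hD) (by linarith))
  have g2 : Q₁ ^ 2 ≤ (2 * q * (8 * (k * R) ^ 2)) ^ 2 := pow_le_pow_left₀ hQ0 g1 2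
  have g3 : 2 * q + 1 + ((r - s : ℕ) : ℝ) ≤ (C0 + 5) * (q * R) := by
    have h1 := h.rs
    have h2 : q ≤ q * R := le_mul_of_one_le_right q0 S.R1
    have h3 : R ≤ q * R := le_mul_of_one_le_left R0 S.q1
    have h4 := S.q1
    have h5 := mul_le_mul_of_nonneg_left h3 (by linarith [c.C01] : 0 ≤ C0 + 2)
    nlinarith
  have g0 : (0 : ℝ) ≤ 2 * q + 1 + ((r - s : ℕ) : ℝ) := by positivity
  have hCz := c.Cz0
  calc Cz * Q₁ ^ 2 * (2 * q + 1 + ((r - s : ℕ) : ℝ))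
      ≤ Cz * (2 * q * (8 * (k * R) ^ 2)) ^ 2 * ((C0 + 5) * (q * R)) :=
        mul_le_mul (mul_le_mul_of_nonneg_left g2 hCz) g3 g0 (by positivity)
    _ = (5184 * (256 * (Cz * k ^ 4 * (C0 + 5)))) * R ^ 5 * q ^ 3 / 5184 := by ring
    _ ≤ B * R ^ 5 * q ^ 3 / 5184 := by
        have := c.c1
        gcongr
    _ ≤ q * q ^ 3 / 5184 := by
        have := S.f1
        gcongr
    _ = q ^ 4 / 5184 := by ring
    _ ≤ q ^ 8 / 5184 := by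
        have : q ^ 4 ≤ q ^ 8 := pow_le_pow_right₀ S.q1 (by norm_num)
        linarith
    _ = _ := by ring

lemma n_L2 (S : Sm B q m G R e cp) (c : Cs B Cz C k C0) (h : Lv q m G R e C0 n r s) :
    Cz * (1 + ((r - s : ℕ) : ℝ)) * (2 * q + 1) ≤ q ^ 2 := by
  have q0 : 0 ≤ q := by linarith [S.q1]
  have R0 : 0 ≤ R := by linarith [S.R1]
  have hCz := c.Cz0
  have g1 : 1 + ((r - s : ℕ) : ℝ) ≤ (C0 + 3) * R := by
    have h1 := h.rs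
    have h2 := S.R1
    linarith
  have g2 : 2 * q + 1 ≤ 3 * q := by linarith [S.q1]
  have hR5 : R ≤ R ^ 5 := le_self_pow₀ S.R1 (by norm_num)
  have C0' : 0 ≤ C0 + 3 := by linarith [c.C01]
  calc Cz * (1 + ((r - s : ℕ) : ℝ)) * (2 * q + 1) ≤ Cz * ((C0 + 3) * R) * (3 * q) :=
        mul_le_mul (mul_le_mul_of_nonneg_left g1 hCz) g2 (by positivity) (by positivity)
    _ = (3 * (Cz * (C0 + 3))) * R * q := by ring
    _ ≤ B * R ^ 5 * q := by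
        have := c.c2
        have hB := c.B1
        have : 0 ≤ B := by linarith
        gcongr
    _ ≤ q * q := by
        have := S.f1
        gcongr
    _ = q ^ 2 := by ring

/-- `6 Q₁ ≤ X` and the field `X` of `AptN` -/
lemma n_X (S : Sm B q m G R e cp) (c : Cs B Cz C k C0) (hD : 4 * (D : ℝ) + 1 ≤ k * R)
    {c₀ : ℝ} (hc0 : 0 ≤ c₀) (hc : c₀ ≤ 2 * q) :
    2 * QD D * max 1 (c₀ * q * D) ≤ q ^ 4 / 72 := by
  have q0 : 0 ≤ q := by linarith [S.q1]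
  have R0 : 0 ≤ R := by linarith [S.R1]
  have k0 : 0 ≤ k := by linarith [c.k1]
  have hkR : 1 ≤ k * R := one_le_mul_of_one_le_of_one_le c.k1 S.R1
  have g1 : max 1 (c₀ * q * D) ≤ 2 * q ^ 2 * (k * R) := by
    refine max_le ?_ ?_
    · have : 1 ≤ q ^ 2 := one_le_pow₀ S.q1
      nlinarith
    · have h1 : (D : ℝ) ≤ k * R := by
        have : (0 : ℝ) ≤ D := Nat.cast_nonneg _
        linarith
      calc c₀ * q * D ≤ (2 * q) * q * (k * R) := by gcongr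
        _ = _ := by ring
  have g2 := QD_le (R := R) hD
  have g3 : 0 ≤ QD D := by linarith [one_le_QD D]
  calc 2 * QD D * max 1 (c₀ * q * D) ≤ 2 * (8 * (k * R) ^ 2) * (2 * q ^ 2 * (k * R)) := by
        gcongr
    _ = 2304 * k ^ 3 * R ^ 3 * q ^ 2 / 72 := by ring
    _ ≤ B * R ^ 5 * q ^ 2 / 72 := by
        have h1 := c.c3
        have h2 : R ^ 3 ≤ R ^ 5 := pow_le_pow_right₀ S.R1 (by norm_num)
        have hB : 0 ≤ B := by linarith [c.B1]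
        gcongr
    _ ≤ q * q ^ 2 / 72 := by
        have := S.f1
        gcongr
    _ = q ^ 3 / 72 := by ring
    _ ≤ q ^ 4 / 72 := by
        have : q ^ 3 ≤ q ^ 4 := pow_le_pow_right₀ S.q1 (by norm_num)
        linarith

lemma n_QX (S : Sm B q m G R e cp) (c : Cs B Cz C k C0) (hD : 4 * (D : ℝ) + 1 ≤ k * R)
    (hQ1 : Q₁ ≤ 2 * q * QD D) : 6 * Q₁ ≤ q ^ 4 / 72 := by
  have q0 : 0 ≤ q := by linarith [S.q1]
  have R0 : 0 ≤ R := by linarith [S.R1]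
  have k0 : 0 ≤ k := by linarith [c.k1]
  have g2 := QD_le (R := R) hD
  have hkR : 1 ≤ k * R := one_le_mul_of_one_le_of_one_le c.k1 S.R1
  have B0 : 0 ≤ B := by linarith [c.B1]
  have hk2 : 96 * (k * R) ^ 2 * 72 ≤ 3 * (B * R ^ 5) := by
    have h1 : (k * R) ^ 2 ≤ (k * R) ^ 3 := pow_le_pow_right₀ hkR (by norm_num)
    have h2 : 2304 * (k * R) ^ 3 ≤ B * R ^ 5 := by
      calc 2304 * (k * R) ^ 3 = 2304 * k ^ 3 * R ^ 3 := by ring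
        _ ≤ B * R ^ 5 := by
            have h1 := c.c3
            have h2 : R ^ 3 ≤ R ^ 5 := pow_le_pow_right₀ S.R1 (by norm_num)
            gcongr
    linarith
  have g3 : 6 * Q₁ ≤ 6 * (2 * q * (8 * (k * R) ^ 2)) := by
    have := mul_le_mul_of_nonneg_left g2 (by linarith : 0 ≤ 2 * q)
    linarith
  have g4 : 6 * (2 * q * (8 * (k * R) ^ 2)) * 72 ≤ 3 * (B * R ^ 5) * q := by
    calc 6 * (2 * q * (8 * (k * R) ^ 2)) * 72 = (96 * (k * R) ^ 2 * 72) * q := by ring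
      _ ≤ 3 * (B * R ^ 5) * q := mul_le_mul_of_nonneg_right hk2 q0
  have g5 : 3 * (B * R ^ 5) * q ≤ 3 * q ^ 2 := by
    have := mul_le_mul_of_nonneg_right S.f1 q0
    nlinarith
  have q2 : 2 ≤ q := by
    have h1 : B * R ^ 5 ≤ q := S.f1
    have h2 : (1 : ℝ) ≤ R ^ 5 := one_le_pow₀ S.R1
    have h3 : B ≤ B * R ^ 5 := le_mul_of_one_le_right B0 h2
    have h4 := c.c8
    linarith
  have g6 : 3 * q ^ 2 ≤ q ^ 4 := by
    have h1 : 4 ≤ q ^ 2 := by nlinarith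
    have h2 : 0 ≤ q ^ 2 := by positivity
    calc 3 * q ^ 2 ≤ q ^ 2 * q ^ 2 := mul_le_mul_of_nonneg_right (by linarith) h2
      _ = q ^ 4 := by ring
  linarith

lemma n_u2 (S : Sm B q m G R e cp) (c : Cs B Cz C k C0) (h : Lv q m G R e C0 n r s) :
    Cz * ((2 : ℝ) ^ (r - n)) ^ 2 *
      (C * (1 + ((r - n : ℕ) : ℝ)) * ((2 : ℝ) ^ (r - n)) ^ 2 * e ^ cp) * (2 * q + 1) ≤
      1 / (4 * q ^ 2) := by
  have q0 : 0 < q := by linarith [S.q1]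
  have R0 : 0 ≤ R := by linarith [S.R1]
  have m0 : 0 ≤ m := by linarith [S.m1]
  have hCz := c.Cz0
  have hC := c.C00
  have B0 : 0 ≤ B := by linarith [c.B1]
  have he : 0 < e ^ cp := Real.rpow_pos_of_pos S.e0 _
  have g1 : 1 + ((r - n : ℕ) : ℝ) ≤ 2 * R := by linarith [h.rn, S.R1]
  have g2 : 2 * q + 1 ≤ 3 * q := by linarith [S.q1]
  have hM := h.M
  have hR5 : R ≤ R ^ 5 := le_self_pow₀ S.R1 (by norm_num)
  rw [le_div_iff₀ (by positivity)]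
  calc Cz * ((2 : ℝ) ^ (r - n)) ^ 2 *
      (C * (1 + ((r - n : ℕ) : ℝ)) * ((2 : ℝ) ^ (r - n)) ^ 2 * e ^ cp) * (2 * q + 1) * (4 * q ^ 2)
      ≤ Cz * m ^ 2 * (C * (2 * R) * m ^ 2 * e ^ cp) * (3 * q) * (4 * q ^ 2) := by gcongr
    _ = (24 * (Cz * C)) * R * (m ^ 4 * q ^ 3 * e ^ cp) := by ring
    _ ≤ B * R ^ 5 * (m ^ 4 * q ^ 3 * e ^ cp) := by
        have := c.c4
        gcongr
    _ ≤ q * (m ^ 4 * q ^ 3 * e ^ cp) := by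
        have := S.f1
        gcongr
    _ = 1 * (m ^ 4 * q ^ 4 * e ^ cp) := by ring
    _ ≤ B * (m ^ 4 * q ^ 4 * e ^ cp) := by
        have := c.B1
        gcongr
    _ = B * m ^ 4 * q ^ 4 * e ^ cp := by ring
    _ ≤ 1 := S.f3

lemma n_Λ2 (S : Sm B q m G R e cp) (c : Cs B Cz C k C0) (h : Lv q m G R e C0 n r s) :
    Cz * (((2 : ℝ) ^ (r - n)) ^ 2 * (2 * q + 1 + ((r - s : ℕ) : ℝ)) +
      ((2 : ℝ) ^ (r - s)) ^ 2) ≤ (G * e ^ (-1 : ℝ)) ^ 2 := by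
  have q0 : 0 < q := by linarith [S.q1]
  have R0 : 0 ≤ R := by linarith [S.R1]
  have m0 : 0 ≤ m := by linarith [S.m1]
  have G0 : 0 ≤ G := by linarith [S.G1]
  have hCz := c.Cz0
  have B0 : 0 ≤ B := by linarith [c.B1]
  have g3 : 2 * q + 1 + ((r - s : ℕ) : ℝ) ≤ (C0 + 5) * (q * R) := by
    have h1 := h.rs
    have h2 : q ≤ q * R := le_mul_of_one_le_right q0.le S.R1
    have h3 : R ≤ q * R := le_mul_of_one_le_left R0 S.q1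
    have h4 := S.q1
    have h5 := mul_le_mul_of_nonneg_left h3 (by linarith [c.C01] : 0 ≤ C0 + 2)
    nlinarith
  have hM := h.M
  have h2 := h.rs2 m0 G0
  have C5 : 0 ≤ C0 + 5 := by linarith [c.C01]
  have hR5 : R ≤ R ^ 5 := le_self_pow₀ S.R1 (by norm_num)
  have e2 : (e ^ (-1 : ℝ)) ^ 2 = e ^ (-2 : ℝ) := by
    rw [rpow_pow' S.e0]
    norm_num
  have he2 : 0 < e ^ (-2 : ℝ) := Real.rpow_pos_of_pos S.e0 _
  have G2 : (1 : ℝ) ≤ G ^ 2 := one_le_pow₀ S.G1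
  have p1 : Cz * (((2 : ℝ) ^ (r - n)) ^ 2 * (2 * q + 1 + ((r - s : ℕ) : ℝ))) ≤
      e ^ (-2 : ℝ) / 8 := by
    calc Cz * (((2 : ℝ) ^ (r - n)) ^ 2 * (2 * q + 1 + ((r - s : ℕ) : ℝ)))
        ≤ Cz * (m ^ 2 * ((C0 + 5) * (q * R))) := by gcongr
      _ = (8 * (Cz * (C0 + 5))) * R * (m ^ 2 * q) / 8 := by ring
      _ ≤ B * R ^ 5 * (m ^ 2 * q) / 8 := by
          have := c.c5
          gcongr
      _ ≤ q * (m ^ 2 * q) / 8 := by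
          have := S.f1
          gcongr
      _ = 1 * (m ^ 2 * q ^ 2) / 8 := by ring
      _ ≤ B * (m ^ 2 * q ^ 2) / 8 := by
          have := c.B1
          gcongr
      _ = B * m ^ 2 * q ^ 2 / 8 := by ring
      _ ≤ _ := by
          have := S.f6
          linarith
  have p2 : Cz * (4 * m ^ 2 * G ^ 2) ≤ e ^ (-2 : ℝ) / 6 * G ^ 2 := by
    have h3 : Cz * (4 * m ^ 2) ≤ e ^ (-2 : ℝ) / 6 := by
      calc Cz * (4 * m ^ 2) = (24 * Cz) * m ^ 2 / 6 := by ring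
        _ ≤ B * m ^ 2 / 6 := by
            have := c.c6
            gcongr
        _ ≤ B * m ^ 2 * q ^ 2 / 6 := by
            have : 1 ≤ q ^ 2 := one_le_pow₀ S.q1
            have h4 : B * m ^ 2 ≤ B * m ^ 2 * q ^ 2 := le_mul_of_one_le_right (by positivity) this
            linarith
        _ ≤ _ := by
            have := S.f6
            linarith
    have := mul_le_mul_of_nonneg_right h3 (by positivity : 0 ≤ G ^ 2)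
    linarith
  have p3 : Cz * ((2 : ℝ) ^ (r - s)) ^ 2 ≤ e ^ (-2 : ℝ) / 6 * G ^ 2 :=
    (mul_le_mul_of_nonneg_left h2 hCz).trans p2
  rw [mul_add, mul_pow, e2]
  have p4 : e ^ (-2 : ℝ) / 8 ≤ e ^ (-2 : ℝ) / 8 * G ^ 2 := le_mul_of_one_le_right (by positivity) G2
  have p5 : 0 ≤ e ^ (-2 : ℝ) * G ^ 2 := by positivity
  nlinarith

lemma m6_le (S : Sm B q m G R e cp) (c : Cs B Cz C k C0) :
    m ^ 6 ≤ G ^ 2 ∧ m ^ 6 * q ^ 8 ≤ G ^ 2 ∧ m ^ 6 * e ^ (-cp) ≤ G ^ 2 ∧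
      m ^ 6 * e ^ (-2 : ℝ) ≤ G ^ 2 := by
  have m0 : 0 ≤ m := by linarith [S.m1]
  have m6 : 0 ≤ m ^ 6 := by positivity
  have a1 : 0 < e ^ (-cp) := Real.rpow_pos_of_pos S.e0 _
  have a2 : 0 < e ^ (-2 : ℝ) := Real.rpow_pos_of_pos S.e0 _
  have q0 : 0 ≤ q := by linarith [S.q1]
  have q8 : 1 ≤ q ^ 8 := one_le_pow₀ S.q1
  have h1 : m ^ 6 * (e ^ (-cp) + q ^ 8 + e ^ (-2 : ℝ)) ≤ G ^ 2 := by
    refine le_trans ?_ S.f5
    have h2 : 0 ≤ m ^ 6 * (e ^ (-cp) + q ^ 8 + e ^ (-2 : ℝ)) := by positivity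
    have := le_mul_of_one_le_left h2 c.B1
    linarith
  rw [mul_add, mul_add] at h1
  have b1 : 0 ≤ m ^ 6 * e ^ (-cp) := by positivity
  have b2 : 0 ≤ m ^ 6 * q ^ 8 := by positivity
  have b3 : 0 ≤ m ^ 6 * e ^ (-2 : ℝ) := by positivity
  have b4 : m ^ 6 ≤ m ^ 6 * q ^ 8 := le_mul_of_one_le_right m6 q8
  exact ⟨by linarith, by linarith, by linarith, by linarith⟩

lemma n_s1 (S : Sm B q m G R e cp) (c : Cs B Cz C k C0) (h : Lv q m G R e C0 n r s)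
    (hB : B * ((n : ℝ) + 1) ≤ 2 ^ n) :
    Cz * (3 + r) * ((2 : ℝ) ^ (r - n)) ^ 4 * ((q ^ 4 / 72) ^ 2 + ((2 : ℝ) ^ (r - s)) ^ 2) ≤
      4 ^ n := by
  have q0 : 0 < q := by linarith [S.q1]
  have m0 : 0 ≤ m := by linarith [S.m1]
  have G0 : 0 ≤ G := by linarith [S.G1]
  have hCz := c.Cz0
  have hM := h.M
  have h2 := h.rs2 m0 G0
  have h3 := h.r3
  obtain ⟨k1, k2, -, -⟩ := m6_le S c
  have G2 : (1 : ℝ) ≤ G ^ 2 := one_le_pow₀ S.G1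
  have e1 : m ^ 4 * ((q ^ 4 / 72) ^ 2 + 4 * m ^ 2 * G ^ 2) ≤ 5 * G ^ 4 := by
    have a1 : m ^ 4 ≤ m ^ 6 := pow_le_pow_right₀ S.m1 (by norm_num)
    have a2 : m ^ 4 * (q ^ 4 / 72) ^ 2 ≤ m ^ 6 * q ^ 8 := by
      have : (q ^ 4 / 72) ^ 2 ≤ q ^ 8 := by
        have : (0 : ℝ) ≤ q ^ 8 := by positivity
        nlinarith
      gcongr
    have a3 : m ^ 4 * (4 * m ^ 2 * G ^ 2) = 4 * (m ^ 6 * G ^ 2) := by ring
    have a4 : m ^ 6 * G ^ 2 ≤ G ^ 2 * G ^ 2 := mul_le_mul_of_nonneg_right k1 (by positivity)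
    have a5 : G ^ 2 ≤ G ^ 2 * G ^ 2 := le_mul_of_one_le_left (by positivity) G2
    have a6 : G ^ 2 * G ^ 2 = G ^ 4 := by ring
    rw [mul_add, a3]
    linarith
  have hc : 20 * Cz ≤ B := by
    have h5 := c.c7
    have h6 : 0 ≤ 1 / C := by have := c.C00; positivity
    nlinarith
  have n0 : (0 : ℝ) ≤ (n : ℝ) + 1 := by positivity
  calc Cz * (3 + r) * ((2 : ℝ) ^ (r - n)) ^ 4 * ((q ^ 4 / 72) ^ 2 + ((2 : ℝ) ^ (r - s)) ^ 2)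
      ≤ Cz * (4 * (n + 1)) * m ^ 4 * ((q ^ 4 / 72) ^ 2 + 4 * m ^ 2 * G ^ 2) := by gcongr
    _ = Cz * (4 * (n + 1)) * (m ^ 4 * ((q ^ 4 / 72) ^ 2 + 4 * m ^ 2 * G ^ 2)) := by ring
    _ ≤ Cz * (4 * (n + 1)) * (5 * G ^ 4) := by gcongr
    _ = (20 * Cz) * (n + 1) * G ^ 4 := by ring
    _ ≤ B * (n + 1) * G ^ 4 := by gcongr
    _ ≤ 2 ^ n * G ^ 4 := by gcongr
    _ ≤ 4 ^ n := h.n4

lemma n_s2 (S : Sm B q m G R e cp) (c : Cs B Cz C k C0) (h : Lv q m G R e C0 n r s)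
    (hB : B * ((n : ℝ) + 1) ≤ 2 ^ n) :
    Cz * (3 + r) * ((2 : ℝ) ^ (r - n)) ^ 4 * (q ^ 2 + 1) ≤ 4 ^ s := by
  have q0 : 0 < q := by linarith [S.q1]
  have m0 : 0 ≤ m := by linarith [S.m1]
  have G0 : 0 ≤ G := by linarith [S.G1]
  have hCz := c.Cz0
  have hM := h.M
  have h3 := h.r3
  obtain ⟨k1, k2, -, -⟩ := m6_le S c
  have e1 : m ^ 4 * (q ^ 2 + 1) ≤ 2 * G ^ 2 := by
    have a1 : m ^ 4 ≤ m ^ 6 := pow_le_pow_right₀ S.m1 (by norm_num)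
    have a2 : q ^ 2 ≤ q ^ 8 := pow_le_pow_right₀ S.q1 (by norm_num)
    have a3 : m ^ 4 * q ^ 2 ≤ m ^ 6 * q ^ 8 := by gcongr
    rw [mul_add]
    linarith
  have hc : 8 * Cz ≤ B := by
    have h5 := c.c6
    linarith
  have n0 : (0 : ℝ) ≤ (n : ℝ) + 1 := by positivity
  calc Cz * (3 + r) * ((2 : ℝ) ^ (r - n)) ^ 4 * (q ^ 2 + 1)
      ≤ Cz * (4 * (n + 1)) * m ^ 4 * (q ^ 2 + 1) := by gcongr
    _ = Cz * (4 * (n + 1)) * (m ^ 4 * (q ^ 2 + 1)) := by ring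
    _ ≤ Cz * (4 * (n + 1)) * (2 * G ^ 2) := by gcongr
    _ = (8 * Cz) * (n + 1) * G ^ 2 := by ring
    _ ≤ B * (n + 1) * G ^ 2 := by gcongr
    _ ≤ 2 ^ n * G ^ 2 := by gcongr
    _ ≤ 4 ^ s := h.s4

lemma n_s3 (S : Sm B q m G R e cp) (c : Cs B Cz C k C0) (h : Lv q m G R e C0 n r s)
    (hB : B * ((n : ℝ) + 1) ≤ 2 ^ n) :
    Cz * (3 + r) * ((2 : ℝ) ^ (r - n)) ^ 4 *
      (1 / (4 * q ^ 2) / (C * (1 + ((r - n : ℕ) : ℝ)) * ((2 : ℝ) ^ (r - n)) ^ 2 * e ^ cp) +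
        (G * e ^ (-1 : ℝ)) ^ 2 + ((2 : ℝ) ^ (r - s)) ^ 2) ≤ 4 ^ r := by
  have q0 : 0 < q := by linarith [S.q1]
  have m0 : 0 ≤ m := by linarith [S.m1]
  have G0 : 0 ≤ G := by linarith [S.G1]
  have hCz := c.Cz0
  have hC := c.C00
  have hM := h.M
  have h2 := h.rs2 m0 G0
  have h3 := h.r3
  obtain ⟨k1, k2, k3, k4⟩ := m6_le S c
  have G2 : (1 : ℝ) ≤ G ^ 2 := one_le_pow₀ S.G1
  have e2 : (e ^ (-1 : ℝ)) ^ 2 = e ^ (-2 : ℝ) := by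
    rw [rpow_pow' S.e0]
    norm_num
  have he2 : 0 < e ^ (-2 : ℝ) := Real.rpow_pos_of_pos S.e0 _
  have hec : 0 < e ^ cp := Real.rpow_pos_of_pos S.e0 _
  have hec' : 0 < e ^ (-cp) := Real.rpow_pos_of_pos S.e0 _
  have f1 : 1 / (4 * q ^ 2) / (C * (1 + ((r - n : ℕ) : ℝ)) * ((2 : ℝ) ^ (r - n)) ^ 2 * e ^ cp) ≤
      1 / C * e ^ (-cp) := by
    have a1 : (1 : ℝ) ≤ 1 + ((r - n : ℕ) : ℝ) := by
      have : (0 : ℝ) ≤ ((r - n : ℕ) : ℝ) := Nat.cast_nonneg _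
      linarith
    have a2 : (1 : ℝ) ≤ ((2 : ℝ) ^ (r - n)) ^ 2 := one_le_pow₀ (one_le_pow₀ one_le_two)
    have a3 : C * e ^ cp ≤ C * (1 + ((r - n : ℕ) : ℝ)) * ((2 : ℝ) ^ (r - n)) ^ 2 * e ^ cp := by
      calc C * e ^ cp = C * 1 * 1 * e ^ cp := by ring
        _ ≤ _ := by gcongr
    have a4 : 1 / (4 * q ^ 2) ≤ 1 := by
      rw [div_le_one (by positivity)]
      have : 1 ≤ q ^ 2 := one_le_pow₀ S.q1
      linarith
    calc 1 / (4 * q ^ 2) / (C * (1 + ((r - n : ℕ) : ℝ)) * ((2 : ℝ) ^ (r - n)) ^ 2 * e ^ cp)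
        ≤ 1 / (C * e ^ cp) := by gcongr
      _ = _ := by
        rw [Real.rpow_neg S.e0.le]
        field_simp
  have e1 : m ^ 4 * (1 / C * e ^ (-cp) + (G * e ^ (-1 : ℝ)) ^ 2 + 4 * m ^ 2 * G ^ 2) ≤
      (6 + 1 / C) * G ^ 4 := by
    have a1 : m ^ 4 ≤ m ^ 6 := pow_le_pow_right₀ S.m1 (by norm_num)
    have a6 : G ^ 2 * G ^ 2 = G ^ 4 := by ring
    have a5 : G ^ 2 ≤ G ^ 4 := by
      rw [← a6]
      exact le_mul_of_one_le_left (by positivity) G2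
    have b1 : m ^ 4 * (1 / C * e ^ (-cp)) ≤ 1 / C * G ^ 4 := by
      calc m ^ 4 * (1 / C * e ^ (-cp)) = 1 / C * (m ^ 4 * e ^ (-cp)) := by ring
        _ ≤ 1 / C * (m ^ 6 * e ^ (-cp)) := by gcongr
        _ ≤ 1 / C * G ^ 4 := by
          have := k3.trans a5
          gcongr
    have b2 : m ^ 4 * (G * e ^ (-1 : ℝ)) ^ 2 ≤ G ^ 4 := by
      rw [mul_pow, e2]
      calc m ^ 4 * (G ^ 2 * e ^ (-2 : ℝ)) = (m ^ 4 * e ^ (-2 : ℝ)) * G ^ 2 := by ring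
        _ ≤ (m ^ 6 * e ^ (-2 : ℝ)) * G ^ 2 := by gcongr
        _ ≤ G ^ 2 * G ^ 2 := by gcongr
        _ = G ^ 4 := a6
    have b3 : m ^ 4 * (4 * m ^ 2 * G ^ 2) ≤ 4 * G ^ 4 := by
      calc m ^ 4 * (4 * m ^ 2 * G ^ 2) = 4 * (m ^ 6 * G ^ 2) := by ring
        _ ≤ 4 * (G ^ 2 * G ^ 2) := by gcongr
        _ = _ := by ring
    have b4 : 0 ≤ G ^ 4 := by positivity
    rw [mul_add, mul_add]
    linarith
  have n0 : (0 : ℝ) ≤ (n : ℝ) + 1 := by positivity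
  have hnr : (4 : ℝ) ^ n ≤ 4 ^ r := pow_le_pow_right₀ (by norm_num) h.nr
  calc Cz * (3 + r) * ((2 : ℝ) ^ (r - n)) ^ 4 *
      (1 / (4 * q ^ 2) / (C * (1 + ((r - n : ℕ) : ℝ)) * ((2 : ℝ) ^ (r - n)) ^ 2 * e ^ cp) +
        (G * e ^ (-1 : ℝ)) ^ 2 + ((2 : ℝ) ^ (r - s)) ^ 2)
      ≤ Cz * (4 * (n + 1)) * m ^ 4 *
        (1 / C * e ^ (-cp) + (G * e ^ (-1 : ℝ)) ^ 2 + 4 * m ^ 2 * G ^ 2) := by gcongr
    _ = Cz * (4 * (n + 1)) * (m ^ 4 *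
        (1 / C * e ^ (-cp) + (G * e ^ (-1 : ℝ)) ^ 2 + 4 * m ^ 2 * G ^ 2)) := by ring
    _ ≤ Cz * (4 * (n + 1)) * ((6 + 1 / C) * G ^ 4) := by gcongr
    _ = (4 * Cz * (6 + 1 / C)) * (n + 1) * G ^ 4 := by ring
    _ ≤ B * (n + 1) * G ^ 4 := by
        have := c.c7
        gcongr
    _ ≤ 2 ^ n * G ^ 4 := by gcongr
    _ ≤ 4 ^ n := h.n4
    _ ≤ 4 ^ r := hnr

lemma n_νL (S : Sm B q m G R e cp) (c : Cs B Cz C k C0) (h : Lv q m G R e C0 n r s)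
    {c₀ : ℝ} (hc0 : 0 ≤ c₀) (hc : c₀ ≤ 2 * q) :
    ((2 : ℝ) ^ (r - n)) ^ 2 * (c₀ * q * 2 ^ (r - n) + 3) ≤ e ^ (-(1 / 40) : ℝ) := by
  have q0 : 0 < q := by linarith [S.q1]
  have m0 : 0 ≤ m := by linarith [S.m1]
  have hM := h.M
  refine le_trans ?_ S.f2
  have h1 : (1 : ℝ) ≤ m * q ^ 2 := by
    have : 1 ≤ q ^ 2 := one_le_pow₀ S.q1
    nlinarith [S.m1]
  calc ((2 : ℝ) ^ (r - n)) ^ 2 * (c₀ * q * 2 ^ (r - n) + 3) ≤ m ^ 2 * (2 * q * q * m + 3) := by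
        gcongr
    _ ≤ m ^ 2 * (5 * (m * q ^ 2)) := by
        have : 0 ≤ m ^ 2 := by positivity
        refine mul_le_mul_of_nonneg_left ?_ this
        nlinarith
    _ = 5 * (m ^ 3 * q ^ 2) := by ring
    _ ≤ B * (m ^ 3 * q ^ 2) := by
        have := c.c8
        have : 0 ≤ m ^ 3 * q ^ 2 := by positivity
        nlinarith
    _ = _ := by ring

lemma sqrt_tn (n : ℕ) : √(tn n) = (2 ^ n : ℝ)⁻¹ := by
  unfold H972.tn
  rw [Real.sqrt_inv]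
  congr 1
  rw [show (4 : ℝ) ^ n = (2 ^ n) ^ 2 by rw [← pow_mul, mul_comm, pow_mul]; norm_num]
  exact Real.sqrt_sq (by positivity)

lemma n_R (S : Sm B q m G R e cp) (c : Cs B Cz C k C0) (h : Lv q m G R e C0 n r s)
    (hG : G = e ^ (-C0)) {c₀ : ℝ} (hc0 : 0 ≤ c₀) (hc : c₀ ≤ 2 * q) :
    c₀ * (√(tn n) * (G * e ^ (-1 : ℝ))) * (4 : ℝ) ^ n / 2 ^ s ≤ e ^ (-(2 * C0 + 2)) := by
  have q0 : 0 < q := by linarith [S.q1]
  have G0 : 0 ≤ G := by linarith [S.G1]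
  have he1 : 0 < e ^ (-1 : ℝ) := Real.rpow_pos_of_pos S.e0 _
  have e1 : c₀ * (√(tn n) * (G * e ^ (-1 : ℝ))) * (4 : ℝ) ^ n / 2 ^ s =
      c₀ * (G * e ^ (-1 : ℝ)) * 2 ^ (n - s) := by
    rw [sqrt_tn, show (4 : ℝ) ^ n = 2 ^ n * 2 ^ n by rw [← mul_pow]; norm_num]
    have h2 : (2 : ℝ) ^ n = 2 ^ (n - s) * 2 ^ s := by
      rw [← pow_add]
      congr 1
      have := h.sn
      omega
    have h3 : (2 : ℝ) ^ s ≠ 0 := by positivity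
    have h4 : (2 : ℝ) ^ n ≠ 0 := by positivity
    rw [div_eq_iff h3, mul_assoc (c₀ * (G * e ^ (-1 : ℝ))), ← h2]
    field_simp
  rw [e1]
  have h5 := h.ns
  calc c₀ * (G * e ^ (-1 : ℝ)) * 2 ^ (n - s) ≤ (2 * q) * (G * e ^ (-1 : ℝ)) * (2 * G) := by gcongr
    _ = (4 * q) * (G ^ 2 * e ^ (-1 : ℝ)) := by ring
    _ ≤ (B * q) * (G ^ 2 * e ^ (-1 : ℝ)) := by
        have : (4 : ℝ) ≤ B := by linarith [c.c8]
        gcongr
    _ ≤ e ^ (-1 : ℝ) * (G ^ 2 * e ^ (-1 : ℝ)) := by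
        have := S.f7
        gcongr
    _ = e ^ (-(2 * C0 + 2)) := by
        rw [hG, rpow_pow' S.e0, ← Real.rpow_add S.e0, ← Real.rpow_add S.e0]
        congr 1
        push_cast
        ring

/-- **all numbers of `AptN`** -/
theorem aptN_num (S : Sm B q m G R e cp) (c : Cs B Cz C k C0) (h : Lv q m G R e C0 n r s)
    (hG : G = e ^ (-C0)) {K2 : ℝ} (hD0 : K2 * Real.log (1 / e) ≤ D)
    (hD : 4 * (D : ℝ) + 1 ≤ k * R) {c₀ : ℝ} (hc0 : 0 < c₀) (hc : c₀ ≤ 2 * q) :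
    AptN K2 (2 * C0 + 2) e n r s D c₀ q (√(tn n) * (G * e ^ (-1 : ℝ)))
      (2 * e ^ (1 / 8 : ℝ)) (q ^ 4 / 72) where
  c0 := hc0
  D0 := hD0
  L0 := by linarith [S.q1]
  Lam0 := by
    have : 0 < e ^ (-1 : ℝ) := Real.rpow_pos_of_pos S.e0 _
    have : 0 ≤ G := by linarith [S.G1]
    positivity
  R := n_R S c h hG hc0.le hc
  νL := n_νL S c h hc0.le hc
  δ0 := by
    have : 0 < e ^ (1 / 8 : ℝ) := Real.rpow_pos_of_pos S.e0 _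
    positivity
  δe := le_rfl
  X := n_X S c hD hc0.le hc

/-- **all numbers of `ZsN`** -/
theorem zsN_num {b : ℝ} (S : Sm B q m G R e cp) (c : Cs B (H816.Cz b) C k C0)
    (h : Lv q m G R e C0 n r s) (hB : B * ((n : ℝ) + 1) ≤ 2 ^ n)
    (hD : 4 * (D : ℝ) + 1 ≤ k * R) (hQ0 : 1 ≤ Q₁) (hQ1 : Q₁ ≤ 2 * q * QD D) {w : ℝ}
    (hw : tn n * w = C * (1 + ((r - n : ℕ) : ℝ)) * ((2 : ℝ) ^ (r - n)) ^ 2 * e ^ cp) :
    ZsN b n r s (q ^ 4 / 72) Q₁ q (1 / (4 * q ^ 2)) w (G * e ^ (-1 : ℝ)) (2 * q) where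
  w0 := by
    have h1 : 0 < tn n := tn_pos n
    have h2 : 0 < tn n * w := by
      rw [hw]
      have := c.C00
      have : 0 < e ^ cp := Real.rpow_pos_of_pos S.e0 _
      positivity
    exact (mul_pos_iff_of_pos_left h1).1 h2
  Q1 := hQ0
  QX := n_QX S c hD hQ1
  Y0 := by linarith [S.q1]
  u0 := by positivity
  X2 := n_X2 S c h hD (by linarith) hQ1
  L2 := n_L2 S c h
  u2 := by
    rw [hw]
    exact n_u2 S c h
  Λ2 := n_Λ2 S c h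
  s1 := n_s1 S c h hB
  s2 := n_s2 S c h hB
  s3 := by
    rw [hw]
    exact n_s3 S c h hB

end lem

end num

end

end Vale.Agent.P159.H816
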