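import Vale.Agent.P159.H816.Ty2

/-!
P159 / (A) TypE (helper816), part 3: the numbers at the fine cells (V cells): `s ≤ sE n e`,
`n ≤ 2 s`, `n - s ≤ e^(-2 c1)`.

`q = e^(-th/16)`, `m = e^(-6 x1)`, `R = e^(-c2)` (`5 c2 < th/16`, bounds `1 + log2 (1/e)` and
`n - s`); radius `Λ = 2^(n-s) / e`.
-/

set_option linter.unusedSectionVars false

namespace Vale.Agent.P159.H816

open Filter Topology
open Vale.Agent.P159.H972 (Par lg tn one_le_logb)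
open Vale.Agent.P159.H730 (QD AptN ZsN)

noncomputable section

/-- the level data at fine cells -/
structure LvV (B q m R e cp : ℝ) (n r s : ℕ) : Prop where
  M : (2 : ℝ) ^ (r - n) ≤ m
  rn : ((r - n : ℕ) : ℝ) ≤ R
  ns : ((n - s : ℕ) : ℝ) ≤ R
  lg : 1 + Real.logb 2 (1 / e) ≤ R
  sn : s ≤ n
  nr : n ≤ r
  r3 : (3 : ℝ) + r ≤ 4 * (n + 1)
  z1 : B * ((n : ℝ) + 1) * (m ^ 6 * (e ^ (-cp) + q ^ 8 + e ^ (-2 : ℝ))) ≤ 4 ^ s

section num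

variable {B q m G R e cp C0 : ℝ} {n r s : ℕ}

lemma LvV.rs (h : LvV B q m R e cp n r s) : ((r - s : ℕ) : ℝ) ≤ 2 * R := by
  have h1 : r - s = (r - n) + (n - s) := by
    have := h.sn
    have := h.nr
    omega
  rw [h1]
  push_cast
  have := h.rn
  have := h.ns
  linarith

lemma LvV.rs2 (h : LvV B q m R e cp n r s) :
    ((2 : ℝ) ^ (r - s)) ^ 2 ≤ m ^ 2 * 4 ^ (n - s) := by
  have h1 : (2 : ℝ) ^ (r - s) = 2 ^ (r - n) * 2 ^ (n - s) := by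
    rw [← pow_add]
    congr 1
    have := h.sn
    have := h.nr
    omega
  have h2 : (4 : ℝ) ^ (n - s) = (2 ^ (n - s)) ^ 2 := by
    rw [← pow_mul, mul_comm, pow_mul]
    norm_num
  rw [h1, mul_pow, h2]
  have := pow_le_pow_left₀ (by positivity) h.M 2
  gcongr

lemma LvV.n4 (h : LvV B q m R e cp n r s) : (4 : ℝ) ^ s * 4 ^ (n - s) = 4 ^ n := by
  rw [← pow_add]
  congr 1
  have := h.sn
  omega

section lem

variable {Cz C k : ℝ} {Q₁ : ℝ} {D : ℕ}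

lemma v_X2 (S : Sm B q m G R e cp) (c : Cs B Cz C k C0) (h : LvV B q m R e cp n r s)
    (hD : 4 * (D : ℝ) + 1 ≤ k * R) (hQ0 : 0 ≤ Q₁) (hQ1 : Q₁ ≤ 2 * q * QD D) :
    Cz * Q₁ ^ 2 * (2 * q + 1 + ((r - s : ℕ) : ℝ)) ≤ (q ^ 4 / 72) ^ 2 := by
  have q0 : 0 ≤ q := by linarith [S.q1]
  have R0 : 0 ≤ R := by linarith [S.R1]
  have g1 : Q₁ ≤ 2 * q * (8 * (k * R) ^ 2) :=
    hQ1.trans (mul_le_mul_of_nonneg_left (QD_le hD) (by linarith))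
  have g2 : Q₁ ^ 2 ≤ (2 * q * (8 * (k * R) ^ 2)) ^ 2 := pow_le_pow_left₀ hQ0 g1 2
  have C5 : (5 : ℝ) ≤ C0 + 5 := by linarith [c.C01]
  have g3 : 2 * q + 1 + ((r - s : ℕ) : ℝ) ≤ (C0 + 5) * (q * R) := by
    have h1 := h.rs
    have h2 : q ≤ q * R := le_mul_of_one_le_right q0 S.R1
    have h3 : R ≤ q * R := le_mul_of_one_le_left R0 S.q1
    have h4 := S.q1
    have h5 : 0 ≤ q * R := by positivity
    have h6 := mul_le_mul_of_nonneg_right C5 h5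
    linarith
  have g0 : (0 : ℝ) ≤ 2 * q + 1 + ((r - s : ℕ) : ℝ) := by positivity
  have hCz := c.Cz0
  calc Cz * Q₁ ^ 2 * (2 * q + 1 + ((r - s : ℕ) : ℝ))
      ≤ Cz * (2 * q * (8 * (k * R) ^ 2)) ^ 2 * ((C0 + 5) * (q * R)) :=
        mul_le_mul (mul_le_mul_of_nonneg_left g2 hCz) g3 g0 (by positivity)
    _ = (5184 * (256 * (Cz * k ^ 4 * (C0 + 5)))) * R ^ 5 * q ^ 3 / 5184 := by ring
    _ ≤ B * R ^ 5 * q ^ 3 / 5184 := by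
        have := c.c1
        gcongr
    _ ≤ q * q ^ 3 / 5184 := by
        have := S.f1
        gcongr
    _ = q ^ 4 / 5184 := by ring
    _ ≤ q ^ 8 / 5184 := by
        have : q ^ 4 ≤ q ^ 8 := pow_le_pow_right₀ S.q1 (by norm_num)
        linarith
    _ = _ := by ring

lemma v_L2 (S : Sm B q m G R e cp) (c : Cs B Cz C k C0) (h : LvV B q m R e cp n r s) :
    Cz * (1 + ((r - s : ℕ) : ℝ)) * (2 * q + 1) ≤ q ^ 2 := by
  have q0 : 0 ≤ q := by linarith [S.q1]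
  have R0 : 0 ≤ R := by linarith [S.R1]
  have hCz := c.Cz0
  have g1 : 1 + ((r - s : ℕ) : ℝ) ≤ (C0 + 3) * R := by
    have h1 := h.rs
    have h2 := S.R1
    have h3 : 0 ≤ C0 * R := mul_nonneg c.C01 R0
    linarith
  have g2 : 2 * q + 1 ≤ 3 * q := by linarith [S.q1]
  have hR5 : R ≤ R ^ 5 := le_self_pow₀ S.R1 (by norm_num)
  have C0' : 0 ≤ C0 + 3 := by linarith [c.C01]
  calc Cz * (1 + ((r - s : ℕ) : ℝ)) * (2 * q + 1) ≤ Cz * ((C0 + 3) * R) * (3 * q) :=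
        mul_le_mul (mul_le_mul_of_nonneg_left g1 hCz) g2 (by positivity) (by positivity)
    _ = (3 * (Cz * (C0 + 3))) * R * q := by ring
    _ ≤ B * R ^ 5 * q := by
        have := c.c2
        have hB := c.B1
        have : 0 ≤ B := by linarith
        gcongr
    _ ≤ q * q := by
        have := S.f1
        gcongr
    _ = q ^ 2 := by ring

lemma v_u2 (S : Sm B q m G R e cp) (c : Cs B Cz C k C0) (h : LvV B q m R e cp n r s) :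
    Cz * ((2 : ℝ) ^ (r - n)) ^ 2 *
      (C * (1 + ((r - n : ℕ) : ℝ)) * ((2 : ℝ) ^ (r - n)) ^ 2 * e ^ cp) * (2 * q + 1) ≤
      1 / (4 * q ^ 2) := by
  have q0 : 0 < q := by linarith [S.q1]
  have R0 : 0 ≤ R := by linarith [S.R1]
  have m0 : 0 ≤ m := by linarith [S.m1]
  have hCz := c.Cz0
  have hC := c.C00
  have B0 : 0 ≤ B := by linarith [c.B1]
  have he : 0 < e ^ cp := Real.rpow_pos_of_pos S.e0 _
  have g1 : 1 + ((r - n : ℕ) : ℝ) ≤ 2 * R := by linarith [h.rn, S.R1]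
  have g2 : 2 * q + 1 ≤ 3 * q := by linarith [S.q1]
  have hM := h.M
  have hR5 : R ≤ R ^ 5 := le_self_pow₀ S.R1 (by norm_num)
  rw [le_div_iff₀ (by positivity)]
  calc Cz * ((2 : ℝ) ^ (r - n)) ^ 2 *
      (C * (1 + ((r - n : ℕ) : ℝ)) * ((2 : ℝ) ^ (r - n)) ^ 2 * e ^ cp) * (2 * q + 1) * (4 * q ^ 2)
      ≤ Cz * m ^ 2 * (C * (2 * R) * m ^ 2 * e ^ cp) * (3 * q) * (4 * q ^ 2) := by gcongr
    _ = (24 * (Cz * C)) * R * (m ^ 4 * q ^ 3 * e ^ cp) := by ring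
    _ ≤ B * R ^ 5 * (m ^ 4 * q ^ 3 * e ^ cp) := by
        have := c.c4
        gcongr
    _ ≤ q * (m ^ 4 * q ^ 3 * e ^ cp) := by
        have := S.f1
        gcongr
    _ = 1 * (m ^ 4 * q ^ 4 * e ^ cp) := by ring
    _ ≤ B * (m ^ 4 * q ^ 4 * e ^ cp) := by
        have := c.B1
        gcongr
    _ = B * m ^ 4 * q ^ 4 * e ^ cp := by ring
    _ ≤ 1 := S.f3

lemma v_Λ2 (S : Sm B q m G R e cp) (c : Cs B Cz C k C0) (h : LvV B q m R e cp n r s) :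
    Cz * (((2 : ℝ) ^ (r - n)) ^ 2 * (2 * q + 1 + ((r - s : ℕ) : ℝ)) +
      ((2 : ℝ) ^ (r - s)) ^ 2) ≤ (2 ^ (n - s) * e ^ (-1 : ℝ)) ^ 2 := by
  have q0 : 0 < q := by linarith [S.q1]
  have R0 : 0 ≤ R := by linarith [S.R1]
  have m0 : 0 ≤ m := by linarith [S.m1]
  have hCz := c.Cz0
  have B0 : 0 ≤ B := by linarith [c.B1]
  have C5 : (5 : ℝ) ≤ C0 + 5 := by linarith [c.C01]
  have g3 : 2 * q + 1 + ((r - s : ℕ) : ℝ) ≤ (C0 + 5) * (q * R) := by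
    have h1 := h.rs
    have h2 : q ≤ q * R := le_mul_of_one_le_right q0.le S.R1
    have h3 : R ≤ q * R := le_mul_of_one_le_left R0 S.q1
    have h4 := S.q1
    have h5 : 0 ≤ q * R := by positivity
    have h6 := mul_le_mul_of_nonneg_right C5 h5
    linarith
  have hM := h.M
  have h2 := h.rs2
  have hR5 : R ≤ R ^ 5 := le_self_pow₀ S.R1 (by norm_num)
  have C5' : 0 ≤ C0 + 5 := by linarith
  have e2 : (e ^ (-1 : ℝ)) ^ 2 = e ^ (-2 : ℝ) := by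
    rw [rpow_pow' S.e0]
    norm_num
  have he2 : 0 < e ^ (-2 : ℝ) := Real.rpow_pos_of_pos S.e0 _
  have G2 : (1 : ℝ) ≤ 4 ^ (n - s) := one_le_pow₀ (by norm_num)
  have e4 : ((2 : ℝ) ^ (n - s)) ^ 2 = 4 ^ (n - s) := by
    rw [← pow_mul, mul_comm, pow_mul]
    norm_num
  have p1 : Cz * (((2 : ℝ) ^ (r - n)) ^ 2 * (2 * q + 1 + ((r - s : ℕ) : ℝ))) ≤
      e ^ (-2 : ℝ) / 8 := by
    calc Cz * (((2 : ℝ) ^ (r - n)) ^ 2 * (2 * q + 1 + ((r - s : ℕ) : ℝ)))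
        ≤ Cz * (m ^ 2 * ((C0 + 5) * (q * R))) := by gcongr
      _ = (8 * (Cz * (C0 + 5))) * R * (m ^ 2 * q) / 8 := by ring
      _ ≤ B * R ^ 5 * (m ^ 2 * q) / 8 := by
          have := c.c5
          gcongr
      _ ≤ q * (m ^ 2 * q) / 8 := by
          have := S.f1
          gcongr
      _ = 1 * (m ^ 2 * q ^ 2) / 8 := by ring
      _ ≤ B * (m ^ 2 * q ^ 2) / 8 := by
          have := c.B1
          gcongr
      _ = B * m ^ 2 * q ^ 2 / 8 := by ring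
      _ ≤ _ := by
          have := S.f6
          linarith
  have p2 : Cz * (m ^ 2 * 4 ^ (n - s)) ≤ e ^ (-2 : ℝ) / 6 * 4 ^ (n - s) := by
    have h3 : Cz * m ^ 2 ≤ e ^ (-2 : ℝ) / 6 := by
      calc Cz * m ^ 2 ≤ (24 * Cz) * m ^ 2 / 6 := by
            have : 0 ≤ Cz * m ^ 2 := by positivity
            linarith
        _ ≤ B * m ^ 2 / 6 := by
            have := c.c6
            gcongr
        _ ≤ B * m ^ 2 * q ^ 2 / 6 := by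
            have : 1 ≤ q ^ 2 := one_le_pow₀ S.q1
            have h4 : B * m ^ 2 ≤ B * m ^ 2 * q ^ 2 := le_mul_of_one_le_right (by positivity) this
            linarith
        _ ≤ _ := by
            have := S.f6
            linarith
    have := mul_le_mul_of_nonneg_right h3 (by positivity : (0 : ℝ) ≤ 4 ^ (n - s))
    linarith
  have p3 : Cz * ((2 : ℝ) ^ (r - s)) ^ 2 ≤ e ^ (-2 : ℝ) / 6 * 4 ^ (n - s) :=
    (mul_le_mul_of_nonneg_left h2 hCz).trans p2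
  rw [mul_add, mul_pow, e2, e4]
  have p4 : e ^ (-2 : ℝ) / 8 ≤ e ^ (-2 : ℝ) / 8 * 4 ^ (n - s) :=
    le_mul_of_one_le_right (by positivity) G2
  have p5 : 0 ≤ e ^ (-2 : ℝ) * 4 ^ (n - s) := by positivity
  nlinarith

lemma v_s1 (S : Sm B q m G R e cp) (c : Cs B Cz C k C0) (h : LvV B q m R e cp n r s) :
    Cz * (3 + r) * ((2 : ℝ) ^ (r - n)) ^ 4 * ((q ^ 4 / 72) ^ 2 + ((2 : ℝ) ^ (r - s)) ^ 2) ≤
      4 ^ n := by
  have q0 : 0 < q := by linarith [S.q1]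
  have m0 : 0 ≤ m := by linarith [S.m1]
  have hCz := c.Cz0
  have hM := h.M
  have h2 := h.rs2
  have h3 := h.r3
  have F : (1 : ℝ) ≤ 4 ^ (n - s) := one_le_pow₀ (by norm_num)
  have ec : 0 < e ^ (-cp) := Real.rpow_pos_of_pos S.e0 _
  have e2 : 0 < e ^ (-2 : ℝ) := Real.rpow_pos_of_pos S.e0 _
  have q8 : 1 ≤ q ^ 8 := one_le_pow₀ S.q1
  have m46 : m ^ 4 ≤ m ^ 6 := pow_le_pow_right₀ S.m1 (by norm_num)
  have e1 : m ^ 4 * ((q ^ 4 / 72) ^ 2 + m ^ 2 * 4 ^ (n - s)) ≤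
      2 * (m ^ 6 * (e ^ (-cp) + q ^ 8 + e ^ (-2 : ℝ))) * 4 ^ (n - s) := by
    have a2 : m ^ 4 * (q ^ 4 / 72) ^ 2 ≤ m ^ 6 * q ^ 8 * 4 ^ (n - s) := by
      have : (q ^ 4 / 72) ^ 2 ≤ q ^ 8 := by
        have : (0 : ℝ) ≤ q ^ 8 := by positivity
        nlinarith
      calc m ^ 4 * (q ^ 4 / 72) ^ 2 ≤ m ^ 6 * q ^ 8 := by gcongr
        _ ≤ _ := le_mul_of_one_le_right (by positivity) F
    have a3 : m ^ 4 * (m ^ 2 * 4 ^ (n - s)) ≤ m ^ 6 * q ^ 8 * 4 ^ (n - s) := by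
      calc m ^ 4 * (m ^ 2 * 4 ^ (n - s)) = m ^ 6 * 1 * 4 ^ (n - s) := by ring
        _ ≤ _ := by gcongr
    have a4 : 0 ≤ m ^ 6 * e ^ (-cp) * 4 ^ (n - s) := by positivity
    have a5 : 0 ≤ m ^ 6 * e ^ (-2 : ℝ) * 4 ^ (n - s) := by positivity
    nlinarith
  have hc : 8 * Cz ≤ B := by linarith [c.c6]
  have n0 : (0 : ℝ) ≤ (n : ℝ) + 1 := by positivity
  have W0 : 0 ≤ m ^ 6 * (e ^ (-cp) + q ^ 8 + e ^ (-2 : ℝ)) := by positivity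
  calc Cz * (3 + r) * ((2 : ℝ) ^ (r - n)) ^ 4 * ((q ^ 4 / 72) ^ 2 + ((2 : ℝ) ^ (r - s)) ^ 2)
      ≤ Cz * (4 * (n + 1)) * m ^ 4 * ((q ^ 4 / 72) ^ 2 + m ^ 2 * 4 ^ (n - s)) := by gcongr
    _ = Cz * (4 * (n + 1)) * (m ^ 4 * ((q ^ 4 / 72) ^ 2 + m ^ 2 * 4 ^ (n - s))) := by ring
    _ ≤ Cz * (4 * (n + 1)) * (2 * (m ^ 6 * (e ^ (-cp) + q ^ 8 + e ^ (-2 : ℝ))) * 4 ^ (n - s)) := by
        gcongr
    _ = (8 * Cz) * (n + 1) * (m ^ 6 * (e ^ (-cp) + q ^ 8 + e ^ (-2 : ℝ))) * 4 ^ (n - s) := by ring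
    _ ≤ B * (n + 1) * (m ^ 6 * (e ^ (-cp) + q ^ 8 + e ^ (-2 : ℝ))) * 4 ^ (n - s) := by gcongr
    _ ≤ 4 ^ s * 4 ^ (n - s) := by
        have := h.z1
        gcongr
    _ = 4 ^ n := h.n4

lemma v_s2 (S : Sm B q m G R e cp) (c : Cs B Cz C k C0) (h : LvV B q m R e cp n r s) :
    Cz * (3 + r) * ((2 : ℝ) ^ (r - n)) ^ 4 * (q ^ 2 + 1) ≤ 4 ^ s := by
  have q0 : 0 < q := by linarith [S.q1]
  have m0 : 0 ≤ m := by linarith [S.m1]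
  have hCz := c.Cz0
  have hM := h.M
  have h3 := h.r3
  have ec : 0 < e ^ (-cp) := Real.rpow_pos_of_pos S.e0 _
  have e2 : 0 < e ^ (-2 : ℝ) := Real.rpow_pos_of_pos S.e0 _
  have q8 : 1 ≤ q ^ 8 := one_le_pow₀ S.q1
  have m46 : m ^ 4 ≤ m ^ 6 := pow_le_pow_right₀ S.m1 (by norm_num)
  have q28 : q ^ 2 ≤ q ^ 8 := pow_le_pow_right₀ S.q1 (by norm_num)
  have e1 : m ^ 4 * (q ^ 2 + 1) ≤ 2 * (m ^ 6 * (e ^ (-cp) + q ^ 8 + e ^ (-2 : ℝ))) := by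
    calc m ^ 4 * (q ^ 2 + 1) ≤ m ^ 6 * (q ^ 8 + q ^ 8) := by gcongr
      _ = 2 * (m ^ 6 * (0 + q ^ 8 + 0)) := by ring
      _ ≤ _ := by gcongr
  have hc : 8 * Cz ≤ B := by linarith [c.c6]
  have n0 : (0 : ℝ) ≤ (n : ℝ) + 1 := by positivity
  have W0 : 0 ≤ m ^ 6 * (e ^ (-cp) + q ^ 8 + e ^ (-2 : ℝ)) := by positivity
  calc Cz * (3 + r) * ((2 : ℝ) ^ (r - n)) ^ 4 * (q ^ 2 + 1)
      ≤ Cz * (4 * (n + 1)) * m ^ 4 * (q ^ 2 + 1) := by gcongr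
    _ = Cz * (4 * (n + 1)) * (m ^ 4 * (q ^ 2 + 1)) := by ring
    _ ≤ Cz * (4 * (n + 1)) * (2 * (m ^ 6 * (e ^ (-cp) + q ^ 8 + e ^ (-2 : ℝ)))) := by gcongr
    _ = (8 * Cz) * (n + 1) * (m ^ 6 * (e ^ (-cp) + q ^ 8 + e ^ (-2 : ℝ))) := by ring
    _ ≤ B * (n + 1) * (m ^ 6 * (e ^ (-cp) + q ^ 8 + e ^ (-2 : ℝ))) := by gcongr
    _ ≤ 4 ^ s := h.z1

lemma v_s3 (S : Sm B q m G R e cp) (c : Cs B Cz C k C0) (h : LvV B q m R e cp n r s) :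
    Cz * (3 + r) * ((2 : ℝ) ^ (r - n)) ^ 4 *
      (1 / (4 * q ^ 2) / (C * (1 + ((r - n : ℕ) : ℝ)) * ((2 : ℝ) ^ (r - n)) ^ 2 * e ^ cp) +
        (2 ^ (n - s) * e ^ (-1 : ℝ)) ^ 2 + ((2 : ℝ) ^ (r - s)) ^ 2) ≤ 4 ^ r := by
  have q0 : 0 < q := by linarith [S.q1]
  have m0 : 0 ≤ m := by linarith [S.m1]
  have hCz := c.Cz0
  have hC := c.C00
  have hM := h.M
  have h2 := h.rs2
  have h3 := h.r3
  have F : (1 : ℝ) ≤ 4 ^ (n - s) := one_le_pow₀ (by norm_num)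
  have e2 : (e ^ (-1 : ℝ)) ^ 2 = e ^ (-2 : ℝ) := by
    rw [rpow_pow' S.e0]
    norm_num
  have e4 : ((2 : ℝ) ^ (n - s)) ^ 2 = 4 ^ (n - s) := by
    rw [← pow_mul, mul_comm, pow_mul]
    norm_num
  have he2 : 0 < e ^ (-2 : ℝ) := Real.rpow_pos_of_pos S.e0 _
  have hec : 0 < e ^ cp := Real.rpow_pos_of_pos S.e0 _
  have hec' : 0 < e ^ (-cp) := Real.rpow_pos_of_pos S.e0 _
  have q8 : 1 ≤ q ^ 8 := one_le_pow₀ S.q1
  have m46 : m ^ 4 ≤ m ^ 6 := pow_le_pow_right₀ S.m1 (by norm_num)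
  have f1 : 1 / (4 * q ^ 2) / (C * (1 + ((r - n : ℕ) : ℝ)) * ((2 : ℝ) ^ (r - n)) ^ 2 * e ^ cp) ≤
      1 / C * e ^ (-cp) := by
    have a1 : (1 : ℝ) ≤ 1 + ((r - n : ℕ) : ℝ) := by
      have : (0 : ℝ) ≤ ((r - n : ℕ) : ℝ) := Nat.cast_nonneg _
      linarith
    have a2 : (1 : ℝ) ≤ ((2 : ℝ) ^ (r - n)) ^ 2 := one_le_pow₀ (one_le_pow₀ one_le_two)
    have a3 : C * e ^ cp ≤ C * (1 + ((r - n : ℕ) : ℝ)) * ((2 : ℝ) ^ (r - n)) ^ 2 * e ^ cp := by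
      calc C * e ^ cp = C * 1 * 1 * e ^ cp := by ring
        _ ≤ _ := by gcongr
    have a4 : 1 / (4 * q ^ 2) ≤ 1 := by
      rw [div_le_one (by positivity)]
      have : 1 ≤ q ^ 2 := one_le_pow₀ S.q1
      linarith
    calc 1 / (4 * q ^ 2) / (C * (1 + ((r - n : ℕ) : ℝ)) * ((2 : ℝ) ^ (r - n)) ^ 2 * e ^ cp)
        ≤ 1 / (C * e ^ cp) := by gcongr
      _ = _ := by
        rw [Real.rpow_neg S.e0.le]
        field_simp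
  have e1 : m ^ 4 * (1 / C * e ^ (-cp) + (2 ^ (n - s) * e ^ (-1 : ℝ)) ^ 2 + m ^ 2 * 4 ^ (n - s)) ≤
      (6 + 1 / C) * (m ^ 6 * (e ^ (-cp) + q ^ 8 + e ^ (-2 : ℝ))) * 4 ^ (n - s) := by
    have iC : 0 ≤ 1 / C := by positivity
    have b1 : m ^ 4 * (1 / C * e ^ (-cp)) ≤ 1 / C * (m ^ 6 * e ^ (-cp)) * 4 ^ (n - s) := by
      calc m ^ 4 * (1 / C * e ^ (-cp)) ≤ m ^ 6 * (1 / C * e ^ (-cp)) := by gcongr
        _ = 1 / C * (m ^ 6 * e ^ (-cp)) := by ring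
        _ ≤ _ := le_mul_of_one_le_right (by positivity) F
    have b2 : m ^ 4 * (2 ^ (n - s) * e ^ (-1 : ℝ)) ^ 2 ≤ m ^ 6 * e ^ (-2 : ℝ) * 4 ^ (n - s) := by
      rw [mul_pow, e2, e4]
      calc m ^ 4 * (4 ^ (n - s) * e ^ (-2 : ℝ)) ≤ m ^ 6 * (4 ^ (n - s) * e ^ (-2 : ℝ)) := by gcongr
        _ = _ := by ring
    have b3 : m ^ 4 * (m ^ 2 * 4 ^ (n - s)) ≤ m ^ 6 * q ^ 8 * 4 ^ (n - s) := by
      calc m ^ 4 * (m ^ 2 * 4 ^ (n - s)) = m ^ 6 * 1 * 4 ^ (n - s) := by ring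
        _ ≤ _ := by gcongr
    set F4 : ℝ := 4 ^ (n - s)
    set a := m ^ 6 * e ^ (-cp) with ha
    set bb := m ^ 6 * q ^ 8 with hbb
    set d := m ^ 6 * e ^ (-2 : ℝ) with hd
    have a0 : 0 ≤ a * F4 := by positivity
    have b0 : 0 ≤ bb * F4 := by positivity
    have d0 : 0 ≤ d * F4 := by positivity
    have e5 : (6 + 1 / C) * (m ^ 6 * (e ^ (-cp) + q ^ 8 + e ^ (-2 : ℝ))) * F4 =
        6 * (a * F4) + 6 * (bb * F4) + 6 * (d * F4) + 1 / C * (a * F4) + 1 / C * (bb * F4) +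
          1 / C * (d * F4) := by
      rw [ha, hbb, hd]
      ring
    rw [e5]
    have i1 : 0 ≤ 1 / C * (bb * F4) := mul_nonneg iC b0
    have i2 : 0 ≤ 1 / C * (d * F4) := mul_nonneg iC d0
    have b1' : m ^ 4 * (1 / C * e ^ (-cp)) ≤ 1 / C * (a * F4) := by linarith
    linarith [mul_add (m ^ 4) (1 / C * e ^ (-cp) + (2 ^ (n - s) * e ^ (-1 : ℝ)) ^ 2)
      (m ^ 2 * F4), mul_add (m ^ 4) (1 / C * e ^ (-cp)) ((2 ^ (n - s) * e ^ (-1 : ℝ)) ^ 2)]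
  have n0 : (0 : ℝ) ≤ (n : ℝ) + 1 := by positivity
  have W0 : 0 ≤ m ^ 6 * (e ^ (-cp) + q ^ 8 + e ^ (-2 : ℝ)) := by positivity
  have hnr : (4 : ℝ) ^ n ≤ 4 ^ r := pow_le_pow_right₀ (by norm_num) h.nr
  calc Cz * (3 + r) * ((2 : ℝ) ^ (r - n)) ^ 4 *
      (1 / (4 * q ^ 2) / (C * (1 + ((r - n : ℕ) : ℝ)) * ((2 : ℝ) ^ (r - n)) ^ 2 * e ^ cp) +
        (2 ^ (n - s) * e ^ (-1 : ℝ)) ^ 2 + ((2 : ℝ) ^ (r - s)) ^ 2)
      ≤ Cz * (4 * (n + 1)) * m ^ 4 *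
        (1 / C * e ^ (-cp) + (2 ^ (n - s) * e ^ (-1 : ℝ)) ^ 2 + m ^ 2 * 4 ^ (n - s)) := by gcongr
    _ = Cz * (4 * (n + 1)) * (m ^ 4 *
        (1 / C * e ^ (-cp) + (2 ^ (n - s) * e ^ (-1 : ℝ)) ^ 2 + m ^ 2 * 4 ^ (n - s))) := by ring
    _ ≤ Cz * (4 * (n + 1)) *
        ((6 + 1 / C) * (m ^ 6 * (e ^ (-cp) + q ^ 8 + e ^ (-2 : ℝ))) * 4 ^ (n - s)) := by gcongr
    _ = (4 * Cz * (6 + 1 / C)) * (n + 1) * (m ^ 6 * (e ^ (-cp) + q ^ 8 + e ^ (-2 : ℝ))) *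
        4 ^ (n - s) := by ring
    _ ≤ B * (n + 1) * (m ^ 6 * (e ^ (-cp) + q ^ 8 + e ^ (-2 : ℝ))) * 4 ^ (n - s) := by
        have := c.c7
        gcongr
    _ ≤ 4 ^ s * 4 ^ (n - s) := by
        have := h.z1
        gcongr
    _ = 4 ^ n := h.n4
    _ ≤ 4 ^ r := hnr

lemma v_νL (S : Sm B q m G R e cp) (c : Cs B Cz C k C0) (h : LvV B q m R e cp n r s)
    {c₀ : ℝ} (hc0 : 0 ≤ c₀) (hc : c₀ ≤ 2 * q) :
    ((2 : ℝ) ^ (r - n)) ^ 2 * (c₀ * q * 2 ^ (r - n) + 3) ≤ e ^ (-(1 / 40) : ℝ) := by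
  have q0 : 0 < q := by linarith [S.q1]
  have m0 : 0 ≤ m := by linarith [S.m1]
  have hM := h.M
  refine le_trans ?_ S.f2
  have h1 : (1 : ℝ) ≤ m * q ^ 2 := by
    have : 1 ≤ q ^ 2 := one_le_pow₀ S.q1
    nlinarith [S.m1]
  calc ((2 : ℝ) ^ (r - n)) ^ 2 * (c₀ * q * 2 ^ (r - n) + 3) ≤ m ^ 2 * (2 * q * q * m + 3) := by
        gcongr
    _ ≤ m ^ 2 * (5 * (m * q ^ 2)) := by
        have : 0 ≤ m ^ 2 := by positivity
        refine mul_le_mul_of_nonneg_left ?_ this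
        nlinarith
    _ = 5 * (m ^ 3 * q ^ 2) := by ring
    _ ≤ B * (m ^ 3 * q ^ 2) := by
        have := c.c8
        have : 0 ≤ m ^ 3 * q ^ 2 := by positivity
        nlinarith
    _ = _ := by ring

/-- the size of the source -/
lemma v_R (h : s ≤ n) (c₀ : ℝ) :
    c₀ * (√(tn n) * (2 ^ (n - s) * e ^ (-1 : ℝ))) * (4 : ℝ) ^ n / 2 ^ s =
      c₀ * 4 ^ (n - s) * e ^ (-1 : ℝ) := by
  rw [sqrt_tn, show (4 : ℝ) ^ n = 2 ^ n * 2 ^ n by rw [← mul_pow]; norm_num,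
    show (4 : ℝ) ^ (n - s) = 2 ^ (n - s) * 2 ^ (n - s) by rw [← mul_pow]; norm_num]
  have h2 : (2 : ℝ) ^ n = 2 ^ (n - s) * 2 ^ s := by
    rw [← pow_add]
    congr 1
    omega
  have h3 : (2 : ℝ) ^ s ≠ 0 := by positivity
  have h4 : (2 : ℝ) ^ n ≠ 0 := by positivity
  rw [div_eq_iff h3]
  have h5 : (2 : ℝ) ^ (n - s) * 2 ^ (n - s) * e ^ (-1 : ℝ) * 2 ^ s =
      2 ^ (n - s) * e ^ (-1 : ℝ) * 2 ^ n := by
    rw [h2]
    ring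
  calc c₀ * ((2 ^ n : ℝ)⁻¹ * (2 ^ (n - s) * e ^ (-1 : ℝ))) * (2 ^ n * 2 ^ n) =
      c₀ * (2 ^ (n - s) * e ^ (-1 : ℝ) * 2 ^ n) := by field_simp
    _ = c₀ * (2 ^ (n - s) * 2 ^ (n - s) * e ^ (-1 : ℝ) * 2 ^ s) := by rw [h5]
    _ = _ := by ring

/-- the entropy number: `log (1/e) + log (1 + source)` -/
lemma v_log (S : Sm B q m G R e cp) (hB : 4 ≤ B) (h : LvV B q m R e cp n r s) {c₀ : ℝ}
    (hc0 : 0 ≤ c₀) (hc : c₀ ≤ 2 * q) :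
    Real.log (1 / e) + Real.log (1 + c₀ * (√(tn n) * (2 ^ (n - s) * e ^ (-1 : ℝ))) *
      (4 : ℝ) ^ n / 2 ^ s) ≤ 5 * R := by
  have q0 : 0 < q := by linarith [S.q1]
  have he := S.e0
  have he4 := S.e1
  have e1p : 0 < e ^ (-1 : ℝ) := Real.rpow_pos_of_pos he _
  rw [v_R h.sn]
  have F : (1 : ℝ) ≤ 4 ^ (n - s) := one_le_pow₀ (by norm_num)
  have hq : 4 * q ≤ e ^ (-1 : ℝ) := by
    have := S.f7
    have := mul_le_mul_of_nonneg_right hB q0.le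
    linarith
  have hei : e ^ (-1 : ℝ) = 1 / e := by rw [Real.rpow_neg_one, one_div]
  have he1' : (1 : ℝ) ≤ 1 / e := by
    rw [le_div_iff₀ he]
    linarith
  have g1 : 1 + c₀ * 4 ^ (n - s) * e ^ (-1 : ℝ) ≤ (1 / e) * (1 / e) * 4 ^ (n - s) := by
    have a1 : c₀ * 4 ^ (n - s) * e ^ (-1 : ℝ) ≤ 2 * q * 4 ^ (n - s) * e ^ (-1 : ℝ) := by gcongr
    have a2 : 1 ≤ 2 * q * 4 ^ (n - s) * e ^ (-1 : ℝ) := by
      rw [hei]
      have b1 : (1 : ℝ) ≤ 2 * q := by linarith [S.q1]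
      have b2 : (1 : ℝ) ≤ 2 * q * 4 ^ (n - s) := one_le_mul_of_one_le_of_one_le b1 F
      exact one_le_mul_of_one_le_of_one_le b2 he1'
    have a3 : 2 * q * 4 ^ (n - s) * e ^ (-1 : ℝ) + 2 * q * 4 ^ (n - s) * e ^ (-1 : ℝ) =
        (4 * q) * (e ^ (-1 : ℝ) * 4 ^ (n - s)) := by ring
    have a4 : (4 * q) * (e ^ (-1 : ℝ) * 4 ^ (n - s)) ≤ e ^ (-1 : ℝ) * (e ^ (-1 : ℝ) * 4 ^ (n - s)) :=
      mul_le_mul_of_nonneg_right hq (by positivity)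
    rw [hei] at a4 a3 a2 a1 ⊢
    linarith
  have p1 : (0 : ℝ) < 1 + c₀ * 4 ^ (n - s) * e ^ (-1 : ℝ) := by positivity
  have g2 := Real.log_le_log p1 g1
  have e0' : (1 : ℝ) / e ≠ 0 := by positivity
  have e4' : ((4 : ℝ) ^ (n - s)) ≠ 0 := by positivity
  rw [Real.log_mul (by positivity) e4', Real.log_mul e0' e0', Real.log_pow] at g2
  have hl4 : Real.log 4 ≤ 2 := by
    have h1 : Real.log 4 = 2 * Real.log 2 := by
      rw [show (4 : ℝ) = 2 ^ 2 by norm_num, Real.log_pow]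
      norm_num
    have h2 := Real.log_two_lt_d9
    rw [h1]
    linarith
  have hlog : Real.log (1 / e) ≤ Real.logb 2 (1 / e) := by
    have h2 : 0 < Real.log 2 := Real.log_pos one_lt_two
    have h3 : Real.log 2 ≤ 1 := by
      have := Real.log_two_lt_d9
      linarith
    have h0 : 0 ≤ Real.log (1 / e) := Real.log_nonneg he1'
    unfold Real.logb
    rw [le_div_iff₀ h2]
    nlinarith
  have g3 : ((n - s : ℕ) : ℝ) * Real.log 4 ≤ R * 2 :=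
    mul_le_mul h.ns hl4 (Real.log_nonneg (by norm_num)) (by linarith [S.R1])
  have hlg := h.lg
  linarith

end lem

end num

end

end Vale.Agent.P159.H816
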