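import Vale.Agent.P159.H816.Ty3

/-!
P159 / (A) TypE (helper816), part 4: families at the natural mass and level data at the V cells.

* `TypN P b` (helper896's (T2)), `fam_typN`, `ev_typN`;
* `sm_evR`, `lvV_of` : the level data at the cells `s ≤ sE n e`, `n ≤ 2 s`, `n - s ≤ e^(-th/100)`;
* `ap_V` : the a priori bound at these cells, amplitude `q^4/72`.
-/

set_option linter.unusedSectionVars false

namespace Vale.Agent.P159.H816

open Filter Topology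
open Vale.Agent.P159.H972 (Par lg tn one_le_logb GP AP RNG FL)
open Vale.Agent.P159.H730 (QD AptN ZsN AptH)
open Vale.Agent.P159.H239 (Fam Sel TypE)
open Vale.Agent.P159.H801 (Ev PS)

noncomputable section

/-- typical sources at the natural mass (helper896's (T2)) -/
def TypN (P : Par) (b : ℝ) : Prop :=
  ∀ (n : ℕ) (e τ a : ℝ), 0 < e → e ≤ P.es → GP P b a n e τ → tn n ≤ τ → τ ≤ 4 * tn n →
    ∀ r, P.TT n e r → ∀ s, 0 < s → s < tn n → ∀ [NeZero (2 ^ r / 2 ^ P.sE n e)],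
      TypE (2 ^ r) (2 ^ P.sE n e) b (tn n) s (e ^ (-(P.th / 16))) 1
        (Real.exp (-(e ^ (-(P.th / 16)))))

/-- **(T2) as a family** -/
theorem fam_typN {b b1 b2 pf : ℝ} (hb1 : 0 < b1) (h1 : b1 ≤ b) (hpf : 0 < pf) :
    Fam b1 b2 pf fun P _ => TypN P b := by
  have hb : 0 < b := hb1.trans_le h1
  refine (fam_typB (b := b) hb1 h1 hpf).imp fun P N0 _ _ _ _ hT => ?_
  intro n e τ a he hes hG h1τ h4τ r hr s hs hsτ _
  have hdiv : 2 ^ P.sE n e ∣ 2 ^ r := by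
    refine pow_dvd_pow 2 ?_
    have := hr.1
    unfold Par.sE
    omega
  refine ((hT n e τ a he hes h1τ h4τ hG r hr s hs).2 hsτ).mono hb.le hdiv hs hsτ.le
    (Real.rpow_pos_of_pos he _).le le_rfl ?_ le_rfl
  exact Real.rpow_le_one he.le (hes.trans (P.es1.trans (by norm_num))) (by norm_num)

/-- a family without `N0` in `Ev` form -/
lemma ev_of_fam {b1 b2 pf : ℝ} {S : Par → Prop} (h : Fam b1 b2 pf fun P _ => S P) (Q : ℕ) :
    Ev b1 b2 pf Q fun P _ => S P :=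
  (h.ev Q).mono fun P _ _ h => by
    obtain ⟨N0, h⟩ := h.exists
    exact h

theorem ev_typN {b b1 b2 pf : ℝ} (hb1 : 0 < b1) (h1 : b1 ≤ b) (hpf : 0 < pf) (Q : ℕ) :
    Ev b1 b2 pf Q fun P _ => TypN P b := ev_of_fam (fam_typN hb1 h1 hpf) Q

theorem ev_typB {b b1 b2 pf : ℝ} (hb1 : 0 < b1) (h1 : b1 ≤ b) (hpf : 0 < pf) (Q : ℕ) :
    Ev b1 b2 pf Q fun P _ => TypB P b := ev_of_fam (fam_typB hb1 h1 hpf) Q

section lv

variable {b1 b2 pf W ys x1 thp th C0 : ℝ} {X0 Q : ℕ} {P : Par}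

/-- the smallness facts with `R = e^(-c2)` -/
theorem sm_evR {th x1 C0 cp c2 : ℝ} (hth : 0 < th) (hx1 : 0 < x1) (hC0 : 0 < C0)
    (h2 : 18 * x1 + th / 8 < 1 / 40) (h3 : 24 * x1 + th / 4 < cp)
    (h5a : 36 * x1 + cp < 2 * C0) (h5b : 36 * x1 + th / 2 < 2 * C0) (h5c : 36 * x1 + 2 < 2 * C0)
    (hc2 : 0 < c2) (hc5 : 5 * c2 < th / 16) (B : ℝ) (hB : 0 < B) :
    ∀ᶠ e in 𝓝[>] (0 : ℝ), Sm B (e ^ (-(th / 16))) (e ^ (-(6 * x1))) (e ^ (-C0))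
      (e ^ (-c2)) e cp ∧ 1 + Real.logb 2 (1 / e) ≤ e ^ (-c2) := by
  filter_upwards [sm_ev hth hx1 hC0 h2 h3 h5a h5b h5c B hB, ev_pow hc5 B,
    ev_small hc2 1 1] with e S g1 g2
  have he1 : e ≤ 1 := by linarith [S.e1]
  refine ⟨⟨S.e0, S.e1, S.q1, S.m1, S.G1,
    Real.one_le_rpow_of_pos_of_le_one_of_nonpos S.e0 he1 (by linarith), ?_, S.f2, S.f3, S.f5,
    S.f6, S.f7, S.f8, S.f9, S.f10, S.f12⟩, ?_⟩
  · rw [rpow_pow' S.e0]
    refine le_trans (le_of_eq ?_) g1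
    congr 2
    push_cast
    ring
  · rw [neg_zero, Real.rpow_zero, mul_one, one_mul, pow_one] at g2
    exact g2

lemma sq_succ_le {n : ℕ} (hn : 6 ≤ n) : ((n : ℝ) + 1) ^ 2 ≤ 2 ^ n := by
  induction n, hn using Nat.le_induction with
  | base => norm_num
  | succ k hk ih =>
    have h1 : (6 : ℝ) ≤ k := by exact_mod_cast hk
    have h2 : (2 : ℝ) ^ (k + 1) = 2 ^ k * 2 := pow_succ _ _
    rw [h2]
    push_cast
    nlinarith

/-- the level data at the cells `s` -/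
lemma lvV_of {B c2 cp : ℝ} (hP : Sel P b1 b2 pf W ys X0 x1 Q thp th C0) (hC0 : 4 ≤ C0) {e : ℝ}
    (S : Sm B (e ^ (-(th / 16))) (e ^ (-(6 * x1))) (e ^ (-C0)) (e ^ (-c2)) e cp)
    (hlg : 1 + Real.logb 2 (1 / e) ≤ e ^ (-c2)) {n r s : ℕ} (hr : P.TT n e r)
    (hnE : 4 * lg P.C0 e ≤ n) (hM : (2 : ℝ) ^ (r - n) ≤ e ^ (-(6 * x1)))
    (hrn : ((r - n : ℕ) : ℝ) ≤ 1 + Real.logb 2 (1 / e)) (hs : s ≤ P.sE n e) (hns : n ≤ 2 * s)
    (hnR : ((n - s : ℕ) : ℝ) ≤ e ^ (-c2)) :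
    LvV B (e ^ (-(th / 16))) (e ^ (-(6 * x1))) (e ^ (-c2)) e cp n r s := by
  have he := S.e0
  have he4 := S.e1
  have he2 : e ≤ 1 / 2 := by linarith
  have hL := one_le_logb he he2
  have hC := hP.hC0
  rw [hC] at hnE
  have hnr : n ≤ r := (Nat.le_add_right _ _).trans hr.1
  have hsn : s ≤ n := by
    unfold Par.sE at hs
    omega
  have hlg2 : C0 * Real.logb 2 (1 / e) ≤ (lg C0 e : ℝ) := Nat.le_ceil _
  have hlgn : (4 : ℝ) * (lg C0 e : ℝ) ≤ n := by exact_mod_cast hnE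
  have hG : e ^ (-C0) ≤ (2 : ℝ) ^ lg C0 e := H276.le_two_lg he
  have G0 : 0 < e ^ (-C0) := Real.rpow_pos_of_pos he _
  have hn16 : (16 : ℝ) * Real.logb 2 (1 / e) ≤ n := by nlinarith
  have hn6 : 6 ≤ n := by
    have h2 : (6 : ℝ) ≤ n := by linarith
    exact_mod_cast h2
  refine ⟨hM, hrn.trans hlg, hnR, hlg, hsn, hnr, ?_, ?_⟩
  · have h1 : (r : ℝ) = n + ((r - n : ℕ) : ℝ) := by
      have h2 : r = n + (r - n) := by omega
      exact_mod_cast h2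
    linarith
  · have h1 : (e ^ (-C0)) ^ 4 ≤ (2 : ℝ) ^ n := by
      refine (pow_le_pow_left₀ G0.le hG 4).trans ?_
      rw [← pow_mul]
      exact pow_le_pow_right₀ one_le_two (by omega)
    have h2 := sq_succ_le hn6
    have h3 : ((n : ℝ) + 1) * (e ^ (-C0)) ^ 2 ≤ 2 ^ n := by
      have h4 : (((n : ℝ) + 1) * (e ^ (-C0)) ^ 2) ^ 2 ≤ ((2 : ℝ) ^ n) ^ 2 := by
        calc (((n : ℝ) + 1) * (e ^ (-C0)) ^ 2) ^ 2 = ((n : ℝ) + 1) ^ 2 * (e ^ (-C0)) ^ 4 := by ring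
          _ ≤ 2 ^ n * 2 ^ n := mul_le_mul h2 h1 (by positivity) (by positivity)
          _ = _ := by ring
      exact le_of_sq_le_sq h4 (by positivity)
    have h5 : (2 : ℝ) ^ n ≤ 4 ^ s := by
      have h6 : (4 : ℝ) ^ s = 2 ^ (2 * s) := by
        rw [pow_mul]
        norm_num
      rw [h6]
      exact pow_le_pow_right₀ one_le_two hns
    have n0 : (0 : ℝ) ≤ (n : ℝ) + 1 := by positivity
    calc B * ((n : ℝ) + 1) * ((e ^ (-(6 * x1))) ^ 6 *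
          (e ^ (-cp) + (e ^ (-(th / 16))) ^ 8 + e ^ (-2 : ℝ)))
        = ((n : ℝ) + 1) * (B * (e ^ (-(6 * x1))) ^ 6 *
          (e ^ (-cp) + (e ^ (-(th / 16))) ^ 8 + e ^ (-2 : ℝ))) := by ring
      _ ≤ ((n : ℝ) + 1) * (e ^ (-C0)) ^ 2 := mul_le_mul_of_nonneg_left S.f5 n0
      _ ≤ 2 ^ n := h3
      _ ≤ 4 ^ s := h5

end lv

end

end Vale.Agent.P159.H816
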