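import Vale.Agent.P159.H816.Ty5

/-!
P159 / **(A) TypE at the V cells with a small level at every real mass** (helper816), part 6
(helper316's request 7143).

* `TypX P b` and `fam_typX`: level `e^x1` at every real mass `T ∈ [tn n, 4 tn n]`, cells
  `s ≤ sE n e`, `n ≤ 2 s`, `n - s ≤ e^(-th/100)`;
* `TypS P b c1` (cells `n - s ≤ e^(-2 c1)`) and `ev_typS`.
-/

set_option linter.unusedSectionVars false

namespace Vale.Agent.P159.H816

open Filter Topology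
open Vale.Agent.P159.H972 (Par lg tn one_le_logb GP AP RNG FL)
open Vale.Agent.P159.H730 (QD AptNr ZsN AptHr)
open Vale.Agent.P159.H239 (Fam Sel TypE)
open Vale.Agent.P159.H801 (Ev PS)

noncomputable section

/-- typical sources at the fine cells, small level -/
def TypX (P : Par) (b : ℝ) : Prop :=
  ∀ (n : ℕ) (e τ a : ℝ), 0 < e → e ≤ P.es → GP P b a n e τ → ∀ r, P.TT n e r →
    ∀ s : ℕ, s ≤ P.sE n e → n ≤ 2 * s → ((n - s : ℕ) : ℝ) ≤ e ^ (-(P.th / 100)) →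
    ∀ T, tn n ≤ T → T ≤ 4 * tn n → ∀ a', 0 < a' → a' < T → ∀ [NeZero (2 ^ r / 2 ^ s)],
      TypE (2 ^ r) (2 ^ s) b T a' (e ^ (-(P.th / 16))) (e ^ P.x1)
        (Real.exp (-(e ^ (-(P.th / 16)))))

/-- **(A) at the fine cells, small level, one state** -/
theorem typ_stateS {b1 b2 pf W ys x1 thp th C0 c2 b K2 e₀ C c B cp : ℝ} {X0 Q : ℕ} {P : Par}
    (hb : 0 < b) (hP : Sel P b1 b2 pf W ys X0 x1 Q thp th C0) (hpf : 0 < pf)
    (hC0 : pf + 4 ≤ C0) (hK2 : 0 < K2)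
    (H : AptHr P b K2 e₀)
    (hWt : ∀ (P : Par) (n r s : ℕ) (e τ a : ℝ) [NeZero (2 ^ r / 2 ^ s)], 0 < P.pf → 0 < e →
      e ≤ P.es → P.pf + 4 ≤ P.C0 → s + lg P.C0 e ≤ n → n + 2 ≤ r → tn n ≤ τ → τ ≤ 4 * tn n →
      FL b (tn n) a (e ^ P.pf) (2 ^ r) → FL b (4 * tn n) a (e ^ P.pf) (2 ^ r) →
      tn n * (H276.Wt (2 ^ r) (2 ^ s) b (tn n) τ).trace ≤
        C * (1 + ((r - n : ℕ) : ℝ)) * ((2 : ℝ) ^ (r - n)) ^ 2 * e ^ (c * P.pf))
    (hcs : Cs B (Cz b) C (20 * K2 + 5) C0) (hcp : cp + cp = c * pf) (hx1c : x1 ≤ cp)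
    (hx16 : x1 ≤ 1 / 16) {n r s : ℕ} {e τ a : ℝ}
    (he : 0 < e) (hes : e ≤ P.es) (hee : e ≤ e₀)
    (S : Sm B (e ^ (-(th / 16))) (e ^ (-(6 * x1))) (e ^ (-C0)) (e ^ (-c2)) e cp)
    (hL : LvV B (e ^ (-(th / 16))) (e ^ (-(6 * x1))) (e ^ (-c2)) e cp n r s)
    (hsE : s ≤ P.sE n e) (hr : P.TT n e r) (hG : GP P b a n e τ)
    (hAP : AP b n r s ((e ^ (-(th / 16))) ^ 4 / 72) (tn n) (2 * e ^ (1 / 8 : ℝ)))
    {T : ℝ} (h1 : tn n ≤ T) (h4 : T ≤ 4 * tn n) {a' : ℝ} (ha : 0 < a') (haT : a' < T)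
    [NeZero (2 ^ r / 2 ^ s)] :
    TypE (2 ^ r) (2 ^ s) b T a' (e ^ (-(P.th / 16))) (e ^ P.x1)
      (Real.exp (-(e ^ (-(P.th / 16))))) := by
  rw [hP.hth, hP.hx1]
  set q : ℝ := e ^ (-(th / 16)) with hq
  set m : ℝ := e ^ (-(6 * x1)) with hm
  set G : ℝ := e ^ (-C0) with hGd
  set R : ℝ := e ^ (-c2) with hRd
  have q1 := S.q1
  have q0 : 0 < q := by linarith
  have he4 := S.e1
  have he2 : e ≤ 1 / 2 := by linarith
  have he1 : e ≤ 1 := by linarith
  have hl := one_le_logb he he2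
  have hnr := hL.nr
  have hsn := hL.sn
  have hlgn : 4 * lg P.C0 e ≤ n := hG.nE
  have hdiv : 2 ^ s ∣ 2 ^ r := pow_dvd_pow 2 (hsn.trans hnr)
  obtain ⟨hR, -⟩ := hG.rng r (Or.inl hr)
  obtain ⟨F1, F4⟩ := hG.flat r hr
  have hB13 := hcs.c8
  have e1p : 0 < e ^ (-1 : ℝ) := Real.rpow_pos_of_pos he _
  have ecp : 0 < e ^ cp := Real.rpow_pos_of_pos he _
  have e2cp : e ^ (c * pf) = e ^ cp * e ^ cp := by rw [← Real.rpow_add he, hcp]
  set Λ : ℝ := 2 ^ (n - s) * e ^ (-1 : ℝ) with hΛ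
  have hΛ0 : 0 < Λ := by positivity
  -- the entropy number
  have hlogV : ∀ c₀ : ℝ, 0 ≤ c₀ → c₀ ≤ 2 * q →
      Real.log (1 / e) + Real.log (1 + c₀ * (√(tn n) * Λ) * (4 : ℝ) ^ n / 2 ^ s) ≤ 5 * R :=
    fun c₀ h0 h2 => v_log S (by linarith) hL h0 h2
  have hDk : ∀ x : ℝ, x ≤ 5 * R → 4 * ((⌈K2 * x⌉₊ : ℕ) : ℝ) + 1 ≤ (20 * K2 + 5) * R := by
    intro x hx
    have hR1 := S.R1
    rcases le_or_gt (K2 * x) 0 with h0 | h0
    · rw [Nat.ceil_eq_zero.2 h0]
      push_cast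
      have : 0 ≤ K2 * R := by positivity
      nlinarith
    · have h3 : ((⌈K2 * x⌉₊ : ℕ) : ℝ) ≤ K2 * x + 1 := (Nat.ceil_lt_add_one h0.le).le
      have h5 : K2 * x ≤ K2 * (5 * R) := mul_le_mul_of_nonneg_left hx hK2.le
      nlinarith
  -- the number `w`
  have ht0 : 0 < tn n := tn_pos n
  set w : ℝ := (C * (1 + ((r - n : ℕ) : ℝ)) * ((2 : ℝ) ^ (r - n)) ^ 2 * e ^ (c * pf)) / tn n
    with hw
  have hw' : tn n * w = C * (1 + ((r - n : ℕ) : ℝ)) * ((2 : ℝ) ^ (r - n)) ^ 2 * e ^ (c * pf) := by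
    rw [hw, mul_div_cancel₀ _ ht0.ne']
  have htr : (H276.Wt (2 ^ r) (2 ^ s) b (tn n) T).trace ≤ w := by
    have h5 := hWt P n r s e T a (by rw [hP.hpf]; exact hpf) he hes
      (by rw [hP.hpf, hP.hC0]; exact hC0) (by unfold Par.sE at hsE; omega)
      (by
        have h6 : 3 ≤ P.kE e := hP.adm.hk.trans (H972.lg_anti P.th0.le he hes)
        have := hr.1
        omega) h1 h4 F1 F4
    rw [hP.hpf] at h5
    rw [hw, le_div_iff₀ ht0]
    linarith
  -- final numbers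
  have hprob : 13 * ((2 : ℝ) ^ (r - n)) ^ 4 * Real.exp (-(2 * q)) ≤ Real.exp (-q) := by
    have h5 : 13 * ((2 : ℝ) ^ (r - n)) ^ 4 ≤ Real.exp q := by
      have h6 := S.f8
      have h8 := hL.M
      have h9 : ((2 : ℝ) ^ (r - n)) ^ 4 ≤ m ^ 4 := pow_le_pow_left₀ (by positivity) h8 4
      have m4 : 0 ≤ m ^ 4 := by positivity
      calc 13 * ((2 : ℝ) ^ (r - n)) ^ 4 ≤ 13 * m ^ 4 := by linarith
        _ ≤ B * m ^ 4 := mul_le_mul_of_nonneg_right hB13 m4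
        _ ≤ _ := h6
    have e1 : Real.exp (-(2 * q)) = Real.exp (-q) * Real.exp (-q) := by
      rw [← Real.exp_add]
      congr 1
      ring
    rw [e1]
    calc 13 * ((2 : ℝ) ^ (r - n)) ^ 4 * (Real.exp (-q) * Real.exp (-q))
        ≤ Real.exp q * (Real.exp (-q) * Real.exp (-q)) :=
          mul_le_mul_of_nonneg_right h5 (by positivity)
      _ = Real.exp (-q) := by
        rw [← mul_assoc, ← Real.exp_add, add_neg_cancel, Real.exp_zero, one_mul]
  have zs : ∀ (D : ℕ) (Q₁ : ℝ), 4 * (D : ℝ) + 1 ≤ (20 * K2 + 5) * R → 1 ≤ Q₁ →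
      Q₁ ≤ 2 * q * QD D →
      ZsN b n r s (q ^ 4 / 72) Q₁ q (e ^ cp * (1 / (4 * q ^ 2))) w Λ (2 * q) := by
    intro D Q₁ hD hQ0 hQ1
    have hC := hcs.C00
    exact
      { w0 := by
          have h2 : 0 < tn n * w := by
            rw [hw']
            have : 0 < e ^ (c * pf) := Real.rpow_pos_of_pos he _
            positivity
          exact (mul_pos_iff_of_pos_left ht0).1 h2
        Q1 := hQ0
        QX := n_QX S hcs hD hQ1
        Y0 := by linarith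
        u0 := by positivity
        X2 := v_X2 S hcs hL hD (by linarith) hQ1
        L2 := v_L2 S hcs hL
        u2 := by
          rw [hw', e2cp]
          have h2 := mul_le_mul_of_nonneg_left (v_u2 S hcs hL) ecp.le
          refine le_trans (le_of_eq ?_) h2
          ring
        Λ2 := v_Λ2 S hcs hL
        s1 := v_s1 S hcs hL
        s2 := v_s2 S hcs hL
        s3 := by
          rw [hw', e2cp]
          have h2 := v_s3 S hcs hL
          have e3 : e ^ cp * (1 / (4 * q ^ 2)) /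
              (C * (1 + ((r - n : ℕ) : ℝ)) * ((2 : ℝ) ^ (r - n)) ^ 2 * (e ^ cp * e ^ cp)) =
              1 / (4 * q ^ 2) /
                (C * (1 + ((r - n : ℕ) : ℝ)) * ((2 : ℝ) ^ (r - n)) ^ 2 * e ^ cp) := by
            have h3 : (1 : ℝ) + ((r - n : ℕ) : ℝ) ≠ 0 := by positivity
            field_simp
          rw [e3]
          exact h2 }
  set D : ℕ := ⌈K2 * (Real.log (1 / e) +
    Real.log (1 + 2 * q * (√(tn n) * Λ) * (4 : ℝ) ^ n / 2 ^ s))⌉₊ with hD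
  have hD1 := hDk _ (hlogV (2 * q) (by linarith) le_rfl)
  rw [← hD] at hD1
  have hQD := one_le_QD D
  have hn : AptNr K2 e n r s D (2 * q) q (√(tn n) * Λ) (2 * e ^ (1 / 8 : ℝ)) (q ^ 4 / 72) :=
    { c0 := by linarith
      D0 := Nat.le_ceil _
      L0 := by linarith
      Lam0 := by positivity
      νL := v_νL S hcs hL (by linarith) le_rfl
      δ0 := by
        have : 0 < e ^ (1 / 8 : ℝ) := Real.rpow_pos_of_pos he _
        positivity
      δe := le_rfl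
      X := n_X S hcs hD1 (by linarith) le_rfl }
  have hz := zs D (2 * q * QD D) hD1 (by nlinarith) le_rfl
  have key := H730.typ_tauR hb H he hee hR hnr hsn h1 h4 hn hz hAP htr ha haT
  refine key.mono hb.le hdiv ha haT.le q0.le le_rfl ?_ hprob
  have h6 : q ^ 2 * (e ^ cp * (1 / (4 * q ^ 2))) = e ^ cp / 4 := by field_simp
  rw [h6]
  have a1 : e ^ (1 / 16 : ℝ) ≤ e ^ x1 := Real.rpow_le_rpow_of_exponent_ge he he1 hx16
  have a2 : e ^ cp ≤ e ^ x1 := Real.rpow_le_rpow_of_exponent_ge he he1 hx1c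
  have a3 : 0 < e ^ x1 := Real.rpow_pos_of_pos he _
  linarith

/-- **(A) at the fine cells, small level, family** -/
theorem fam_typX {b b1 b2 pf : ℝ} (hb1 : 0 < b1) (h1 : b1 ≤ b) (hpf : 0 < pf) :
    Fam b1 b2 pf fun P _ => TypX P b := by
  have hb : 0 < b := hb1.trans_le h1
  obtain ⟨C, c, hC, hc, hc1, hWt⟩ := H276.trWt_good hb
  obtain ⟨W0, hA⟩ := H730.apt_tR hb1 b2 (TM.Frame.thmA6 hb1)
  obtain ⟨W0', h⟩ := H789.fam_apV (b := b) (b1 := b1) (b2 := b2) (pf := pf) hb1 h1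
  refine ⟨max W0 W0', fun W hW => ?_⟩
  obtain ⟨ysa, X0a, hysa, hA⟩ := hA W ((le_max_left _ _).trans hW)
  obtain ⟨ys0, hys0, h⟩ := h W ((le_max_right _ _).trans hW)
  refine ⟨min ysa ys0, lt_min hysa hys0, fun ys hy1 hy2 => ?_⟩
  obtain ⟨X00, h⟩ := h ys hy1 (hy2.trans (min_le_right _ _))
  refine ⟨max X0a X00, fun X0 hX0 => ?_⟩
  obtain ⟨r1, hr1, h⟩ := h X0 ((le_max_right _ _).trans hX0)
  have hcp : 0 < c * pf := by positivity
  refine ⟨min r1 (min (1 / 1000) (c * pf / 60)), by positivity, fun x1 hx1 hx1' => ?_⟩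
  have hx1a : x1 ≤ 1 / 1000 := hx1'.trans ((min_le_right _ _).trans (min_le_left _ _))
  have hx1b : x1 ≤ c * pf / 60 := hx1'.trans ((min_le_right _ _).trans (min_le_right _ _))
  obtain ⟨Q0, h⟩ := h x1 hx1 (hx1'.trans (min_le_left _ _))
  refine ⟨Q0, fun Q hQ => ?_⟩
  obtain ⟨r2, hr2, h⟩ := h Q hQ
  refine ⟨min r2 (x1 / (8 * ((Q : ℝ) + 3))), lt_min hr2 (by positivity), fun thp ht1 ht2 => ?_⟩
  have hthp : ((Q : ℝ) + 3) * thp ≤ x1 / 8 := by
    have h2 := ht2.trans (min_le_right _ _)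
    rw [le_div_iff₀ (by positivity)] at h2
    linarith
  obtain ⟨r3, hr3, h⟩ := h thp ht1 (ht2.trans (min_le_left _ _))
  refine ⟨min r3 (x1 / 8), lt_min hr3 (by positivity), fun th ht3 ht4 => ?_⟩
  have hth : th ≤ x1 / 8 := ht4.trans (min_le_right _ _)
  obtain ⟨C00, h⟩ := h th ht3 (ht4.trans (min_le_left _ _))
  refine ⟨max C00 (pf + 4), fun C0 hC0 hC0' => ?_⟩
  have hC04 : pf + 4 ≤ C0 := (le_max_right _ _).trans hC0'
  obtain ⟨E0, hE0, h⟩ := h C0 hC0 ((le_max_left _ _).trans hC0')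
  obtain ⟨K2, e₀, hK2, he₀, hA⟩ := hA
  obtain ⟨B, hB0, hcs⟩ := cs_exists (Cz_nonneg hb.le) hC (show 1 ≤ 20 * K2 + 5 by linarith) hC0.le
  have hcpf : c * pf ≤ pf := mul_le_of_le_one_left hpf.le hc1
  have ev := (((sm_evR (th := th) (x1 := x1) (C0 := C0) (cp := c * pf / 2) (c2 := th / 100) ht3 hx1
    hC0 (by linarith) (by linarith) (by linarith) (by linarith) (by linarith) (by positivity)
    (by linarith) B hB0).and
    (M_ev (b1 := b1) (b2 := b2) (pf := pf) (W := W) (ys := ys) (X0 := X0) (C0 := C0) (Q := Q)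
      (thp := thp) (th := th) hx1 (by linarith) ht1 hth hthp)))
  obtain ⟨E1, hE1, hEv⟩ := mem_nhdsGT_iff_exists_Ioc_subset.1 ev
  have hE1' : (0 : ℝ) < E1 := hE1
  refine ⟨min E0 (min E1 e₀), by positivity, fun P hP hes => ?_⟩
  obtain ⟨N00, h⟩ := h P hP (hes.trans (min_le_left _ _))
  refine ⟨N00, fun N0 hN => ?_⟩
  intro n e τ a he hes' hG r hr s hsE hns hnR T h1T h4T a' ha haT _
  have heE : e ≤ E1 := hes'.trans (hes.trans ((min_le_right _ _).trans (min_le_left _ _)))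
  have hee : e ≤ e₀ := hes'.trans (hes.trans ((min_le_right _ _).trans (min_le_right _ _)))
  obtain ⟨⟨S, hlg⟩, hM⟩ := hEv ⟨he, heE⟩
  have he4 := S.e1
  obtain ⟨hM1, hM2⟩ := hM P hP n r hr
  have hnE := hG.nE
  rw [hP.hth] at hnR
  have hL := lvV_of hP (by linarith) S hlg hr hnE hM1 hM2 hsE hns hnR
  have hn12 : 12 ≤ n := by
    have h2 : 4 ≤ lg P.C0 e := by
      have h3 := one_le_logb he (by linarith)
      have h4 : (4 : ℝ) ≤ P.C0 * Real.logb 2 (1 / e) := by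
        rw [hP.hC0]
        nlinarith
      have h5 := h4.trans (Nat.le_ceil (P.C0 * Real.logb 2 (1 / e)))
      exact_mod_cast h5
    omega
  have q0 : 0 < e ^ (-(th / 16)) := Real.rpow_pos_of_pos he _
  have he1 : e ≤ 1 := by linarith
  -- AP
  have hX : (e ^ (-(th / 16))) ^ 4 = e ^ (-(th / 4)) := by
    rw [rpow_pow' he]
    congr 1
    push_cast
    ring
  have hq13 : 13 ≤ e ^ (-(th / 16)) := by
    have h2 : B ≤ B * (e ^ (-(th / 100))) ^ 5 := le_mul_of_one_le_right hB0.le (one_le_pow₀ S.R1)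
    have h3 := S.f1
    have h4 := hcs.c8
    linarith
  have hAP := h N0 hN a n e τ he hes' hn12 hG r hr ((e ^ (-(th / 16))) ^ 4)
    (by
      have h2 : (13 : ℝ) ^ 4 ≤ (e ^ (-(th / 16))) ^ 4 := pow_le_pow_left₀ (by norm_num) hq13 4
      norm_num at h2
      linarith) (by
      rw [hX, rpow_pow' he, hP.hth, ← Real.rpow_add he]
      have h2 : e ^ (((2 : ℕ) : ℝ) * -(th / 4) + -(th / 400)) ≤ e ^ (-th) := by
        refine Real.rpow_le_rpow_of_exponent_ge he he1 ?_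
        push_cast
        linarith
      refine h2.trans ((H276.le_two_lg (c := th) he).trans ?_)
      refine pow_le_pow_right₀ one_le_two ?_
      have h3 : P.kE e = lg th e := by
        unfold Par.kE
        rw [hP.hth]
      have := hr.1
      omega) (by
      rw [hX]
      have h2 : e ^ (-(th / 4)) ≤ e ^ (-x1) :=
        Real.rpow_le_rpow_of_exponent_ge he he1 (by linarith)
      refine h2.trans ((H276.le_two_lg (c := x1) he).trans (le_of_eq ?_))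
      unfold Par.xE
      rw [hP.hx1]) s hsE
  exact typ_stateS (cp := c * pf / 2) hb hP hpf hC04 hK2 (hA P hP.hb1 hP.hb2 hP.hW (by
    rw [hP.hys]; exact hy2.trans (min_le_left _ _)) (by
    rw [hP.hX0]; exact (le_max_left _ _).trans hX0) b) hWt hcs (by ring) (by linarith)
    (by linarith) he hes' hee S hL hsE hr hG hAP h1T h4T ha haT

/-- typical sources at the V cells, small level at every real mass -/
def TypS (P : Par) (b c1 : ℝ) : Prop :=
  ∀ (n : ℕ) (e τ a : ℝ), 0 < e → e ≤ P.es → GP P b a n e τ → ∀ r, P.TT n e r →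
    ∀ s : ℕ, s ≤ P.sE n e → n ≤ 2 * s → ((n : ℝ) - s) ≤ e ^ (-(2 * c1)) →
    ∀ T, tn n ≤ T → T ≤ 4 * tn n → ∀ a', 0 < a' → a' < T → ∀ [NeZero (2 ^ r / 2 ^ s)],
      TypE (2 ^ r) (2 ^ s) b T a' (e ^ (-(P.th / 16))) (e ^ P.x1)
        (Real.exp (-(e ^ (-(P.th / 16)))))

theorem ev_typS {b b1 b2 pf : ℝ} (hb1 : 0 < b1) (h1 : b1 ≤ b) (hpf : 0 < pf) (Q : ℕ) :
    Ev b1 b2 pf Q fun P c1 => TypS P b c1 := by
  have hb : 0 < b := hb1.trans_le h1
  refine ((ev_of_fam (fam_typX (b2 := b2) hb1 h1 hpf) Q).and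
    (ev_c1 (b1 := b1) (b2 := b2) (pf := pf) Q (show (0 : ℝ) < 1 / 200 by norm_num))).mono
    fun P c1 _ hT => ?_
  obtain ⟨hT, hc0, hc1⟩ := hT
  intro n e τ a he hes hG r hr s hsE hns hnR T h1T h4T a' ha haT _
  have he1 : e ≤ 1 := hes.trans (P.es1.trans (by norm_num))
  have hsn : s ≤ n := by
    unfold Par.sE at hsE
    omega
  refine hT n e τ a he hes hG r hr s hsE hns ?_ T h1T h4T a' ha haT
  rw [Nat.cast_sub hsn]
  refine hnR.trans (Real.rpow_le_rpow_of_exponent_ge he he1 ?_)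
  linarith

end

end Vale.Agent.P159.H816
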