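import Vale.Agent.P159.H663.GsR

/-!
P159 / module ZS (helper816), part 0: **probability of the good set of sources at the zero
source**, neutral cell channel: prior `μ' = nMC N l b t s x₀` (fine mass `t`, cell mass `s < t`,
`s` ARBITRARY: no smallness condition, no lower bound), channel `P = obsN N l (t - s)`. The height
part of every condition is a hypothesis (`Ex μ' 0 (..) ≤ π`: 896 `tail0`), the noise part and the
union bound are here.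

* `ball_noise` : `P_g (u < 9 c |F g|²) ≤ exp (r₁/(2 k₁) - u/(36 c k₁))`;
* `zs_ball`    : one ball condition `|F cobV J|² ≤ u`, `F` with neutral rows;
* `zs_rs`      : one block condition `Rs (wt N b t₀) (Q₁ cobVᵀ 1_B (1 - Av) T cobV J) ≤ δ`;
* `zs0`        : the class (finitely many block conditions and ball conditions).
-/

namespace Vale.Agent.P159.H816

open Finset Matrix MeasureTheory ProbabilityTheory
open Vale.Agent.P159.TM.H104 (EM Ex Gr)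
open Vale.Agent.P159.TM.Spec (V)
open Vale.Agent.P159.H37
open Vale.Agent.P159.H864
open Vale.Agent.P159.H859 (dB)
open Vale.Agent.P159.H239 (indh)
open Vale.Agent.P159.H963 (Neu nMC obsN)
open Vale.Agent.P159.H663

noncomputable section

/-! ### noise of a ball condition -/

section noise

variable {K : Type*} [Fintype K] [DecidableEq K] {W : Type*} [Fintype W]

omit [DecidableEq K] in
lemma op_tr {F : Matrix W K ℝ} {k₁ : ℝ} (hk₁ : 0 ≤ k₁)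
    (h1 : ∀ φ : W → ℝ, ∑ i, (Fᵀ *ᵥ φ) i ^ 2 ≤ k₁ * ∑ i, φ i ^ 2) (g : K → ℝ) :
    ∑ w, (F *ᵥ g) w ^ 2 ≤ k₁ * ∑ i, g i ^ 2 := by
  set φ : W → ℝ := F *ᵥ g with hφ
  have e1 : ∑ w, φ w ^ 2 = (Fᵀ *ᵥ φ) ⬝ᵥ g := by
    rw [mulVec_transpose, ← dotProduct_mulVec, ← hφ, dot_self]
  have e2 : ((Fᵀ *ᵥ φ) ⬝ᵥ g) ^ 2 ≤ (∑ i, (Fᵀ *ᵥ φ) i ^ 2) * ∑ i, g i ^ 2 :=
    Finset.sum_mul_sq_le_sq_mul_sq Finset.univ (Fᵀ *ᵥ φ) g
  rw [← e1] at e2
  have e3 := mul_le_mul_of_nonneg_right (h1 φ) (sq_vec_nonneg g)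
  have e4 : (∑ w, φ w ^ 2) * (∑ w, φ w ^ 2) ≤ (k₁ * ∑ i, g i ^ 2) * ∑ w, φ w ^ 2 := by
    rw [← pow_two]
    refine e2.trans (e3.trans (le_of_eq ?_))
    ring
  rcases (sq_vec_nonneg φ).eq_or_lt with e5 | e5
  · rw [← e5]
    exact mul_nonneg hk₁ (sq_vec_nonneg g)
  · exact le_of_mul_le_mul_right e4 e5

/-- **noise part of a ball condition** -/
theorem ball_noise {F : Matrix W K ℝ} {k₁ r₁ : ℝ} (hk₁ : 0 < k₁)
    (h1 : ∀ φ : W → ℝ, ∑ i, (Fᵀ *ᵥ φ) i ^ 2 ≤ k₁ * ∑ i, φ i ^ 2) (hr₁ : (F * Fᵀ).trace ≤ r₁)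
    {c : ℝ} (hc : 0 < c) {u : ℝ} :
    ∫ g : K → ℝ, Set.indicator {g : K → ℝ |
      (3 : ℝ) • (√c • (F *ᵥ g)) ∉ {v : W → ℝ | ∑ w, v w ^ 2 ≤ u}} (fun _ => (1 : ℝ)) g
      ∂(gau K) ≤ Real.exp (r₁ / (2 * k₁) - u / (36 * c * k₁)) := by
  have hsq : ∀ v : W → ℝ, ∑ w, ((3 : ℝ) • v) w ^ 2 = 9 * ∑ w, v w ^ 2 := by
    intro v
    rw [Finset.mul_sum]
    refine Finset.sum_congr rfl fun w _ => ?_
    rw [Pi.smul_apply, smul_eq_mul]
    ring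
  have hK : (Fᵀ * F)ᵀ = Fᵀ * F := by rw [transpose_mul, transpose_transpose]
  have hq : ∀ g : K → ℝ, qf (Fᵀ * F) g = ∑ w, (F *ᵥ g) w ^ 2 := by
    intro g
    have := qf_mul_tr Fᵀ g
    rwa [transpose_transpose] at this
  have hop := op_tr hk₁.le h1
  have hg := gau_tail hK (fun g => by rw [hq]; exact sq_vec_nonneg _)
    (lam := 1 / (2 * k₁)) (by positivity) (fun g => by
      rw [hq]
      have := mul_le_mul_of_nonneg_left (hop g) (show (0 : ℝ) ≤ 1 / (2 * k₁) by positivity)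
      refine this.trans (le_of_eq ?_)
      field_simp) (u / (9 * c))
  have hm1 : Measurable fun g : K → ℝ => (3 : ℝ) • (√c • (F *ᵥ g)) := by fun_prop
  have hm2 : Measurable fun g : K → ℝ => qf (Fᵀ * F) g := by
    simp only [hq]
    fun_prop
  have hA : MeasurableSet {g : K → ℝ |
      (3 : ℝ) • (√c • (F *ᵥ g)) ∉ {v : W → ℝ | ∑ w, v w ^ 2 ≤ u}} :=
    hm1 (measurableSet_ball u).compl
  have hB : MeasurableSet {g : K → ℝ | u / (9 * c) ≤ qf (Fᵀ * F) g} :=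
    measurableSet_le measurable_const hm2
  refine le_trans (integral_mono ((integrable_const (1 : ℝ)).indicator hA)
    ((integrable_const (1 : ℝ)).indicator hB) fun g => ?_) (hg.trans (Real.exp_le_exp.2 ?_))
  · refine Set.indicator_le_indicator_of_subset (fun g hg' => ?_) (fun _ => zero_le_one) g
    simp only [Set.mem_ofPred_eq, not_le] at hg' ⊢
    rw [hsq] at hg'
    have e : ∑ w, (√c • (F *ᵥ g)) w ^ 2 = c * ∑ w, (F *ᵥ g) w ^ 2 := by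
      rw [Finset.mul_sum]
      refine Finset.sum_congr rfl fun w _ => ?_
      rw [Pi.smul_apply, smul_eq_mul, mul_pow, Real.sq_sqrt hc.le]
    rw [e] at hg'
    rw [hq, div_le_iff₀ (by positivity)]
    nlinarith
  · have e1 : (Fᵀ * F).trace = (F * Fᵀ).trace := trace_mul_comm _ _
    rw [e1]
    have e2 : 1 / (2 * k₁) * (F * Fᵀ).trace ≤ r₁ / (2 * k₁) := by
      rw [div_mul_eq_mul_div, one_mul]
      exact div_le_div_of_nonneg_right hr₁ (by positivity)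
    have e3 : 1 / (2 * k₁) * (u / (9 * c)) / 2 = u / (36 * c * k₁) := by
      field_simp
      ring
    linarith

end noise

/-! ### one condition at the zero source -/

section one

variable {N l : ℕ} [NeZero N] [NeZero (N / l)] {b t s : ℝ} {W : Type*} [Fintype W]

/-- **ball condition at the zero source** -/
theorem zs_ball (hb : 0 ≤ b) (hl : l ∣ N) (hs : 0 < s) (h : s < t) (x₀ : V N)
    {F : Matrix W (V (N / l)) ℝ} (hF : ∀ w, Neu (F w)) {k₁ r₁ : ℝ} (hk₁ : 0 < k₁)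
    (h1 : ∀ φ : W → ℝ, ∑ i, (Fᵀ *ᵥ φ) i ^ 2 ≤ k₁ * ∑ i, φ i ^ 2) (hr₁ : (F * Fᵀ).trace ≤ r₁)
    {u : ℝ} (hu : 0 ≤ u) {π : ℝ}
    (hπ : Ex (nMC N l b t s x₀) 0 (indh {h | u / 9 < ∑ w, ((((t - s) • (F * cobV N l)) *ᵥ
      re h) w) ^ 2}) ≤ π) :
    Ech (nMC N l b t s x₀) 0 (obsN N l (t - s))
      (ind {J | u < ∑ w, ((F * cobV N l) *ᵥ J) w ^ 2}) ≤
      π + Real.exp (r₁ / (2 * k₁) - u / (36 * (t - s) * k₁)) := by
  have hc : 0 < t - s := sub_pos.2 h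
  have hsq : ∀ v : W → ℝ, ∑ w, ((3 : ℝ) • v) w ^ 2 = 9 * ∑ w, v w ^ 2 := by
    intro v
    rw [Finset.mul_sum]
    refine Finset.sum_congr rfl fun w _ => ?_
    rw [Pi.smul_apply, smul_eq_mul]
    ring
  have hmain := gs_gen hb hl hs h.le x₀ hF (measurableSet_ball u) (convex_ball u) (J₁ := 0)
    (by
      rw [Set.mem_ofPred_eq, hsq]
      simpa using hu) (ρ := u / 9) (fun v hv => by
      rw [Set.mem_ofPred_eq, hsq]
      linarith) (π := π) (by simpa only [mulVec_zero, sub_zero] using hπ)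
      (ball_noise hk₁ h1 hr₁ hc (u := u))
  have e : {J : V N → ℝ | (F * cobV N l) *ᵥ J ∉ {v : W → ℝ | ∑ w, v w ^ 2 ≤ u}} =
      {J | u < ∑ w, ((F * cobV N l) *ᵥ J) w ^ 2} := by
    ext J
    simp only [Set.mem_ofPred_eq, not_le]
  rwa [e] at hmain

/-- **block condition (S1) at the zero source** -/
theorem zs_rs (hb : 0 ≤ b) (hl : l ∣ N) (hs : 0 < s) (h : s < t) (x₀ : V N)
    {q : ℕ} (hq : q ∣ N / l) (B : Finset (V (N / l)))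
    {T : Matrix (V (N / l)) (V (N / l)) ℝ} (hT : TC T)
    {t₀ : ℝ} (ht₀ : 0 < t₀) {X Q₁ δ : ℝ} (hX : 0 < X) (hQ : 0 < Q₁) (hδ : 0 ≤ δ)
    (hAP : (gau (V (N / l))).real {g | δ < rsC N l b t₀ ((X * √t₀) • (dB B *ᵥ g))} ≤ 1 / 30)
    (ha : 9 * Q₁ ^ 2 * (t - s) ≤ X ^ 2 * t₀) {π : ℝ}
    (hπ : Ex (nMC N l b t s x₀) 0 (indh {h | X ^ 2 * t₀ / (12 * Q₁ ^ 2) <
      ∑ w, ((((t - s) • (bE B q T * cobV N l)) *ᵥ re h) w) ^ 2}) ≤ π) :
    Ech (nMC N l b t s x₀) 0 (obsN N l (t - s))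
      (ind {J | δ < rsC N l b t₀ (Q₁ • ((bE B q T * cobV N l) *ᵥ J))}) ≤
      π + 2 * Real.exp (-(X ^ 2 * t₀ / (63 * Q₁ ^ 2 * (t - s)))) := by
  have hc : 0 < t - s := sub_pos.2 h
  have hν := cRs_noise (N := N) (l := l) hb ht₀ hX hQ hq B hT hAP hc ha
  have hmain := gs_gen hb hl hs h.le x₀ (bE_neu hq B hT) (cRs_meas hb ht₀ Q₁ δ)
    (cRs_convex hb ht₀ Q₁ δ) (J₁ := 0) (by
      show rsC N l b t₀ _ ≤ δ
      have e : Q₁ • ((3 : ℝ) • ((bE B q T * cobV N l) *ᵥ ((0 : V N → ℝ) +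
          (t - s) • (Gm (nMC N l b t s x₀) *ᵥ (0 : V N → ℝ))))) = 0 := by
        simp
      rw [e]
      unfold rsC
      rw [mulVec_zero, H789.Rs_zero]
      exact hδ)
    (ρ := X ^ 2 * t₀ / (12 * Q₁ ^ 2))
    (fun v hv => cRs_ball hb ht₀ hX hQ B hAP (bE_supp B q T v) hv)
    (π := π) (by simpa only [mulVec_zero, sub_zero] using hπ) hν
  have e1 : {J : V N → ℝ | (bE B q T * cobV N l) *ᵥ J ∉ cRs N l b t₀ Q₁ δ} =
      {J | δ < rsC N l b t₀ (Q₁ • ((bE B q T * cobV N l) *ᵥ J))} := by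
    ext J
    show ¬ (rsC N l b t₀ (Q₁ • ((bE B q T * cobV N l) *ᵥ J)) ≤ δ) ↔ _
    exact not_le
  rwa [e1] at hmain

/-! ### the class -/

/-- the class of sources: block conditions (S1) on the blocks `B β`, `β ∈ S₁`, and ball conditions
`|F i cobV J|² ≤ u i`, `i ∈ S₂` (differences of block means, crude norm, quadratic form) -/
structure Cls (N l : ℕ) [NeZero N] [NeZero (N / l)] (b t₀ Q₁ δ : ℝ) (q : ℕ)
    (T : Matrix (V (N / l)) (V (N / l)) ℝ) {ι₁ ι₂ : Type*} (S₁ : Finset ι₁)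
    (B : ι₁ → Finset (V (N / l))) (S₂ : Finset ι₂) {W : ι₂ → Type*} [∀ i, Fintype (W i)]
    (F : ∀ i, Matrix (W i) (V (N / l)) ℝ) (u : ι₂ → ℝ) (J : V N → ℝ) : Prop where
  rs : ∀ β ∈ S₁, rsC N l b t₀ (Q₁ • ((bE (B β) q T * cobV N l) *ᵥ J)) ≤ δ
  ball : ∀ i ∈ S₂, ∑ w, ((F i * cobV N l) *ᵥ J) w ^ 2 ≤ u i

omit [Fintype W] in
lemma meas_rs (hb : 0 ≤ b) {t₀ : ℝ} (ht₀ : 0 < t₀) (Q₁ δ : ℝ)
    (G : Matrix (V (N / l)) (V (N / l)) ℝ) :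
    MeasurableSet {J : V N → ℝ | δ < rsC N l b t₀ (Q₁ • ((G * cobV N l) *ᵥ J))} := by
  have h1 : Measurable fun J : V N → ℝ => Q₁ • ((G * cobV N l) *ᵥ J) := by fun_prop
  exact measurableSet_lt measurable_const ((rsC_meas hb ht₀).comp h1)

lemma meas_ball (F : Matrix W (V (N / l)) ℝ) (u : ℝ) :
    MeasurableSet {J : V N → ℝ | u < ∑ w, ((F * cobV N l) *ᵥ J) w ^ 2} :=
  measurableSet_lt measurable_const (by fun_prop)

/-- two sets -/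
theorem Ech_le_add {I : Type*} [Fintype I] {K : Type*} [Fintype K] {μ' : (K → ℤ) → ℝ}
    (hμ : EM μ') (J₁ : K → ℝ) (P : Matrix I K ℝ) {A B S : Set (K → ℝ)} (hA : MeasurableSet A)
    (hB : MeasurableSet B) (hS : MeasurableSet S) (h : S ⊆ A ∪ B) :
    Ech μ' J₁ P (ind S) ≤ Ech μ' J₁ P (ind A) + Ech μ' J₁ P (ind B) := by
  have h1 := Ech_union hμ J₁ P (Finset.univ : Finset Bool) (B := fun i => if i then A else B)
    (fun i => by cases i <;> simp [hA, hB]) hS (fun J hJ => by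
      rcases h hJ with h' | h'
      · exact ⟨true, Finset.mem_univ _, by simpa using h'⟩
      · exact ⟨false, Finset.mem_univ _, by simpa using h'⟩)
  simpa using h1

variable {ι₁ ι₂ : Type*}

/-- the class is measurable -/
theorem meas_cls (hb : 0 ≤ b) {t₀ : ℝ} (ht₀ : 0 < t₀) (Q₁ δ : ℝ) (q : ℕ)
    (T : Matrix (V (N / l)) (V (N / l)) ℝ) (S₁ : Finset ι₁)
    (B : ι₁ → Finset (V (N / l))) (S₂ : Finset ι₂) {W : ι₂ → Type*} [∀ i, Fintype (W i)]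
    (F : ∀ i, Matrix (W i) (V (N / l)) ℝ) (u : ι₂ → ℝ) :
    MeasurableSet {J : V N → ℝ | Cls N l b t₀ Q₁ δ q T S₁ B S₂ F u J} := by
  have e : {J : V N → ℝ | Cls N l b t₀ Q₁ δ q T S₁ B S₂ F u J} =
      (⋂ β ∈ S₁, {J : V N → ℝ | δ < rsC N l b t₀ (Q₁ • ((bE (B β) q T * cobV N l) *ᵥ J))}ᶜ) ∩
        ⋂ i ∈ S₂, {J : V N → ℝ | u i < ∑ w, ((F i * cobV N l) *ᵥ J) w ^ 2}ᶜ := by
    ext J
    simp only [Set.mem_ofPred_eq, Set.mem_inter_iff, Set.mem_iInter, Set.mem_compl_iff, not_lt]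
    exact ⟨fun h => ⟨h.rs, h.ball⟩, fun h => ⟨h.1, h.2⟩⟩
  rw [e]
  refine MeasurableSet.inter (Finset.measurableSet_biInter _ fun β _ => ?_)
    (Finset.measurableSet_biInter _ fun i _ => ?_)
  · exact (meas_rs hb ht₀ Q₁ δ (bE (B β) q T)).compl
  · exact (meas_ball (F i) (u i)).compl

/-- **zero source probability of the complement of the class** -/
theorem zs0 (hb : 0 ≤ b) (hl : l ∣ N) (hs : 0 < s) (h : s < t) (x₀ : V N)
    {q : ℕ} (hq : q ∣ N / l) {T : Matrix (V (N / l)) (V (N / l)) ℝ} (hT : TC T)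
    {t₀ : ℝ} (ht₀ : 0 < t₀) {X Q₁ δ : ℝ} (hX : 0 < X) (hQ : 0 < Q₁) (hδ : 0 ≤ δ)
    (ha : 9 * Q₁ ^ 2 * (t - s) ≤ X ^ 2 * t₀)
    (S₁ : Finset ι₁) (B : ι₁ → Finset (V (N / l)))
    (hAP : ∀ β ∈ S₁, (gau (V (N / l))).real
      {g | δ < rsC N l b t₀ ((X * √t₀) • (dB (B β) *ᵥ g))} ≤ 1 / 30)
    {π₁ : ι₁ → ℝ}
    (hπ₁ : ∀ β ∈ S₁, Ex (nMC N l b t s x₀) 0 (indh {h | X ^ 2 * t₀ / (12 * Q₁ ^ 2) <
      ∑ w, ((((t - s) • (bE (B β) q T * cobV N l)) *ᵥ re h) w) ^ 2}) ≤ π₁ β)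
    (S₂ : Finset ι₂) {W : ι₂ → Type*} [∀ i, Fintype (W i)]
    (F : ∀ i, Matrix (W i) (V (N / l)) ℝ) (hF : ∀ i ∈ S₂, ∀ w, Neu (F i w))
    {k₁ r₁ u : ι₂ → ℝ} (hk₁ : ∀ i ∈ S₂, 0 < k₁ i) (hu : ∀ i ∈ S₂, 0 ≤ u i)
    (h1 : ∀ i ∈ S₂, ∀ φ : W i → ℝ, ∑ j, ((F i)ᵀ *ᵥ φ) j ^ 2 ≤ k₁ i * ∑ j, φ j ^ 2)
    (hr₁ : ∀ i ∈ S₂, (F i * (F i)ᵀ).trace ≤ r₁ i) {π₂ : ι₂ → ℝ}
    (hπ₂ : ∀ i ∈ S₂, Ex (nMC N l b t s x₀) 0 (indh {h | u i / 9 <
      ∑ w, ((((t - s) • (F i * cobV N l)) *ᵥ re h) w) ^ 2}) ≤ π₂ i) :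
    Ech (nMC N l b t s x₀) 0 (obsN N l (t - s))
      (ind {J | Cls N l b t₀ Q₁ δ q T S₁ B S₂ F u J}ᶜ) ≤
      ∑ β ∈ S₁, (π₁ β + 2 * Real.exp (-(X ^ 2 * t₀ / (63 * Q₁ ^ 2 * (t - s))))) +
        ∑ i ∈ S₂, (π₂ i + Real.exp (r₁ i / (2 * k₁ i) - u i / (36 * (t - s) * k₁ i))) := by
  classical
  have hE := H963.em_nMC (N := N) hb hl hs h.le x₀
  set A : Set (V N → ℝ) := ⋃ β ∈ S₁,
    {J : V N → ℝ | δ < rsC N l b t₀ (Q₁ • ((bE (B β) q T * cobV N l) *ᵥ J))} with hA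
  set D : Set (V N → ℝ) := ⋃ i ∈ S₂, {J : V N → ℝ | u i < ∑ w, ((F i * cobV N l) *ᵥ J) w ^ 2}
    with hD
  have mA : MeasurableSet A := Finset.measurableSet_biUnion _ fun β _ =>
    meas_rs hb ht₀ Q₁ δ (bE (B β) q T)
  have mD : MeasurableSet D := Finset.measurableSet_biUnion _ fun i _ => meas_ball (F i) (u i)
  have hS : {J | Cls N l b t₀ Q₁ δ q T S₁ B S₂ F u J}ᶜ ⊆ A ∪ D := by
    intro J hJ
    by_contra hc
    rw [Set.mem_union, not_or] at hc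
    refine hJ ⟨fun β hβ => ?_, fun i hi => ?_⟩
    · by_contra h'
      exact hc.1 (Set.mem_biUnion hβ (not_le.1 h'))
    · by_contra h'
      exact hc.2 (Set.mem_biUnion hi (not_le.1 h'))
  refine (Ech_le_add hE 0 _ mA mD (meas_cls hb ht₀ Q₁ δ q T S₁ B S₂ F u).compl hS).trans
    (add_le_add ?_ ?_)
  · refine (Ech_union hE 0 _ S₁ (B := fun β => {J : V N → ℝ | δ < rsC N l b t₀
      (Q₁ • ((bE (B β) q T * cobV N l) *ᵥ J))})
      (fun β => meas_rs hb ht₀ Q₁ δ (bE (B β) q T)) mA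
      (fun J hJ => by simpa [hA] using hJ)).trans (Finset.sum_le_sum fun β hβ => ?_)
    exact zs_rs hb hl hs h x₀ hq (B β) hT ht₀ hX hQ hδ (hAP β hβ) ha (hπ₁ β hβ)
  · refine (Ech_union hE 0 _ S₂ (B := fun i => {J : V N → ℝ | u i <
      ∑ w, ((F i * cobV N l) *ᵥ J) w ^ 2}) (fun i => meas_ball (F i) (u i)) mD
      (fun J hJ => by simpa [hD] using hJ)).trans (Finset.sum_le_sum fun i hi => ?_)
    exact zs_ball hb hl hs h x₀ (hF i hi) (hk₁ i hi) (h1 i hi) (hr₁ i hi) (hu i hi) (hπ₂ i hi)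

end one

end

end Vale.Agent.P159.H816
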